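import Vale.Agent.P108.H850.ZoneLine
import Vale.Agent.P108.H442.Slice

/-!
# P108 [ZONE]: the statement `H442.ZoneAt`
-/

namespace Vale.Agent.P108.H850

open Real Set Filter
open Vale.Agent.P108 Vale.Agent.P108.Dyn Vale.Agent.P108.H504 Vale.Agent.P108.H786
  Vale.Agent.P108.Area Vale.Agent.P108.H320 Vale.Agent.P108.H442

/-- **ZONE at a pair of levels**, `k = a^200`. -/
theorem zone_pair {a k E c t0 : ℝ} (ha : 10 ^ 10 ≤ a) (hk : k = a ^ 200)
    (hEa : E = a ^ 180) {L L' : ℤ} {S : Set ℝ} {r p : ℕ} (hr : 2 ≤ r) (hp2 : 2 ≤ p)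
    (hrL : (r : ℤ) ≤ L) (hpL : (p : ℤ) ≤ L')
    (h1 : IsLevel E (rt k c t0) r) (h3 : IsLevel E (lt k c t0) p)
    (h5 : |rt k c t0 r| ≤ Real.sqrt (8 * k) * |lt k c t0 p|)
    (h6 : |lt k c t0 p| ≤ Real.sqrt (8 * k) * |rt k c t0 r|)
    (hD : ∀ t ∈ S, D (ao k (pt k 1 (c, t))) 1 L ≠ 0)
    (hD' : ∀ t ∈ S, D (ao k (pt k 1 (c, phi k c - t))) 1 L' ≠ 0)
    (hG : ∀ t ∈ S, |D (ao k (pt k 1 (c, t))) ((r : ℤ) + 2) L|
      ≤ 1 / a * |D (ao k (pt k 1 (c, t))) ((r : ℤ) + 1) L|)
    (hG' : ∀ t ∈ S, |D (ao k (pt k 1 (c, phi k c - t))) ((p : ℤ) + 2) L'|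
      ≤ 1 / a * |D (ao k (pt k 1 (c, phi k c - t))) ((p : ℤ) + 1) L'|)
    (hSg : ∀ t ∈ S, |Sig k c L L' t| *
      (min |rt k c t0 r| |lt k c t0 p|) ^ 2 ≤ 2 / a / (a ^ 4) ^ 2) :
    ∃ x y, t0 - 3 / min |rt k c t0 r| |lt k c t0 p| ≤ x ∧
      y ≤ t0 + 3 / min |rt k c t0 r| |lt k c t0 p| ∧
      (a ^ 4 / (2 * π * (2 * π * k))) / 90 *
        (3 / min |rt k c t0 r| |lt k c t0 p|) ≤ y - x ∧
      Disjoint (Ioo x y) S := by
  have N := zn_of_a ha
  rw [← hk, ← hEa] at N
  have ha1 : 1 < a := by linarith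
  have hE : 1 < E := by rw [hEa]; exact one_lt_pow₀ ha1 (by norm_num)
  have hEk : E ≤ k := by rw [hEa, hk]; exact pow_le_pow_right₀ ha1.le (by norm_num)
  have Br : Base k (1 / E) 1 ((r : ℤ) - 1) (fam k c t0) :=
    base_of_level N.hk hE hEk hr h1
  have Bl : Base k (1 / E) 1 ((p : ℤ) - 1) (fam k c (phi k c - t0)) :=
    base_of_level N.hk hE hEk hp2 h3
  have er : rate k c t0 ((r : ℤ) - 1) = rt k c t0 r := rfl
  have el : rate k c (phi k c - t0) ((p : ℤ) - 1) = lt k c t0 p := rfl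
  have s1 : (r : ℤ) - 1 + 2 = r + 1 := by ring
  have s2 : (r : ℤ) - 1 + 3 = r + 2 := by ring
  have s3 : (p : ℤ) - 1 + 2 = p + 1 := by ring
  have s4 : (p : ℤ) - 1 + 3 = p + 2 := by ring
  rcases le_total |rt k c t0 r| |lt k c t0 p| with hle | hle
  · rw [min_eq_left hle] at hSg ⊢
    obtain ⟨x, y, g1, g2, g3, g4⟩ := zone_core (c := c) (sm := t0) (sp := phi k c - t0)
      (Em := L) (Ep := L') (S := {x | t0 + x ∈ S}) N Br Bl (by omega) (by omega)
      (by rw [er, el]; exact hle) (by rw [er, el]; exact h6)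
      (fun x hx => hD _ hx)
      (fun x hx => by
        have := hD' _ hx
        rwa [show phi k c - (t0 + x) = phi k c - t0 - x by ring] at this)
      (fun x hx => by
        rw [s1]; exact (tail_ne (by omega) hrL (hD _ hx) (hG _ hx)).1)
      (fun x hx => by
        rw [s3]
        have := (tail_ne (by omega) hpL (hD' _ hx) (hG' _ hx)).1
        rwa [show phi k c - (t0 + x) = phi k c - t0 - x by ring] at this)
      (fun x hx => by
        rw [s1, s2]; exact (tail_ne (by omega) hrL (hD _ hx) (hG _ hx)).2)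
      (fun x hx => by
        rw [s3, s4]
        have := (tail_ne (by omega) hpL (hD' _ hx) (hG' _ hx)).2
        rwa [show phi k c - (t0 + x) = phi k c - t0 - x by ring] at this)
      (fun x hx => by
        have := hSg _ hx
        unfold Sig at this
        rw [show phi k c - (t0 + x) = phi k c - t0 - x by ring] at this
        rw [er]; exact this)
    rw [er] at g1 g2 g3
    refine ⟨t0 + x, t0 + y, by linarith, by linarith, by linarith, ?_⟩
    rw [Set.disjoint_left] at g4 ⊢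
    intro z hz hzS
    apply g4 (a := z - t0) ⟨by linarith [hz.1], by linarith [hz.2]⟩
    show t0 + (z - t0) ∈ S
    rwa [add_sub_cancel]
  · rw [min_eq_right hle] at hSg ⊢
    obtain ⟨x, y, g1, g2, g3, g4⟩ := zone_core (c := c) (sm := phi k c - t0) (sp := t0)
      (Em := L') (Ep := L) (S := {x | t0 - x ∈ S}) N Bl Br (by omega) (by omega)
      (by rw [er, el]; exact hle) (by rw [er, el]; exact h5)
      (fun x hx => by
        have := hD' _ hx
        rwa [show phi k c - (t0 - x) = phi k c - t0 + x by ring] at this)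
      (fun x hx => hD _ hx)
      (fun x hx => by
        rw [s3]
        have := (tail_ne (by omega) hpL (hD' _ hx) (hG' _ hx)).1
        rwa [show phi k c - (t0 - x) = phi k c - t0 + x by ring] at this)
      (fun x hx => by
        rw [s1]; exact (tail_ne (by omega) hrL (hD _ hx) (hG _ hx)).1)
      (fun x hx => by
        rw [s3, s4]
        have := (tail_ne (by omega) hpL (hD' _ hx) (hG' _ hx)).2
        rwa [show phi k c - (t0 - x) = phi k c - t0 + x by ring] at this)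
      (fun x hx => by
        rw [s1, s2]; exact (tail_ne (by omega) hrL (hD _ hx) (hG _ hx)).2)
      (fun x hx => by
        have := hSg _ hx
        unfold Sig at this
        rw [show phi k c - (t0 - x) = phi k c - t0 + x by ring] at this
        rw [el]
        refine le_trans (le_of_eq ?_) this
        congr 2
        ring)
    rw [el] at g1 g2 g3
    refine ⟨t0 - y, t0 - x, by linarith, by linarith, by linarith, ?_⟩
    rw [Set.disjoint_left] at g4 ⊢
    intro z hz hzS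
    apply g4 (a := t0 - z) ⟨by linarith [hz.2], by linarith [hz.1]⟩
    show t0 - (t0 - z) ∈ S
    rwa [sub_sub_cancel]

/-- **[ZONE]**, literal form. -/
theorem zoneAt {k : ℝ} (hk : ((10 : ℝ) ^ 10) ^ 200 ≤ k) :
    ZoneAt k (1 / (360 * π ^ 2)) (1 / 50) (1 / 100) := by
  intro c t0 L L' S r p hr hrL hp hpL h1 h3 h5 h6 hD hD' hG hG' hSg
  have hk0 : 0 < k := lt_of_lt_of_le (by positivity) hk
  obtain ⟨a, haa⟩ : ∃ a : ℝ, a = k ^ (1 / 200 : ℝ) := ⟨_, rfl⟩
  have ha0 : 0 < a := by rw [haa]; positivity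
  have hka : k = a ^ 200 := by
    rw [haa, ← Real.rpow_natCast, ← Real.rpow_mul hk0.le]; norm_num
  have ha : 10 ^ 10 ≤ a := by
    by_contra hc
    push Not at hc
    have : a ^ 200 < (10 ^ 10) ^ 200 := pow_lt_pow_left₀ hc ha0.le (by norm_num)
    linarith
  have hE : k ^ (9 / 10 : ℝ) = a ^ 180 := by
    rw [haa, ← Real.rpow_natCast, ← Real.rpow_mul hk0.le]; norm_num
  have hβ : k ^ (-(1 / 100 : ℝ) / 2) = 1 / a := by
    rw [haa, one_div (k ^ (1 / 200 : ℝ)), ← Real.rpow_neg hk0.le]; norm_num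
  rw [hβ] at hG hG'
  have eL : ∀ t, rt k c t (L + 1) = D (ao k (pt k 1 (c, t))) 1 (L : ℤ) := by
    intro t; unfold rt; congr 1; push_cast; ring
  have eL' : ∀ t, lt k c t (L' + 1) = D (ao k (pt k 1 (c, phi k c - t))) 1 (L' : ℤ) := by
    intro t; unfold lt rt; congr 1; push_cast; ring
  obtain ⟨x, y, g1, g2, g3, g4⟩ := zone_pair (a := a) (k := k) (E := k ^ (9 / 10 : ℝ))
    (L := (L : ℤ)) (L' := (L' : ℤ)) (S := S) ha hka hE hr hp
    (by exact_mod_cast hrL) (by exact_mod_cast hpL) h1 h3 h5 h6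
    (fun t ht => by rw [← eL]; exact hD t ht) (fun t ht => by rw [← eL']; exact hD' t ht)
    hG hG' (fun t ht => by
      refine (hSg t ht).trans ?_
      have e2 : 2 / a / (a ^ 4) ^ 2 = 2 / a ^ 9 := by field_simp
      rw [e2, hka, ← one_div, div_le_div_iff₀ (by positivity) (by positivity)]
      have h9 : a ^ 9 ≤ a ^ 200 := pow_le_pow_right₀ (by linarith) (by norm_num)
      have : 0 < a ^ 200 := by positivity
      linarith)
  refine ⟨x, y, g1, g2, ?_, g4⟩
  refine le_trans (le_of_eq ?_) g3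
  congr 1
  have e5 : k ^ ((1 : ℝ) / 50 - 1) = a ^ 4 / k := by
    rw [Real.rpow_sub hk0, Real.rpow_one]
    congr 1
    rw [haa, ← Real.rpow_natCast, ← Real.rpow_mul hk0.le]; norm_num
  rw [e5]
  field_simp
  norm_num

theorem zone_eventually : ∃ c1 : ℝ, 0 < c1 ∧ ∀ᶠ k in atTop, ZoneAt k c1 (1 / 50) (1 / 100) :=
  ⟨1 / (360 * π ^ 2), by positivity, (eventually_ge_atTop _).mono fun _ hk => zoneAt hk⟩

end Vale.Agent.P108.H850
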