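import Mathlib.Analysis.Calculus.Deriv.Pow
import Mathlib.Analysis.Calculus.Deriv.Add
import Mathlib.Analysis.Calculus.Deriv.Mul
import Mathlib.Analysis.Calculus.LocalExtr.Rolle
import Mathlib.Tactic

/-! Third divided differences: a function `quadratic + R` with `|R'''| ≥ Λ` on an interval cannot be
`θ`-small at four points which are `h`-separated, unless `Λ h^3 ≤ 8 θ`. -/

namespace Vale.Agent.P108.H850

open Set

theorem prod3_le {a b c x y z : ℝ} (ha : 0 ≤ a) (hb : 0 ≤ b) (hc : 0 ≤ c) (h1 : a ≤ x) (h2 : b ≤ y)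
    (h3 : c ≤ z) : a * b * c ≤ x * y * z :=
  mul_le_mul (mul_le_mul h1 h2 hb (ha.trans h1)) h3 hc
    (mul_nonneg (ha.trans h1) (hb.trans h2))

/-- third divided difference bound -/
theorem ddiff_bound {f0 f1 f2 f3 t0 t1 t2 t3 h θ : ℝ} (hh : 0 < h)
    (h01 : h ≤ t1 - t0) (h12 : h ≤ t2 - t1) (h23 : h ≤ t3 - t2)
    (e0 : |f0| ≤ θ) (e1 : |f1| ≤ θ) (e2 : |f2| ≤ θ) (e3 : |f3| ≤ θ) :
    |f0 / ((t0 - t1) * (t0 - t2) * (t0 - t3)) + f1 / ((t1 - t0) * (t1 - t2) * (t1 - t3))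
      + f2 / ((t2 - t0) * (t2 - t1) * (t2 - t3)) + f3 / ((t3 - t0) * (t3 - t1) * (t3 - t2))|
      ≤ (4 / 3) * θ / h ^ 3 := by
  have hθ : 0 ≤ θ := (abs_nonneg _).trans e0
  have key : ∀ (f d c : ℝ), |f| ≤ θ → 0 < c → c * h ^ 3 ≤ |d| → |f / d| ≤ θ / (c * h ^ 3) := by
    intro f d c hf hc hd
    rw [abs_div]
    have : 0 < c * h ^ 3 := by positivity
    exact div_le_div₀ hθ hf this hd
  have a0 := key f0 ((t0 - t1) * (t0 - t2) * (t0 - t3)) 6 e0 (by norm_num) (by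
    rw [abs_mul, abs_mul, abs_sub_comm t0 t1, abs_sub_comm t0 t2, abs_sub_comm t0 t3,
      abs_of_pos (by linarith : 0 < t1 - t0), abs_of_pos (by linarith : 0 < t2 - t0),
      abs_of_pos (by linarith : 0 < t3 - t0)]
    refine le_trans (le_of_eq ?_) (prod3_le (a := h) (b := 2 * h) (c := 3 * h) (by positivity)
      (by positivity) (by positivity) (by linarith) (by linarith) (by linarith))
    ring)
  have a1 := key f1 ((t1 - t0) * (t1 - t2) * (t1 - t3)) 2 e1 (by norm_num) (by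
    rw [abs_mul, abs_mul, abs_sub_comm t1 t2, abs_sub_comm t1 t3,
      abs_of_pos (by linarith : 0 < t1 - t0), abs_of_pos (by linarith : 0 < t2 - t1),
      abs_of_pos (by linarith : 0 < t3 - t1)]
    refine le_trans (le_of_eq ?_) (prod3_le (a := h) (b := h) (c := 2 * h) (by positivity)
      (by positivity) (by positivity) (by linarith) (by linarith) (by linarith))
    ring)
  have a2 := key f2 ((t2 - t0) * (t2 - t1) * (t2 - t3)) 2 e2 (by norm_num) (by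
    rw [abs_mul, abs_mul, abs_sub_comm t2 t3,
      abs_of_pos (by linarith : 0 < t2 - t0), abs_of_pos (by linarith : 0 < t2 - t1),
      abs_of_pos (by linarith : 0 < t3 - t2)]
    refine le_trans (le_of_eq ?_) (prod3_le (a := 2 * h) (b := h) (c := h) (by positivity)
      (by positivity) (by positivity) (by linarith) (by linarith) (by linarith))
    ring)
  have a3 := key f3 ((t3 - t0) * (t3 - t1) * (t3 - t2)) 6 e3 (by norm_num) (by
    rw [abs_mul, abs_mul,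
      abs_of_pos (by linarith : 0 < t3 - t0), abs_of_pos (by linarith : 0 < t3 - t1),
      abs_of_pos (by linarith : 0 < t3 - t2)]
    refine le_trans (le_of_eq ?_) (prod3_le (a := 3 * h) (b := 2 * h) (c := h) (by positivity)
      (by positivity) (by positivity) (by linarith) (by linarith) (by linarith))
    ring)
  have s1 := abs_add_le (f0 / ((t0 - t1) * (t0 - t2) * (t0 - t3))
    + f1 / ((t1 - t0) * (t1 - t2) * (t1 - t3)) + f2 / ((t2 - t0) * (t2 - t1) * (t2 - t3)))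
    (f3 / ((t3 - t0) * (t3 - t1) * (t3 - t2)))
  have s2 := abs_add_le (f0 / ((t0 - t1) * (t0 - t2) * (t0 - t3))
    + f1 / ((t1 - t0) * (t1 - t2) * (t1 - t3))) (f2 / ((t2 - t0) * (t2 - t1) * (t2 - t3)))
  have s3 := abs_add_le (f0 / ((t0 - t1) * (t0 - t2) * (t0 - t3)))
    (f1 / ((t1 - t0) * (t1 - t2) * (t1 - t3)))
  have e : (4 / 3) * θ / h ^ 3 = θ / (6 * h ^ 3) + θ / (2 * h ^ 3) + θ / (2 * h ^ 3)
      + θ / (6 * h ^ 3) := by
    field_simp; ring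
  rw [e]
  linarith

/-- Rolle three times -/
theorem rolle3 {A B : ℝ} {G G1 G2 G3 : ℝ → ℝ}
    (D0 : ∀ t ∈ Icc A B, HasDerivAt G (G1 t) t)
    (D1 : ∀ t ∈ Icc A B, HasDerivAt G1 (G2 t) t)
    (D2 : ∀ t ∈ Icc A B, HasDerivAt G2 (G3 t) t)
    {t0 t1 t2 t3 : ℝ} (A0 : A ≤ t0) (B3 : t3 ≤ B) (c01 : t0 < t1) (c12 : t1 < t2) (c23 : t2 < t3)
    (z0 : G t0 = 0) (z1 : G t1 = 0) (z2 : G t2 = 0) (z3 : G t3 = 0) :
    ∃ ξ ∈ Icc A B, G3 ξ = 0 := by
  have sub : ∀ {x y : ℝ}, A ≤ x → y ≤ B → ∀ t ∈ Icc x y, t ∈ Icc A B := by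
    intro x y hx hy t ht
    exact ⟨hx.trans ht.1, ht.2.trans hy⟩
  have rolle : ∀ (g g' : ℝ → ℝ), (∀ t ∈ Icc A B, HasDerivAt g (g' t) t) → ∀ x y, x < y → A ≤ x →
      y ≤ B → g x = g y → ∃ s ∈ Ioo x y, g' s = 0 := by
    intro g g' hg x y hxy hx hy hgxy
    exact exists_hasDerivAt_eq_zero hxy
      (fun t ht => (hg t (sub hx hy t ht)).continuousAt.continuousWithinAt) hgxy
      (fun t ht => hg t (sub hx hy t (Ioo_subset_Icc_self ht)))
  obtain ⟨s0, hs0, gs0⟩ := rolle G G1 D0 t0 t1 c01 A0 (by linarith) (by rw [z0, z1])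
  obtain ⟨s1, hs1, gs1⟩ := rolle G G1 D0 t1 t2 c12 (by linarith) (by linarith) (by rw [z1, z2])
  obtain ⟨s2, hs2, gs2⟩ := rolle G G1 D0 t2 t3 c23 (by linarith) (by linarith) (by rw [z2, z3])
  obtain ⟨r0, hr0, gr0⟩ := rolle G1 G2 D1 s0 s1 (hs0.2.trans hs1.1) (A0.trans hs0.1.le)
    (by linarith [hs1.2]) (by rw [gs0, gs1])
  obtain ⟨r1, hr1, gr1⟩ := rolle G1 G2 D1 s1 s2 (hs1.2.trans hs2.1) (by linarith [hs1.1])
    (by linarith [hs2.2]) (by rw [gs1, gs2])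
  obtain ⟨ξ, hξ, gξ⟩ := rolle G2 G3 D2 r0 r1 (hr0.2.trans hr1.1)
    (by linarith [hr0.1, hs0.1]) (by linarith [hr1.2, hs2.2]) (by rw [gr0, gr1])
  exact ⟨ξ, ⟨by linarith [hξ.1, hr0.1, hs0.1], by linarith [hξ.2, hr1.2, hs2.2]⟩, gξ⟩

/-- Derivatives of `quadratic + R - cubic Newton polynomial`. -/
theorem newton_derivs {A B C0 C1 C2 n0 n1 n2 n3 a b c : ℝ} {R R1 R2 R3 : ℝ → ℝ}
    (d0 : ∀ t ∈ Icc A B, HasDerivAt R (R1 t) t)
    (d1 : ∀ t ∈ Icc A B, HasDerivAt R1 (R2 t) t)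
    (d2 : ∀ t ∈ Icc A B, HasDerivAt R2 (R3 t) t) :
    ∃ G1 G2 : ℝ → ℝ, (∀ t ∈ Icc A B, HasDerivAt (fun t => C0 + C1 * t + C2 * t ^ 2 + R t
      - (n0 + n1 * (t - a) + n2 * ((t - a) * (t - b)) + n3 * ((t - a) * (t - b) * (t - c))))
        (G1 t) t) ∧ (∀ t ∈ Icc A B, HasDerivAt G1 (G2 t) t) ∧
        (∀ t ∈ Icc A B, HasDerivAt G2 (R3 t - n3 * 6) t) := by
  refine ⟨fun t => C1 + C2 * (2 * t) + R1 t
    - (n1 + n2 * ((t - b) + (t - a)) + n3 * (((t - b) + (t - a)) * (t - c)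
      + (t - a) * (t - b))), fun t => C2 * 2 + R2 t
    - (n2 * 2 + n3 * (2 * (t - c) + 2 * ((t - b) + (t - a)))), ?_, ?_, ?_⟩
  · intro t ht
    have i := hasDerivAt_id' t
    have q : HasDerivAt (fun t : ℝ => t ^ 2) (2 * t) t := by simpa using hasDerivAt_pow 2 t
    have a0 : HasDerivAt (fun t : ℝ => t - a) 1 t := i.sub_const a
    have a1 : HasDerivAt (fun t : ℝ => t - b) 1 t := i.sub_const b
    have a2 : HasDerivAt (fun t : ℝ => t - c) 1 t := i.sub_const c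
    have p1 : HasDerivAt (fun t : ℝ => (t - a) * (t - b)) (1 * (t - b) + (t - a) * 1) t := a0.mul a1
    have p2 : HasDerivAt (fun t : ℝ => (t - a) * (t - b) * (t - c))
      ((1 * (t - b) + (t - a) * 1) * (t - c) + (t - a) * (t - b) * 1) t := p1.mul a2
    have e1 : HasDerivAt (fun t : ℝ => C0 + C1 * t + C2 * t ^ 2 + R t)
      (C1 * 1 + C2 * (2 * t) + R1 t) t :=
      (((i.const_mul C1).const_add C0).add (q.const_mul C2)).add (d0 t ht)
    have e2 : HasDerivAt (fun t : ℝ => n0 + n1 * (t - a) + n2 * ((t - a) * (t - b))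
      + n3 * ((t - a) * (t - b) * (t - c))) (n1 * 1 + n2 * (1 * (t - b) + (t - a) * 1)
        + n3 * ((1 * (t - b) + (t - a) * 1) * (t - c) + (t - a) * (t - b) * 1)) t :=
      (((a0.const_mul n1).const_add n0).add (p1.const_mul n2)).add (p2.const_mul n3)
    refine (e1.sub e2).congr_deriv ?_
    ring
  · intro t ht
    have i := hasDerivAt_id' t
    have a0 : HasDerivAt (fun t : ℝ => t - a) 1 t := i.sub_const a
    have a1 : HasDerivAt (fun t : ℝ => t - b) 1 t := i.sub_const b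
    have a2 : HasDerivAt (fun t : ℝ => t - c) 1 t := i.sub_const c
    have s1 : HasDerivAt (fun t : ℝ => (t - b) + (t - a)) (1 + 1) t := a1.add a0
    have p1 : HasDerivAt (fun t : ℝ => (t - a) * (t - b)) (1 * (t - b) + (t - a) * 1) t := a0.mul a1
    have p2 : HasDerivAt (fun t : ℝ => ((t - b) + (t - a)) * (t - c))
      ((1 + 1) * (t - c) + ((t - b) + (t - a)) * 1) t := s1.mul a2
    have e1 : HasDerivAt (fun t : ℝ => C1 + C2 * (2 * t) + R1 t)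
      (C2 * (2 * 1) + R2 t) t :=
      (((i.const_mul 2).const_mul C2).const_add C1).add (d1 t ht)
    have e2 : HasDerivAt (fun t : ℝ => n1 + n2 * ((t - b) + (t - a))
      + n3 * (((t - b) + (t - a)) * (t - c) + (t - a) * (t - b)))
      (n2 * (1 + 1) + n3 * (((1 + 1) * (t - c) + ((t - b) + (t - a)) * 1)
        + (1 * (t - b) + (t - a) * 1))) t :=
      ((s1.const_mul n2).const_add n1).add ((p2.add p1).const_mul n3)
    refine (e1.sub e2).congr_deriv ?_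
    ring
  · intro t ht
    have i := hasDerivAt_id' t
    have a0 : HasDerivAt (fun t : ℝ => t - a) 1 t := i.sub_const a
    have a1 : HasDerivAt (fun t : ℝ => t - b) 1 t := i.sub_const b
    have a2 : HasDerivAt (fun t : ℝ => t - c) 1 t := i.sub_const c
    have s1 : HasDerivAt (fun t : ℝ => (t - b) + (t - a)) (1 + 1) t := a1.add a0
    have e1 : HasDerivAt (fun t : ℝ => C2 * 2 + R2 t) (R3 t) t := (d2 t ht).const_add (C2 * 2)
    have e2 : HasDerivAt (fun t : ℝ => n2 * 2 + n3 * (2 * (t - c) + 2 * ((t - b) + (t - a))))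
      (n3 * (2 * 1 + 2 * (1 + 1))) t :=
      (((a2.const_mul 2).add (s1.const_mul 2)).const_mul n3).const_add (n2 * 2)
    refine (e1.sub e2).congr_deriv ?_
    ring

theorem four_points {A B Λ θ h C0 C1 C2 : ℝ} {R R1 R2 R3 : ℝ → ℝ}
    (d0 : ∀ t ∈ Icc A B, HasDerivAt R (R1 t) t)
    (d1 : ∀ t ∈ Icc A B, HasDerivAt R1 (R2 t) t)
    (d2 : ∀ t ∈ Icc A B, HasDerivAt R2 (R3 t) t)
    (hΛ : ∀ t ∈ Icc A B, Λ ≤ |R3 t|) (hh : 0 < h)
    {t0 t1 t2 t3 : ℝ} (m0 : A ≤ t0) (m3 : t3 ≤ B)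
    (h01 : h ≤ t1 - t0) (h12 : h ≤ t2 - t1) (h23 : h ≤ t3 - t2)
    (e0 : |C0 + C1 * t0 + C2 * t0 ^ 2 + R t0| ≤ θ)
    (e1 : |C0 + C1 * t1 + C2 * t1 ^ 2 + R t1| ≤ θ)
    (e2 : |C0 + C1 * t2 + C2 * t2 ^ 2 + R t2| ≤ θ)
    (e3 : |C0 + C1 * t3 + C2 * t3 ^ 2 + R t3| ≤ θ) :
    Λ * h ^ 3 ≤ 8 * θ := by
  obtain ⟨f0, hf0⟩ : ∃ f, f = C0 + C1 * t0 + C2 * t0 ^ 2 + R t0 := ⟨_, rfl⟩
  obtain ⟨f1, hf1⟩ : ∃ f, f = C0 + C1 * t1 + C2 * t1 ^ 2 + R t1 := ⟨_, rfl⟩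
  obtain ⟨f2, hf2⟩ : ∃ f, f = C0 + C1 * t2 + C2 * t2 ^ 2 + R t2 := ⟨_, rfl⟩
  obtain ⟨f3, hf3⟩ : ∃ f, f = C0 + C1 * t3 + C2 * t3 ^ 2 + R t3 := ⟨_, rfl⟩
  rw [← hf0] at e0
  rw [← hf1] at e1
  rw [← hf2] at e2
  rw [← hf3] at e3
  have n01 : t1 - t0 ≠ 0 := by linarith
  have n12 : t2 - t1 ≠ 0 := by linarith
  have n23 : t3 - t2 ≠ 0 := by linarith
  have n02 : t2 - t0 ≠ 0 := by linarith
  have n13 : t3 - t1 ≠ 0 := by linarith
  have n03 : t3 - t0 ≠ 0 := by linarith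
  obtain ⟨n1, hn1⟩ : ∃ n, n = (f1 - f0) / (t1 - t0) := ⟨_, rfl⟩
  obtain ⟨n2, hn2⟩ : ∃ n, n = (f2 - f0 - n1 * (t2 - t0)) / ((t2 - t0) * (t2 - t1)) := ⟨_, rfl⟩
  obtain ⟨n3, hn3⟩ : ∃ n, n = (f3 - f0 - n1 * (t3 - t0) - n2 * ((t3 - t0) * (t3 - t1)))
    / ((t3 - t0) * (t3 - t1) * (t3 - t2)) := ⟨_, rfl⟩
  have e1' : f1 - f0 = n1 * (t1 - t0) := by rw [hn1]; field_simp
  have e2' : f2 - f0 - n1 * (t2 - t0) = n2 * ((t2 - t0) * (t2 - t1)) := by rw [hn2]; field_simp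
  have e3' : f3 - f0 - n1 * (t3 - t0) - n2 * ((t3 - t0) * (t3 - t1))
      = n3 * ((t3 - t0) * (t3 - t1) * (t3 - t2)) := by rw [hn3]; field_simp
  obtain ⟨G1, G2, D0, D1, D2⟩ := newton_derivs (C0 := C0) (C1 := C1) (C2 := C2) (n0 := f0)
    (n1 := n1) (n2 := n2) (n3 := n3) (a := t0) (b := t1) (c := t2) d0 d1 d2
  obtain ⟨ξ, hξm, hξ⟩ := rolle3 D0 D1 D2 m0 m3 (by linarith : t0 < t1) (by linarith : t1 < t2)
    (by linarith : t2 < t3) (by linear_combination -hf0) (by linear_combination e1' - hf1)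
    (by linear_combination e2' - hf2) (by linear_combination e3' - hf3)
  have hn3' : n3 = f0 / ((t0 - t1) * (t0 - t2) * (t0 - t3)) + f1 / ((t1 - t0) * (t1 - t2) * (t1 - t3))
      + f2 / ((t2 - t0) * (t2 - t1) * (t2 - t3)) + f3 / ((t3 - t0) * (t3 - t1) * (t3 - t2)) := by
    have m01 : t0 - t1 ≠ 0 := by linarith
    have m02 : t0 - t2 ≠ 0 := by linarith
    have m03 : t0 - t3 ≠ 0 := by linarith
    have m12 : t1 - t2 ≠ 0 := by linarith
    have m13 : t1 - t3 ≠ 0 := by linarith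
    have m23 : t2 - t3 ≠ 0 := by linarith
    have r1 : n3 * ((t3 - t0) * (t3 - t1) * (t3 - t2)) = f3 - (f0 + n1 * (t3 - t0)
        + n2 * ((t3 - t0) * (t3 - t1))) := by linarith
    have r2 : n1 = f0 / (t0 - t1) + f1 / (t1 - t0) := by
      rw [hn1]; field_simp; ring
    have r3 : n2 = f0 / ((t0 - t1) * (t0 - t2)) + f1 / ((t1 - t0) * (t1 - t2))
        + f2 / ((t2 - t0) * (t2 - t1)) := by
      rw [hn2, hn1]; field_simp; ring
    rw [hn3, r2, r3]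
    field_simp
    ring
  have hb := ddiff_bound hh h01 h12 h23 e0 e1 e2 e3
  rw [← hn3'] at hb
  have h1 := hΛ ξ hξm
  have hR3 : R3 ξ = n3 * 6 := by linarith
  rw [hR3, abs_mul, abs_of_pos (by norm_num : (0:ℝ) < 6)] at h1
  have hh3 : 0 < h ^ 3 := by positivity
  have h2 : |n3| * h ^ 3 ≤ (4 / 3) * θ := by
    rw [le_div_iff₀ hh3] at hb; exact hb
  nlinarith [h1, h2]

end Vale.Agent.P108.H850
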