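import Vale.Agent.P108.H850.Quad

/-!
# P108: hole lemma for digits given as functions, quadratic/affine up to small errors
-/

namespace Vale.Agent.P108.H850

open Real Set

theorem eta_gen {α α0 α1 q Q0 v : ℝ} (hα : |α| ≤ α0) (h0 : 0 ≤ v)
    (h3 : v ≤ 3) (hq0 : q ≠ 0) (hα11 : α0 ≤ 1 / 10 ^ 11)
    (hQ : |Q0 - q| ≤ α1 * |q|) (hα1 : 0 ≤ α1) :
    ∃ η, Q0 / (1 + 2 * α * v) = q * (1 + η) ∧ |η| ≤ 1.1 * (α1 + 6 * α0) := by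
  have hα0 : 0 ≤ α0 := le_trans (abs_nonneg _) hα
  have hqp : 0 < |q| := abs_pos.mpr hq0
  obtain ⟨a1, a2, a3⟩ := A_facts hα h0 h3 hα11
  obtain ⟨A, hA⟩ : ∃ A, A = 1 + 2 * α * v := ⟨_, rfl⟩
  rw [← hA] at a2 a3 ⊢
  have hAp : 0 < A := by linarith
  refine ⟨((Q0 - q) / q - 2 * α * v) / A, ?_, ?_⟩
  · field_simp
    rw [hA]; ring
  · have h1 : |(Q0 - q) / q| ≤ α1 := by
      rw [abs_div, div_le_iff₀ hqp]; exact hQ
    rw [abs_div, abs_of_pos hAp, div_le_iff₀ hAp]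
    have h2 := abs_sub ((Q0 - q) / q) (2 * α * v)
    have h3 : 1.1 * (α1 + 6 * α0) * 0.999 ≤ 1.1 * (α1 + 6 * α0) * A := by gcongr
    linarith

theorem weight_final_gen {q Q η B L y : ℝ} (hq0 : q ≠ 0) (hL0 : 0 < L)
    (h1 : |1 / q ^ 2 - 1 / Q ^ 2| ≤ 2.2 * |η| / q ^ 2) (hη1 : |η| ≤ B) (hB : 10 ^ 7 * (L * B) ≤ q ^ 2)
    (hy2 : |y| ≤ 2 / L) : |(1 / q ^ 2 - 1 / Q ^ 2) * y| ≤ 4.4 / 10 ^ 7 / L ^ 2 := by
  rw [abs_mul]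
  have hB0 : 0 ≤ B := le_trans (abs_nonneg _) hη1
  calc |1 / q ^ 2 - 1 / Q ^ 2| * |y|
      ≤ (2.2 * |η| / q ^ 2) * (2 / L) := by gcongr
    _ ≤ (2.2 * B / q ^ 2) * (2 / L) := by gcongr
    _ = 4.4 / 10 ^ 7 * (10 ^ 7 * (L * B)) / (q ^ 2 * L ^ 2) := by field_simp; ring
    _ ≤ 4.4 / 10 ^ 7 * q ^ 2 / (q ^ 2 * L ^ 2) := by gcongr
    _ = 4.4 / 10 ^ 7 / L ^ 2 := by field_simp

theorem zone_transfer_gen {κ L q Q0 xm α α0 α1 θ ε C0 C1 C2 v : ℝ} {Xm Xp : ℝ → ℝ}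
    (hL : 1000 ≤ L) (hκ : L ^ 4 ≤ κ)
    (hq1 : 1 ≤ |q|) (hα : |α| ≤ α0)
    (hα0 : 10 ^ 8 * (L * α0) ≤ 1) (hα1 : 10 ^ 8 * (L * α1) ≤ q ^ 2) (hα1' : α1 ≤ 1 / 1000)
    (hα10 : 0 ≤ α1)
    (hθ : 400000 * L ^ 2 * θ ≤ 1) (hv1 : 1 / 200 ≤ v) (hv2 : v ≤ 2.99)
    (hε : 10 ^ 10 * (2 * π * κ * ε) ≤ 1)
    (hXm : ∀ u, 0 ≤ u → u ≤ 3 → |Xm u - (xm + u + α * u ^ 2)| ≤ ε)
    (hXp : ∀ u, 0 ≤ u → u ≤ 3 → |u - v| ≤ 3 * (L / (2 * π * κ)) →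
      |Xp u - (Xp v + Q0 * (u - v))| ≤ ε)
    (hQ0q : |Q0 - q| ≤ α1 * |q|)
    (hJ : GoodJ κ L (Q0 / (1 + 2 * α * v)) (xm + v + α * v ^ 2) (Xp v) 0) {S : Set ℝ}
    (hS : ∀ u ∈ S, 0 ≤ u → u ≤ 3 → L / 4 ≤ |aF κ (Xm u)| →
      |aF κ (Xm u)| ≤ 5 * L → L / 4 ≤ |aF κ (Xp u)| →
      |C0 + C1 * u + C2 * u ^ 2 + (1 / aF κ (Xm u) + 1 / q ^ 2 * (1 / aF κ (Xp u)))| ≤ θ) :
    ∃ a b, 0 ≤ a ∧ b ≤ 3 ∧ (L / (2 * π * κ)) / 30 ≤ b - a ∧ Disjoint (Icc a b) S ∧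
      ∀ u ∈ Icc a b, L / 4 ≤ |aF κ (Xm u)| ∧
        |aF κ (Xm u)| ≤ 5 * L ∧ L / 4 ≤ |aF κ (Xp u)| := by
  obtain ⟨hκ0, hK6, hKd, hd9, hd0⟩ := sizes hL hκ
  have hL0 : 0 < L := by linarith
  have hK : 0 < 2 * π * κ := by positivity
  have hα00 : 0 ≤ α0 := le_trans (abs_nonneg _) hα
  have hq0 : q ≠ 0 := by rintro rfl; norm_num at hq1
  have hqp : 0 < |q| := by linarith
  have hq2 : 1 ≤ q ^ 2 := by rw [← sq_abs]; exact one_le_pow₀ hq1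
  have hε0 : 0 ≤ ε := le_trans (abs_nonneg _) (hXm 0 le_rfl (by norm_num))
  have hα11 : α0 ≤ 1 / 10 ^ 11 := by
    have h1 : 1000 * α0 ≤ L * α0 := by gcongr
    linarith
  have hv0 : 0 ≤ v := by linarith
  have hv3 : v ≤ 3 := by linarith
  obtain ⟨hαv, hA0, hA3⟩ := A_facts hα hv0 hv3 hα11
  obtain ⟨η, hη, hη1⟩ := eta_gen hα hv0 hv3 hq0 hα11 hQ0q hα10
  set d := L / (2 * π * κ) with hd
  obtain ⟨A, hA⟩ : ∃ A, A = 1 + 2 * α * v := ⟨_, rfl⟩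
  rw [← hA] at hA0 hA3 hη
  have hAp : 0 < A := by linarith
  obtain ⟨Q, hQ⟩ : ∃ Q, Q = Q0 / A := ⟨_, rfl⟩
  rw [← hA, ← hQ] at hJ
  obtain ⟨z, hz⟩ : ∃ z, z = xm + v + α * v ^ 2 := ⟨_, rfl⟩
  obtain ⟨w, hw⟩ : ∃ w, w = Xp v := ⟨_, rfl⟩
  rw [← hz, ← hw] at hJ
  have hxm : ∀ s, xm + (v + s / A) + α * (v + s / A) ^ 2 = z + s + α * (s / A) ^ 2 := by
    intro s
    rw [hz]
    have : s / A * A = s := by field_simp
    linear_combination this + (s / A) * (-hA)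
  have hQη : Q = q * (1 + η) := by rw [hQ, hη]
  have hη2 : |η| ≤ 1 / 100 := by linarith
  have hQ0' : Q ≠ 0 := by
    rw [hQη]
    have := abs_le.mp hη2
    have h2 : 0 < 1 + η := by linarith [this.1]
    exact mul_ne_zero hq0 h2.ne'
  have hKs : ∀ s, |s| ≤ 2 * d → |s / A| ≤ 2.0025 * d ∧
      2 * π * κ * (s / A) ^ 2 ≤ 4.05 * (L * d) :=
    fun s hs => (Ks_bound hL0 hK hKd hd0 hA0 hs)
  have hu : ∀ s, |s| ≤ 2 * d → 0 ≤ v + s / A ∧ v + s / A ≤ 3 := by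
    intro s hs
    have h1 : |s / A| ≤ 1 / 200 := by
      have := (Ks_bound hL0 hK hKd hd0 hA0 hs).1
      linarith
    have h2 := abs_le.mp h1
    constructor
    · linarith [h2.1]
    · linarith [h2.2]
  have hε1 : ∀ s, |s| ≤ 2 * d →
      |aF κ (Xm (v + s / A)) - aF κ (z + s)|
        ≤ 4.05 * (α0 * (L * d)) + 2 * π * κ * ε := by
    intro s hs
    refine (aF_lip hκ0 _ _).trans ?_
    obtain ⟨u0, u3⟩ := hu s hs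
    have h0 := hXm (v + s / A) u0 u3
    rw [hxm s] at h0
    have h2 : |Xm (v + s / A) - (z + s)| ≤ ε + |α| * (s / A) ^ 2 := by
      have e1 : Xm (v + s / A) - (z + s)
          = (Xm (v + s / A) - (z + s + α * (s / A) ^ 2)) + α * (s / A) ^ 2 := by ring
      rw [e1]
      refine (abs_add_le _ _).trans ?_
      rw [abs_mul, abs_of_nonneg (sq_nonneg (s / A))]
      linarith
    have h1 := (hKs s hs).2
    calc 2 * π * κ * |Xm (v + s / A) - (z + s)|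
        ≤ 2 * π * κ * (ε + |α| * (s / A) ^ 2) := by gcongr
      _ = 2 * π * κ * ε + |α| * (2 * π * κ * (s / A) ^ 2) := by ring
      _ ≤ 2 * π * κ * ε + α0 * (4.05 * (L * d)) := by
        have := mul_le_mul hα h1 (by positivity) hα00
        linarith
      _ = _ := by ring
  have hε2 : ∀ s, |s| ≤ 2 * d →
      |aF κ (Xp (v + s / A)) - aF κ (w + Q * s)| ≤ 2 * π * κ * ε := by
    intro s hs
    refine (aF_lip hκ0 _ _).trans ?_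
    obtain ⟨u0, u3⟩ := hu s hs
    have h5 : |v + s / A - v| ≤ 3 * d := by
      rw [add_sub_cancel_left]
      have := (hKs s hs).1
      linarith
    have h0 := hXp (v + s / A) u0 u3 h5
    have e1 : Xp v + Q0 * (v + s / A - v) = w + Q * s := by rw [hw, hQ]; field_simp; ring
    rw [e1] at h0
    gcongr
  have hsm1 : 4.05 * (α0 * (L * d)) ≤ 1 / 10 ^ 10 := small1 hα0 hd9 hd0
  have hsm2 : 2 * π * κ * ε ≤ 1 / 10 ^ 10 := by linarith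
  have hθ' : 200000 * L ^ 2 * (θ + 1 / (1000000 * L ^ 2)) < 1 := by
    have h1 : 200000 * L ^ 2 * (θ + 1 / (1000000 * L ^ 2))
        = (400000 * L ^ 2 * θ) / 2 + 1 / 5 := by field_simp; ring
    rw [h1]; linarith
  have hB : 10 ^ 7 * (L * (1.1 * (α1 + 6 * α0))) ≤ q ^ 2 := by
    have h1 : 10 ^ 7 * (L * (1.1 * (α1 + 6 * α0)))
        = 0.11 * (10 ^ 8 * (L * α1)) + 0.66 * (10 ^ 8 * (L * α0)) := by ring
    rw [h1]; linarith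
  obtain ⟨a, b, ha, hb, hab, hdis, hbd⟩ := hole_interval (C0 := C0 + C1 * v + C2 * v ^ 2)
    (C1 := (C1 + 2 * C2 * v) / A) (C2 := C2 / A ^ 2) (θ := θ + 1 / (1000000 * L ^ 2))
    hL0 hκ0 hQ0' hJ hθ' (S := {s | v + s / A ∈ S}) (by
      intro s hs hs2 g1 g2 g3
      rw [sub_zero] at hs2
      obtain ⟨u0, u3⟩ := hu s hs2
      obtain ⟨k1, k2⟩ := inv_diff hL0 g1 (hε1 s hs2) (by linarith)
      obtain ⟨k3, k4⟩ := inv_diff hL0 g3 (hε2 s hs2) (by linarith)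
      have k5 : |aF κ (Xm (v + s / A))| ≤ 5 * L := by
        have := abs_sub_abs_le_abs_sub (aF κ (Xm (v + s / A))) (aF κ (z + s))
        linarith [hε1 s hs2]
      have k6 := hS (v + s / A) hs u0 u3 k1 k5 k3
      have e1 : C0 + C1 * (v + s / A) + C2 * (v + s / A) ^ 2
          = C0 + C1 * v + C2 * v ^ 2 + (C1 + 2 * C2 * v) / A * s + C2 / A ^ 2 * s ^ 2 := by
        field_simp; ring
      rw [e1] at k6
      have hy2 : |1 / aF κ (w + Q * s)| ≤ 2 / L := by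
        rw [abs_div, abs_one, div_le_div_iff₀ (by linarith) hL0]
        linarith
      refine (four_tri (Q := 1 / Q ^ 2) k6 k2 (δ2 := 8 * (2 * π * κ * ε) / L ^ 2)
        (δ3 := 4.4 / 10 ^ 7 / L ^ 2) ?_ ?_).trans ?_
      · rw [abs_mul, abs_of_pos (by positivity : 0 < 1 / q ^ 2)]
        have h6 : 1 / q ^ 2 ≤ 1 := by rw [div_le_one (by positivity)]; exact hq2
        calc 1 / q ^ 2 * |1 / aF κ (Xp (v + s / A)) - 1 / aF κ (w + Q * s)|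
            ≤ 1 * (8 * (2 * π * κ * ε) / L ^ 2) := by gcongr
          _ = 8 * (2 * π * κ * ε) / L ^ 2 := by ring
      · have h1 := weight_diff hη2 hq0
        rw [← hQη] at h1
        exact weight_final_gen hq0 hL0 h1 hη1 hB hy2
      · have h7 : θ + 8 * (4.05 * (α0 * (L * d)) + 2 * π * κ * ε) / L ^ 2
            + 8 * (2 * π * κ * ε) / L ^ 2 + 4.4 / 10 ^ 7 / L ^ 2
            = θ + (8 * (4.05 * (α0 * (L * d))) + 16 * (2 * π * κ * ε) + 4.4 / 10 ^ 7) / L ^ 2 := by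
          ring
        rw [h7]
        have h8 : (8 * (4.05 * (α0 * (L * d))) + 16 * (2 * π * κ * ε) + 4.4 / 10 ^ 7) / L ^ 2
            ≤ (1 / 1000000) / L ^ 2 := by
          apply div_le_div_of_nonneg_right _ (by positivity)
          linarith
        have h9 : (1 / 1000000) / L ^ 2 = 1 / (1000000 * L ^ 2) := by field_simp
        linarith)
  refine ⟨v + a / A, v + b / A, ?_, ?_, ?_, ?_, ?_⟩
  · exact (hu a (by rw [abs_le]; constructor <;> linarith)).1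
  · exact (hu b (by rw [abs_le]; constructor <;> linarith)).2
  · have : v + b / A - (v + a / A) = (b - a) / A := by ring
    rw [this, le_div_iff₀ hAp]
    have h9 : d / 30 * A ≤ d / 30 * 1.001 := by gcongr
    linarith
  · rw [Set.disjoint_left] at hdis ⊢
    intro u hu' huS
    have h1 : A * (u - v) ∈ Icc a b := by
      constructor
      · have := hu'.1
        have h2 : a / A ≤ u - v := by linarith
        rw [div_le_iff₀ hAp] at h2; linarith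
      · have := hu'.2
        have h2 : u - v ≤ b / A := by linarith
        rw [le_div_iff₀ hAp] at h2; linarith
    apply hdis h1
    show v + A * (u - v) / A ∈ S
    have h3 : v + A * (u - v) / A = u := by field_simp; ring
    rw [h3]; exact huS
  · intro u hu'
    have h1 : A * (u - v) ∈ Icc a b := by
      constructor
      · have := hu'.1
        have h2 : a / A ≤ u - v := by linarith
        rw [div_le_iff₀ hAp] at h2; linarith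
      · have := hu'.2
        have h2 : u - v ≤ b / A := by linarith
        rw [le_div_iff₀ hAp] at h2; linarith
    have h3 : v + A * (u - v) / A = u := by field_simp; ring
    have hs2 : |A * (u - v)| ≤ 2 * d := by
      rw [abs_le]; constructor
      · linarith [h1.1]
      · linarith [h1.2]
    obtain ⟨g1, g2, g3⟩ := hbd _ h1
    obtain ⟨k1, -⟩ := inv_diff hL0 g1 (hε1 _ hs2) (by linarith)
    obtain ⟨k3, -⟩ := inv_diff hL0 g3 (hε2 _ hs2) (by linarith)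
    have k5 : |aF κ (Xm (v + A * (u - v) / A))| ≤ 5 * L := by
      have := abs_sub_abs_le_abs_sub (aF κ (Xm (v + A * (u - v) / A)))
        (aF κ (z + A * (u - v)))
      linarith [hε1 _ hs2]
    rw [h3] at k1 k3 k5
    exact ⟨k1, k5, k3⟩

/-- the fit with room -/
theorem fit2 {κ α β α0 q v v1 xm xp : ℝ} {Xp : ℝ → ℝ} (hα : |α| ≤ α0) (hβ : |β| ≤ q ^ 2 * α0)
    (hq : |q| ≤ 1.05) (hα11 : α0 ≤ 1 / 10 ^ 11) (k0 : 0 ≤ v1) (k3 : v1 ≤ 3) (hK0 : 0 ≤ 2 * π * κ)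
    (hKα : 2000 * (2 * π * κ * α0 ^ 2) ≤ 1) (h0 : 0 ≤ v) (h3 : v ≤ 3)
    (hX : 2 * π * κ * |Xp v - (xp + q * v + β * v ^ 2)| ≤ 0.001) :
    2 * π * κ * |Xp v
        - ((xp + q * v1 + β * v1 ^ 2)
        + (q + 2 * β * v1) / (1 + 2 * α * v1) * ((xm + v + α * v ^ 2) - (xm + v1 + α * v1 ^ 2))
        + (β / (1 + 2 * α * v1) ^ 2 - (q + 2 * β * v1) * α / (1 + 2 * α * v1) ^ 3)
          * ((xm + v + α * v ^ 2) - (xm + v1 + α * v1 ^ 2)) ^ 2)| ≤ 0.1 := by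
  obtain ⟨-, f⟩ := fit (v := v) (v1 := v1) hα hβ hq hα11 h0 h3 k0 k3
  have e5 : Xp v
    - ((xp + q * v1 + β * v1 ^ 2)
    + (q + 2 * β * v1) / (1 + 2 * α * v1) * ((xm + v + α * v ^ 2) - (xm + v1 + α * v1 ^ 2))
    + (β / (1 + 2 * α * v1) ^ 2 - (q + 2 * β * v1) * α / (1 + 2 * α * v1) ^ 3)
      * ((xm + v + α * v ^ 2) - (xm + v1 + α * v1 ^ 2)) ^ 2)
    = (Xp v - (xp + q * v + β * v ^ 2)) + ((q * v + β * v ^ 2) - ((q * v1 + β * v1 ^ 2)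
  + (q + 2 * β * v1) / (1 + 2 * α * v1) * ((v + α * v ^ 2) - (v1 + α * v1 ^ 2))
  + (β / (1 + 2 * α * v1) ^ 2 - (q + 2 * β * v1) * α / (1 + 2 * α * v1) ^ 3)
    * ((v + α * v ^ 2) - (v1 + α * v1 ^ 2)) ^ 2)) := by
    have e6 : (xm + v + α * v ^ 2) - (xm + v1 + α * v1 ^ 2)
      = (v + α * v ^ 2) - (v1 + α * v1 ^ 2) := by ring
    rw [e6]; ring
  rw [e5]
  refine (mul_le_mul_of_nonneg_left (abs_add_le _ _) hK0).trans ?_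
  rw [mul_add]
  have h7 : 2 * π * κ * (140 * α0 ^ 2) = 0.07 * (2000 * (2 * π * κ * α0 ^ 2)) := by ring
  have h8 := mul_le_mul_of_nonneg_left f hK0
  linarith

theorem ratio_gen {κ L α α0 α1 q Q0 v : ℝ} (hα : |α| ≤ α0) (h0 : 0 ≤ v) (h3 : v ≤ 3)
    (hq1 : 1 ≤ |q|) (hα11 : α0 ≤ 1 / 10 ^ 11) (hα10 : 0 ≤ α1) (hα1 : α1 ≤ 1 / 2000)
    (hQ : |Q0 - q| ≤ α1 * |q|) (hL : 0 < L) (hqL : 2 * |q| * L ^ 3 ≤ κ) :
    0.999 * |q| ≤ |Q0 / (1 + 2 * α * v)| ∧ |Q0 / (1 + 2 * α * v)| * L ^ 3 ≤ κ ∧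
    |Q0 / (1 + 2 * α * v) - q| ≤ 0.001 * |q| := by
  have hq0 : q ≠ 0 := by rintro rfl; norm_num at hq1
  obtain ⟨η, hη, hη1⟩ := eta_gen hα h0 h3 hq0 hα11 hQ hα10
  rw [hη]
  have h1 : |η| ≤ 0.0009 := by linarith
  have h2 := abs_le.mp h1
  have h4 : |1 + η| = 1 + η := abs_of_pos (by linarith [h2.1])
  have hq0 : 0 ≤ |q| := abs_nonneg _
  have hL3 : 0 < L ^ 3 := by positivity
  refine ⟨?_, ?_, ?_⟩
  · rw [abs_mul, h4]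
    calc 0.999 * |q| = |q| * 0.999 := by ring
      _ ≤ |q| * (1 + η) := by gcongr; linarith [h2.1]
  · rw [abs_mul, h4]
    calc |q| * (1 + η) * L ^ 3 ≤ |q| * 2 * L ^ 3 := by gcongr; linarith [h2.2]
      _ = 2 * |q| * L ^ 3 := by ring
      _ ≤ κ := hqL
  · rw [show q * (1 + η) - q = q * η by ring, abs_mul]
    calc |q| * |η| ≤ |q| * 0.001 := by gcongr; linarith
      _ = 0.001 * |q| := by ring

theorem exists_good_one_gen {κ L q xm xp α β α0 α1 v1 v2 v3 v4 z1 z2 z3 z4 : ℝ} {n : ℤ}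
    {Xp Qp : ℝ → ℝ} (hL : 1000 ≤ L) (hκ : L ^ 4 ≤ κ)
    (hq1 : 1 ≤ |q|) (hq : |q| < 1.05) (hqL : 2 * |q| * L ^ 3 ≤ κ) (hα : |α| ≤ α0)
    (hβ : |β| ≤ q ^ 2 * α0) (hα11 : α0 ≤ 1 / 10 ^ 11)
    (hα10 : 0 ≤ α1) (hα1 : α1 ≤ 1 / 2000)
    (hKα : 2000 * (2 * π * κ * α0 ^ 2) ≤ 1)
    (hQp : ∀ v, 0 ≤ v → v ≤ 3 → |Qp v - q| ≤ α1 * |q|)
    (hXp : ∀ v, 0 ≤ v → v ≤ 3 → 2 * π * κ * |Xp v - (xp + q * v + β * v ^ 2)| ≤ 0.001)
    (hz1 : z1 = n + 1 * (1 / 4 + dl κ)) (hz2 : z2 = z1 + (1 / 2 - 2 * 1 * dl κ))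
    (hz3 : z3 = z1 + 1) (hz4 : z4 = z1 + (3 / 2 - 2 * 1 * dl κ))
    (a1 : 0 ≤ v1) (b1 : v1 ≤ 3) (e1 : xm + v1 + α * v1 ^ 2 = z1)
    (a2 : 0 ≤ v2) (b2 : v2 ≤ 3) (e2 : xm + v2 + α * v2 ^ 2 = z2)
    (a3 : 0 ≤ v3) (b3 : v3 ≤ 3) (e3 : xm + v3 + α * v3 ^ 2 = z3)
    (a4 : 0 ≤ v4) (b4 : v4 ≤ 3) (e4 : xm + v4 + α * v4 ^ 2 = z4) :
    GoodJ κ L (Qp v1 / (1 + 2 * α * v1)) z1 (Xp v1) 0 ∨
    GoodJ κ L (Qp v2 / (1 + 2 * α * v2)) z2 (Xp v2) 0 ∨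
    GoodJ κ L (Qp v3 / (1 + 2 * α * v3)) z3 (Xp v3) 0 ∨
    GoodJ κ L (Qp v4 / (1 + 2 * α * v4)) z4 (Xp v4) 0 := by
  have hL0 : 0 < L := by linarith
  have hK0 : 0 ≤ 2 * π * κ := by
    have : 0 < κ := lt_of_lt_of_le (by positivity) hκ
    positivity
  have hα00 : 0 ≤ α0 := le_trans (abs_nonneg _) hα
  have hsmall : 2.4 * α0 ≤ 1 / 1000 := by linarith
  have hq98 : 0.98 ≤ 0.999 * |q| := by linarith
  have hq5 : 0.001 * |q| ≤ 0.002 := by linarith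
  obtain ⟨r1, s1, t1⟩ := ratio_gen hα a1 b1 hq1 hα11 hα10 hα1 (hQp v1 a1 b1) hL0 hqL
  obtain ⟨r2, s2, t2⟩ := ratio_gen hα a2 b2 hq1 hα11 hα10 hα1 (hQp v2 a2 b2) hL0 hqL
  obtain ⟨r3, s3, t3⟩ := ratio_gen hα a3 b3 hq1 hα11 hα10 hα1 (hQp v3 a3 b3) hL0 hqL
  obtain ⟨r4, s4, t4⟩ := ratio_gen hα a4 b4 hq1 hα11 hα10 hα1 (hQp v4 a4 b4) hL0 hqL
  -- the value `c1`
  have hc1 : |(q + 2 * β * v1) / (1 + 2 * α * v1) - q| ≤ 0.001 * |q| := by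
    have hb : |(q + 2 * β * v1) - q| ≤ (1 / 2000) * |q| := by
      rw [add_sub_cancel_left, abs_mul, abs_mul, abs_of_nonneg a1,
        abs_of_pos (by norm_num : (0:ℝ) < 2)]
      have h1 : |β| ≤ 2 * α0 := by
        refine hβ.trans ?_
        have h2 : q ^ 2 ≤ 1.05 ^ 2 := by
          rw [← sq_abs]; exact pow_le_pow_left₀ (abs_nonneg _) hq.le 2
        have h3 : (1.05:ℝ) ^ 2 ≤ 2 := by norm_num
        have h4 : q ^ 2 ≤ 2 := h2.trans h3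
        gcongr
      calc 2 * |β| * v1 ≤ 2 * (2 * α0) * 3 := by gcongr
        _ ≤ (1 / 2000) * 1 := by linarith
        _ ≤ (1 / 2000) * |q| := by gcongr
    exact (ratio_gen hα a1 b1 hq1 hα11 (by norm_num) le_rfl hb hL0 hqL).2.2
  have hdiff : ∀ x y : ℝ, |x - q| ≤ 0.001 * |q| → |y - q| ≤ 0.001 * |q| → |x - y| ≤ 0.01 := by
    intro x y hx hy
    have h1 := abs_sub_le x q y
    rw [abs_sub_comm q y] at h1
    linarith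
  have c2b := (fit (v := v1) (v1 := v1) hα hβ hq.le hα11 a1 b1 a1 b1).1
  have hfit := fun v h0 h3 => fit2 (xm := xm) (xp := xp) (v := v) (v1 := v1) (Xp := Xp)
      hα hβ hq.le hα11 a1 b1 hK0 hKα h0 h3 (hXp v h0 h3)
  have f1 := hfit v1 a1 b1
  have f2 := hfit v2 a2 b2
  have f3 := hfit v3 a3 b3
  have f4 := hfit v4 a4 b4
  rw [e1] at f1 f2 f3 f4
  rw [e2] at f2
  rw [e3] at f3
  rw [e4] at f4
  exact zone_select hL hκ n (σ := 1) (Or.inl rfl) hz1 hz2 hz3 hz4 (c2b.trans hsmall)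
      f1 f2 f3 f4 (hq98.trans r1) (hq98.trans r2) (hq98.trans r3) (hq98.trans r4) s1 s2 s3 s4
      (hdiff _ _ t1 hc1) (hdiff _ _ t2 hc1) (hdiff _ _ t3 hc1) (hdiff _ _ t4 hc1)

/-- existence of a good zone, general digits -/
theorem exists_good_gen {κ L q xm xp α β α0 α1 : ℝ} {Xp Qp : ℝ → ℝ} (hL : 1000 ≤ L)
    (hκ : L ^ 4 ≤ κ)
    (hq1 : 1 ≤ |q|) (hqL : 2 * |q| * L ^ 3 ≤ κ) (hα : |α| ≤ α0)
    (hα11 : α0 ≤ 1 / 10 ^ 11) (hα10 : 0 ≤ α1) (hα1 : α1 ≤ 1 / 2000)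
    (hKα : 2000 * (2 * π * κ * α0 ^ 2) ≤ 1)
    (hQp : ∀ v, 0 ≤ v → v ≤ 3 → |Qp v - q| ≤ α1 * |q|)
    (hXp : |q| < 1.05 → |β| ≤ q ^ 2 * α0 ∧
      ∀ v, 0 ≤ v → v ≤ 3 → 2 * π * κ * |Xp v - (xp + q * v + β * v ^ 2)| ≤ 0.001) :
    ∃ v, 1 / 200 ≤ v ∧ v ≤ 2.99 ∧
      GoodJ κ L (Qp v / (1 + 2 * α * v)) (xm + v + α * v ^ 2) (Xp v) 0 := by
  have hL0 : 0 < L := by linarith
  have hκ1 : 10000 ≤ κ := by
    have : (1000:ℝ) ^ 4 ≤ L ^ 4 := pow_le_pow_left₀ (by norm_num) hL 4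
    linarith
  obtain ⟨hδ0, hδ1⟩ := dl_small hκ1
  obtain ⟨n, hn⟩ : ∃ n : ℤ, n = ⌈xm + 0.01 - (1 / 4 + dl κ)⌉ := ⟨_, rfl⟩
  have hn1 : xm + 0.01 - (1 / 4 + dl κ) ≤ n := by rw [hn]; exact Int.le_ceil _
  have hn2 : (n : ℝ) < xm + 0.01 - (1 / 4 + dl κ) + 1 := by rw [hn]; exact Int.ceil_lt_add_one _
  obtain ⟨z1, hz1⟩ : ∃ z1 : ℝ, z1 = n + 1 * (1 / 4 + dl κ) := ⟨_, rfl⟩
  obtain ⟨z2, hz2⟩ : ∃ z2 : ℝ, z2 = z1 + (1 / 2 - 2 * 1 * dl κ) := ⟨_, rfl⟩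
  obtain ⟨z3, hz3⟩ : ∃ z3 : ℝ, z3 = z1 + 1 := ⟨_, rfl⟩
  obtain ⟨z4, hz4⟩ : ∃ z4 : ℝ, z4 = z1 + (3 / 2 - 2 * 1 * dl κ) := ⟨_, rfl⟩
  obtain ⟨v1, a1, b1, e1⟩ := exists_v (xm := xm) (y := z1) hα hα11 (by linarith) (by linarith)
  obtain ⟨v2, a2, b2, e2⟩ := exists_v (xm := xm) (y := z2) hα hα11 (by linarith) (by linarith)
  obtain ⟨v3, a3, b3, e3⟩ := exists_v (xm := xm) (y := z3) hα hα11 (by linarith) (by linarith)
  obtain ⟨v4, a4, b4, e4⟩ := exists_v (xm := xm) (y := z4) hα hα11 (by linarith) (by linarith)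
  have p1 : 0 ≤ v1 := by linarith
  have p2 : 0 ≤ v2 := by linarith
  have p3 : 0 ≤ v3 := by linarith
  have p4 : 0 ≤ v4 := by linarith
  have m1 : v1 ≤ 3 := by linarith
  have m2 : v2 ≤ 3 := by linarith
  have m3 : v3 ≤ 3 := by linarith
  have m4 : v4 ≤ 3 := by linarith
  obtain ⟨r1, s1, t1⟩ := ratio_gen hα p1 m1 hq1 hα11 hα10 hα1 (hQp v1 p1 m1) hL0 hqL
  by_cases hq : 1.05 ≤ |q|
  · refine ⟨v1, a1, by linarith, ?_⟩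
    rw [e1]
    rcases hole_local hL hκ (q := Qp v1 / (1 + 2 * α * v1)) (xm := z1)
      (xp := Xp v1) (by linarith) s1 n (σ := 1) (Or.inl rfl) 0
      (by rw [hz1]; ring) with g | ⟨g, -⟩
    · exact g
    · exfalso
      have : 0.999 * 1.05 ≤ 0.999 * |q| := by gcongr
      linarith
  · push Not at hq
    obtain ⟨hβ, hX⟩ := hXp hq
    rcases exists_good_one_gen hL hκ hq1 hq hqL hα hβ hα11 hα10 hα1 hKα hQp hX hz1 hz2 hz3 hz4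
      p1 m1 e1 p2 m2 e2 p3 m3 e3 p4 m4 e4 with g | g | g | g
    · exact ⟨v1, a1, by linarith, by rw [e1]; exact g⟩
    · exact ⟨v2, a2, by linarith, by rw [e2]; exact g⟩
    · exact ⟨v3, a3, by linarith, by rw [e3]; exact g⟩
    · exact ⟨v4, a4, by linarith, by rw [e4]; exact g⟩

/-- **GENERAL HOLE LEMMA.**  `κ = 2πk`, `K = 2πκ`, `d = L/K`.  The slower digit is
`Xm u = xm + u + α u² + O(ε)`, the other digit `Xp` has local speed `Qp v`, `Qp v = q (1 + O(α1))`,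
`|q| ≥ 1`, it is affine up to `ε` at distances `≤ 3d`, and, if `|q| < 1.05`, it is
`xp + q u + β u²` up to `ε`; `K ε ≤ 10⁻¹⁰`.  If on `S` a quadratic polynomial plus
`1/a(Xm u) + q⁻²/a(Xp u)` is `≤ θ ≤ 1/(400000 L²)` then `S` misses an interval of length
`≥ (L/K)/30` of `[0,3]`. -/
theorem hole_gen {κ L q xm xp α β α0 α1 θ ε C0 C1 C2 : ℝ} {Xm Xp Qp : ℝ → ℝ}
    (hL : 1000 ≤ L) (hκ : L ^ 4 ≤ κ)
    (hq1 : 1 ≤ |q|) (hqL : 2 * |q| * L ^ 3 ≤ κ) (hα : |α| ≤ α0)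
    (hα0 : 10 ^ 8 * (L * α0) ≤ 1) (hα10 : 0 ≤ α1) (hα1 : 10 ^ 8 * (L * α1) ≤ q ^ 2)
    (hα1' : α1 ≤ 1 / 2000)
    (hKα : 2000 * (2 * π * κ * α0 ^ 2) ≤ 1)
    (hθ : 400000 * L ^ 2 * θ ≤ 1)
    (hε : 10 ^ 10 * (2 * π * κ * ε) ≤ 1)
    (hXm : ∀ u, 0 ≤ u → u ≤ 3 → |Xm u - (xm + u + α * u ^ 2)| ≤ ε)
    (hXp : ∀ v u, 0 ≤ v → v ≤ 3 → 0 ≤ u → u ≤ 3 → |u - v| ≤ 3 * (L / (2 * π * κ)) →
      |Xp u - (Xp v + Qp v * (u - v))| ≤ ε)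
    (hQp : ∀ v, 0 ≤ v → v ≤ 3 → |Qp v - q| ≤ α1 * |q|)
    (hXq : |q| < 1.05 → |β| ≤ q ^ 2 * α0 ∧
      ∀ v, 0 ≤ v → v ≤ 3 → |Xp v - (xp + q * v + β * v ^ 2)| ≤ ε) {S : Set ℝ}
    (hS : ∀ u ∈ S, 0 ≤ u → u ≤ 3 → L / 4 ≤ |aF κ (Xm u)| →
      |aF κ (Xm u)| ≤ 5 * L → L / 4 ≤ |aF κ (Xp u)| →
      |C0 + C1 * u + C2 * u ^ 2 + (1 / aF κ (Xm u) + 1 / q ^ 2 * (1 / aF κ (Xp u)))| ≤ θ) :
    ∃ a b, 0 ≤ a ∧ b ≤ 3 ∧ (L / (2 * π * κ)) / 30 ≤ b - a ∧ Disjoint (Icc a b) S ∧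
      ∀ u ∈ Icc a b, L / 4 ≤ |aF κ (Xm u)| ∧
        |aF κ (Xm u)| ≤ 5 * L ∧ L / 4 ≤ |aF κ (Xp u)| := by
  obtain ⟨hκ0, hK6, -, -, -⟩ := sizes hL hκ
  have hK : 0 < 2 * π * κ := by positivity
  have hα00 : 0 ≤ α0 := le_trans (abs_nonneg _) hα
  have hα11 : α0 ≤ 1 / 10 ^ 11 := by
    have h1 : 1000 * α0 ≤ L * α0 := by gcongr
    linarith
  obtain ⟨v, hv1, hv2, hJ⟩ := exists_good_gen (xm := xm) (xp := xp) (β := β) (Xp := Xp) (Qp := Qp)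
    hL hκ hq1 hqL hα hα11 hα10 hα1' hKα hQp (by
      intro hq
      obtain ⟨h1, h2⟩ := hXq hq
      refine ⟨h1, fun v h0 h3 => ?_⟩
      have h4 := mul_le_mul_of_nonneg_left (h2 v h0 h3) hK.le
      linarith)
  have hv0 : 0 ≤ v := by linarith
  have hv3 : v ≤ 3 := by linarith
  exact zone_transfer_gen hL hκ hq1 hα hα0 hα1 (by linarith) hα10 hθ hv1 hv2 hε hXm
    (fun u h0 h3 h => hXp v u hv0 hv3 h0 h3 h) (hQp v hv0 hv3) hJ hS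

end Vale.Agent.P108.H850
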