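import Vale.Agent.P108.H850.Zone

/-! (Z3): near coincidence of the critical zones. -/

namespace Vale.Agent.P108.H850

open Real Set

/-- second term near its zero: on the side where `|q u - e| ≥ |q u|`, or in general -/
theorem second_term {κ L : ℝ} (hL : 1000 ≤ L) (hκ : L ^ 4 ≤ κ) (m : ℤ) {σ' : ℝ}
    (hσ' : σ' = 1 ∨ σ' = -1) {v : ℝ} (hv0 : v ≠ 0) (hv : 2 * π * κ * |v| ≤ 500 * L) :
    ∃ G c : ℝ, |G - 1| ≤ 1 / L ^ 2 ∧ 0.99 ≤ c ∧ c ≤ 1 ∧
      gF κ (m + σ' * (1 / 4 + dl κ) + v) = σ' * (6 / (2 * π * κ * v ^ 4)) * G ∧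
      |aF κ (m + σ' * (1 / 4 + dl κ) + v)| = 2 * π * κ * |v| * c := by
  have hL0 : 0 < L := by linarith
  have hL4 : 1000000000 * L ≤ L ^ 4 := by
    have : (1000:ℝ) ^ 3 ≤ L ^ 3 := pow_le_pow_left₀ (by norm_num) hL 3
    nlinarith
  have hκ0 : 0 < κ := by linarith
  have hK : 0 < 2 * π * κ := by positivity
  have hσa : |σ'| = 1 := by rcases hσ' with rfl | rfl <;> norm_num
  obtain ⟨G, c, hG, hc1, hc2, hg, ha⟩ := near_zero (κ := κ) (M := 500 * L) (by linarith)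
    (by linarith) m hσ' hv0 hv
  have hML : 500 * L / κ ≤ 1 / L ^ 2 := by
    rw [div_le_div_iff₀ hκ0 (by positivity)]
    have : 500 * L * L ^ 2 ≤ L ^ 4 := by nlinarith [pow_pos hL0 3]
    linarith
  have hL2 : 1 / L ^ 2 ≤ 1 / 10000 := by
    apply one_div_le_one_div_of_le (by norm_num)
    nlinarith
  refine ⟨G, c, hG.trans hML, by linarith, hc2, ?_, ?_⟩
  · rw [hg]
    have := Real.pi_pos
    field_simp
    ring
  · rw [ha, abs_mul, abs_neg, abs_mul, abs_mul, hσa, abs_of_pos hK,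
      abs_of_nonneg (by linarith : 0 ≤ c)]
    ring

/-- algebra for the comparison of the two singular terms:
`|σ V G + q (σ' (6/(K v^4)) G')|` with `V = 6/(K u^4)`. -/
theorem two_terms {K u v q σ σ' G G' : ℝ} (hu : u ≠ 0) (hv : v ≠ 0) (hK : 0 < K)
    (hσ : σ = 1 ∨ σ = -1) :
    |σ * (6 / (K * u ^ 4)) * G + q * (σ' * (6 / (K * v ^ 4)) * G')|
      = 6 / (K * u ^ 4) * |G + σ * σ' * q * (u ^ 4 / v ^ 4) * G'| := by
  have hV : 0 < 6 / (K * u ^ 4) := by
    have : 0 < u ^ 4 := by positivity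
    positivity
  have h1 : σ * (6 / (K * u ^ 4)) * G + q * (σ' * (6 / (K * v ^ 4)) * G')
      = (σ * (6 / (K * u ^ 4))) * (G + σ * σ' * q * (u ^ 4 / v ^ 4) * G') := by
    have hσ2 : σ * σ = 1 := by rcases hσ with rfl | rfl <;> norm_num
    have e : q * (σ' * (6 / (K * v ^ 4)) * G')
        = (σ * σ) * (q * (σ' * (6 / (K * v ^ 4)) * G')) := by rw [hσ2, one_mul]
    rw [e]
    field_simp
  rw [h1, abs_mul, abs_mul, abs_of_pos hV]
  rcases hσ with rfl | rfl <;> norm_num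

/-- final conversion -/
theorem conv_bound {K L V X : ℝ} (hK : 0 < K) (hL : 1000 ≤ L)
    (hV : 0.371 * (K ^ 3 / L ^ 4) ≤ V * 0.99) (hX : 3 / L ≤ X) : K ^ 3 / L ^ 5 ≤ V * X := by
  have hL0 : 0 < L := by linarith
  have hKL : 0 < K ^ 3 / L ^ 4 := by positivity
  have hV1 : 0.37 * (K ^ 3 / L ^ 4) ≤ V := by nlinarith
  have e : K ^ 3 / L ^ 5 = (1 / L) * (K ^ 3 / L ^ 4) := by field_simp
  have h1 : 0.37 * (K ^ 3 / L ^ 4) * (3 / L) ≤ V * X :=
    mul_le_mul hV1 hX (by positivity) (by nlinarith)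
  refine le_trans ?_ h1
  rw [e]
  have : 0 < (1 / L) * (K ^ 3 / L ^ 4) := by positivity
  calc (1 / L) * (K ^ 3 / L ^ 4) ≤ 1.11 * ((1 / L) * (K ^ 3 / L ^ 4)) := by linarith
    _ = _ := by ring

end Vale.Agent.P108.H850

namespace Vale.Agent.P108.H850

open Real Set

theorem g_diff {L G G' ρ : ℝ} (hL : 1000 ≤ L) (hG : |G - 1| ≤ 1 / L ^ 2) (hG' : |G' - 1| ≤ 1 / L ^ 2)
    (_ : 0 ≤ ρ) (h : ρ ≤ 1 - 4 / L ∨ 1 + 4 / L ≤ ρ) : 3 / L ≤ |G - ρ * G'| := by
  have hL0 : 0 < L := by linarith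
  set y := 1 / L with hy
  have hy0 : 0 < y := by positivity
  have hy1 : y ≤ 1 / 1000 := one_div_le_one_div_of_le (by norm_num) hL
  have e2 : 1 / L ^ 2 = y ^ 2 := by rw [hy]; field_simp
  have e3 : 3 / L = 3 * y := by rw [hy]; field_simp
  have e4 : 4 / L = 4 * y := by rw [hy]; field_simp
  rw [e2] at hG hG'
  rw [e3]
  rw [e4] at h
  rw [abs_le] at hG hG'
  rcases h with h | h
  · have h1 : ρ * G' ≤ (1 - 4 * y) * (1 + y ^ 2) := by
      apply mul_le_mul h (by linarith) (by nlinarith) (by linarith)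
    refine le_trans ?_ (le_abs_self _)
    nlinarith [pow_pos hy0 3]
  · have h1 : (1 + 4 * y) * (1 - y ^ 2) ≤ ρ * G' := by
      apply mul_le_mul h (by linarith) (by nlinarith) (by linarith)
    rw [abs_sub_comm]
    refine le_trans ?_ (le_abs_self _)
    nlinarith [pow_pos hy0 3, pow_pos hy0 2]

/-- core of (Z3) -/
theorem zone3_core {κ L q xm xp e : ℝ} (hL : 1000 ≤ L) (hκ : L ^ 4 ≤ κ) (n m : ℤ) {σ σ' s : ℝ}
    (hσ : σ = 1 ∨ σ = -1) (hσ' : σ' = 1 ∨ σ' = -1) (hs : s = 1 ∨ s = -1) (T : ℝ)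
    (hT : xm + T = n + σ * (1 / 4 + dl κ)) (hT' : xp + q * T = m + σ' * (1 / 4 + dl κ) - e)
    (hv1 : ∀ u, L ≤ 2 * π * κ * u → 2 * π * κ * u ≤ 2 * L →
      L / 1.9 ≤ 2 * π * κ * |q * (s * u) - e| ∧ 2 * π * κ * |q * (s * u) - e| ≤ 500 * L)
    (hv2 : 0 ≤ σ * σ' * q ∨ ∀ u, L ≤ 2 * π * κ * u → 2 * π * κ * u ≤ 2 * L →
      (|q| * (u ^ 4 / (q * (s * u) - e) ^ 4) ≤ 1 - 4 / L ∨
        1 + 4 / L ≤ |q| * (u ^ 4 / (q * (s * u) - e) ^ 4))) : GoodJ κ L q xm xp T := by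
  have hL0 : 0 < L := by linarith
  have hL4 : 1000000 * L ≤ L ^ 4 := by
    have : (1000:ℝ) ^ 3 ≤ L ^ 3 := pow_le_pow_left₀ (by norm_num) hL 3
    nlinarith
  have hκ0 : 0 < κ := by linarith
  have hK : 0 < 2 * π * κ := by positivity
  have hL2 : 1 / L ^ 2 ≤ 1 / 10000 := by
    apply one_div_le_one_div_of_le (by norm_num)
    nlinarith
  -- pointwise statement
  have main : ∀ u, L ≤ 2 * π * κ * u → 2 * π * κ * u ≤ 2 * L →
      L / 2 ≤ |aF κ (xm + (T + s * u))| ∧ |aF κ (xm + (T + s * u))| ≤ 4 * L ∧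
      L / 2 ≤ |aF κ (xp + q * (T + s * u))| ∧
      (2 * π * κ) ^ 3 / L ^ 5
        ≤ |gF κ (xm + (T + s * u)) + q * gF κ (xp + q * (T + s * u))| := by
    intro u h1 h2
    have hu0 : 0 < u := by
      by_contra h
      push Not at h
      nlinarith
    have hsa : |s| = 1 := by rcases hs with rfl | rfl <;> norm_num
    have hsu : |s * u| = u := by rw [abs_mul, hsa, one_mul, abs_of_pos hu0]
    have hs4 : (s * u) ^ 4 = u ^ 4 := by
      rcases hs with rfl | rfl <;> ring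
    obtain ⟨f1, f2, G, hG, hg, hV⟩ := first_term (L := L) (κ := κ) (by linarith) hκ n hσ
      (u := s * u) (by rw [hsu]; exact h1) (by rw [hsu]; exact h2)
    obtain ⟨w1, w2⟩ := hv1 u h1 h2
    set v := q * (s * u) - e with hv
    have hv0 : v ≠ 0 := by
      intro h0
      rw [h0, abs_zero, mul_zero] at w1
      have : 0 < L / 1.9 := by positivity
      linarith
    obtain ⟨G', c, hG', hc1, hc2, hg', ha'⟩ := second_term hL hκ m hσ' hv0 w2
    have ex : xm + (T + s * u) = n + σ * (1 / 4 + dl κ) + s * u := by rw [← hT]; ring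
    have ey : xp + q * (T + s * u) = m + σ' * (1 / 4 + dl κ) + v := by
      rw [hv]; linear_combination hT'
    rw [ex, ey]
    refine ⟨f1, f2, ?_, ?_⟩
    · rw [ha']
      have : L / 1.9 * 0.99 ≤ 2 * π * κ * |v| * c := by
        apply mul_le_mul w1 hc1 (by norm_num) (by positivity)
      refine le_trans ?_ this
      have : L / 1.9 * 0.99 = L * (0.99 / 1.9) := by ring
      rw [this]
      have : (1:ℝ) / 2 ≤ 0.99 / 1.9 := by norm_num
      nlinarith
    · rw [hg, hg', hs4]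
      rw [hs4] at hV
      rw [two_terms hu0.ne' hv0 hK hσ]
      apply conv_bound hK hL hV
      rcases hv2 with hv2 | hv2
      · have h3 : 0 ≤ σ * σ' * q * (u ^ 4 / v ^ 4) * G' := by
          have : 0 < G' := by linarith [(abs_le.1 hG').1]
          positivity
        have h4 := (abs_le.1 hG).1
        refine le_trans ?_ (le_abs_self _)
        have : 3 / L ≤ 3 / 1000 := by gcongr
        linarith
      · have h5 := hv2 u h1 h2
        by_cases hc : 0 ≤ σ * σ' * q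
        · have h3 : 0 ≤ σ * σ' * q * (u ^ 4 / v ^ 4) * G' := by
            have : 0 < G' := by linarith [(abs_le.1 hG').1]
            positivity
          have h4 := (abs_le.1 hG).1
          refine le_trans ?_ (le_abs_self _)
          have : 3 / L ≤ 3 / 1000 := by gcongr
          linarith
        · push Not at hc
          have hqa : σ * σ' * q = -|q| := by
            have h6 : |σ * σ' * q| = |q| := by
              rw [abs_mul, abs_mul]
              rcases hσ with rfl | rfl <;> rcases hσ' with rfl | rfl <;> norm_num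
            rw [← h6, abs_of_neg hc, neg_neg]
          have e5 : G + σ * σ' * q * (u ^ 4 / v ^ 4) * G' = G - |q| * (u ^ 4 / v ^ 4) * G' := by
            rw [hqa]; ring
          rw [e5]
          exact g_diff hL hG hG' (by positivity) h5
  set d := L / (2 * π * κ) with hd
  have hd0 : 0 < d := by positivity
  have hKd : 2 * π * κ * d = L := by rw [hd]; field_simp
  rcases hs with rfl | rfl
  · refine ⟨T + d, T + 2 * d, by linarith, le_rfl, by linarith, ?_⟩
    intro t ht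
    have h1 : L ≤ 2 * π * κ * (t - T) := by nlinarith [ht.1]
    have h2 : 2 * π * κ * (t - T) ≤ 2 * L := by nlinarith [ht.2]
    have := main (t - T) h1 h2
    rwa [show T + 1 * (t - T) = t by ring] at this
  · refine ⟨T - 2 * d, T - d, le_rfl, by linarith, by linarith, ?_⟩
    intro t ht
    have h1 : L ≤ 2 * π * κ * (T - t) := by nlinarith [ht.2]
    have h2 : 2 * π * κ * (T - t) ≤ 2 * L := by nlinarith [ht.1]
    have := main (T - t) h1 h2
    rwa [show T + -1 * (T - t) = t by ring] at this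

end Vale.Agent.P108.H850

namespace Vale.Agent.P108.H850

open Real Set

/-- choosing a side so that `|q s u - e| = |q| u + |e|`. -/
theorem side_far {q e : ℝ} (hq : q ≠ 0) : ∃ s : ℝ, (s = 1 ∨ s = -1) ∧
    ∀ u, 0 ≤ u → |q * (s * u) - e| = |q| * u + |e| := by
  rcases le_or_gt (q * e) 0 with h | h
  · refine ⟨1, Or.inl rfl, ?_⟩
    intro u hu
    rcases lt_or_gt_of_ne hq with hq | hq
    · have he : 0 ≤ e := by nlinarith
      rw [abs_of_neg hq, abs_of_nonneg he, abs_of_nonpos (by nlinarith)]; ring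
    · have he : e ≤ 0 := by nlinarith
      rw [abs_of_pos hq, abs_of_nonpos he, abs_of_nonneg (by nlinarith)]; ring
  · refine ⟨-1, Or.inr rfl, ?_⟩
    intro u hu
    rcases lt_or_gt_of_ne hq with hq | hq
    · have he : e ≤ 0 := by nlinarith
      rw [abs_of_neg hq, abs_of_nonpos he, abs_of_nonneg (by nlinarith)]; ring
    · have he : 0 ≤ e := by nlinarith
      rw [abs_of_pos hq, abs_of_nonneg he, abs_of_nonpos (by nlinarith)]; ring

/-- choosing a side so that `|q s u - e| = |q| u - |e|` (when this is nonnegative). -/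
theorem side_near {q e : ℝ} (hq : q ≠ 0) : ∃ s : ℝ, (s = 1 ∨ s = -1) ∧
    ∀ u, |e| ≤ |q| * u → |q * (s * u) - e| = |q| * u - |e| := by
  rcases le_or_gt 0 (q * e) with h | h
  · refine ⟨1, Or.inl rfl, ?_⟩
    intro u hle
    rcases lt_or_gt_of_ne hq with hq | hq
    · have he : e ≤ 0 := by nlinarith
      rw [abs_of_neg hq, abs_of_nonpos he] at *
      rw [abs_of_nonpos (by linarith)]; ring
    · have he : 0 ≤ e := by nlinarith
      rw [abs_of_pos hq, abs_of_nonneg he] at *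
      rw [abs_of_nonneg (by linarith)]; ring
  · refine ⟨-1, Or.inr rfl, ?_⟩
    intro u hle
    rcases lt_or_gt_of_ne hq with hq | hq
    · have he : 0 ≤ e := by nlinarith
      rw [abs_of_neg hq, abs_of_nonneg he] at *
      rw [abs_of_nonneg (by linarith)]; ring
    · have he : e ≤ 0 := by nlinarith
      rw [abs_of_pos hq, abs_of_nonpos he] at *
      rw [abs_of_nonpos (by linarith)]; ring

/-- (Z3a)+(Z3b): `|q| ≥ 1.02`, or equal signs. -/
theorem zone3ab {κ L q xm xp e : ℝ} (hL : 1000 ≤ L) (hκ : L ^ 4 ≤ κ) (n m : ℤ) {σ σ' : ℝ}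
    (hσ : σ = 1 ∨ σ = -1) (hσ' : σ' = 1 ∨ σ' = -1) (T : ℝ)
    (hT : xm + T = n + σ * (1 / 4 + dl κ)) (hT' : xp + q * T = m + σ' * (1 / 4 + dl κ) - e)
    (he : 2 * π * κ * |e| ≤ 250 * L) (hq1 : 0.98 ≤ |q|) (hq2 : |q| ≤ 100)
    (h : 1.02 ≤ |q| ∨ 0 ≤ σ * σ' * q) : GoodJ κ L q xm xp T := by
  have hL0 : 0 < L := by linarith
  have hκ0 : 0 < κ := lt_of_lt_of_le (by positivity) hκ
  have hK : 0 < 2 * π * κ := by positivity
  have hq0 : q ≠ 0 := by rintro rfl; norm_num at hq1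
  obtain ⟨s, hs, hside⟩ := side_far (q := q) (e := e) hq0
  have hu0 : ∀ u, L ≤ 2 * π * κ * u → 0 < u := by
    intro u h1
    by_contra h
    push Not at h
    nlinarith
  apply zone3_core hL hκ n m hσ hσ' hs T hT hT'
  · intro u h1 h2
    rw [hside u (hu0 u h1).le]
    have e1 : 2 * π * κ * (|q| * u + |e|) = |q| * (2 * π * κ * u) + 2 * π * κ * |e| := by ring
    rw [e1]
    have h3 : 0 ≤ 2 * π * κ * |e| := by positivity
    constructor
    · have : 0.98 * L ≤ |q| * (2 * π * κ * u) := mul_le_mul hq1 h1 hL0.le (abs_nonneg _)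
      have : L / 1.9 ≤ 0.98 * L := by rw [div_le_iff₀ (by norm_num)]; nlinarith
      linarith
    · have : |q| * (2 * π * κ * u) ≤ 100 * (2 * L) :=
        mul_le_mul hq2 h2 (by nlinarith) (by norm_num)
      linarith
  · rcases h with h | h
    · right
      intro u h1 h2
      left
      have hu := hu0 u h1
      have h3 : (q * (s * u) - e) ^ 4 = (|q| * u + |e|) ^ 4 := by
        rw [← hside u hu.le, ← abs_pow, abs_of_nonneg (by positivity)]
      rw [h3]
      have h4 : (|q| * u) ^ 4 ≤ (|q| * u + |e|) ^ 4 :=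
        pow_le_pow_left₀ (by positivity) (by linarith [abs_nonneg e]) 4
      have hqp : 0 < |q| := by linarith
      have h5 : |q| * (u ^ 4 / (|q| * u + |e|) ^ 4) ≤ |q| * (u ^ 4 / (|q| * u) ^ 4) := by
        gcongr
      refine h5.trans ?_
      have h6 : |q| * (u ^ 4 / (|q| * u) ^ 4) = 1 / |q| ^ 3 := by field_simp
      rw [h6]
      have h7 : (1.02:ℝ) ^ 3 ≤ |q| ^ 3 := pow_le_pow_left₀ (by norm_num) h 3
      have h8 : 1 / |q| ^ 3 ≤ 1 / (1.02:ℝ) ^ 3 := one_div_le_one_div_of_le (by norm_num) h7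
      have h9 : 4 / L ≤ 4 / 1000 := by gcongr
      norm_num at h8 ⊢
      linarith
    · left; exact h

/-- numeric fact, far side, `w` not small. -/
theorem num_far1 {L Q w : ℝ} (hL : 1000 ≤ L) (hQ1 : 0.98 ≤ Q) (hQ2 : Q ≤ 1.02)
    (hw : 1 / 20 ≤ w) : Q ≤ (1 - 4 / L) * (Q + w) ^ 4 := by
  have h9 : 4 / L ≤ 4 / 1000 := by gcongr
  have h5 : (1.03:ℝ) ^ 4 ≤ (Q + w) ^ 4 :=
    pow_le_pow_left₀ (by norm_num) (by linarith) 4
  have h6 : (0.996:ℝ) * 1.03 ^ 4 ≤ (1 - 4 / L) * (Q + w) ^ 4 := by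
    apply mul_le_mul (by linarith) h5 (by norm_num) (by linarith)
  norm_num at h6
  linarith

/-- numeric fact, far side, `Q ≥ 1`. -/
theorem num_far2 {L Q w : ℝ} (hL : 1000 ≤ L) (hQ1 : 1 ≤ Q)
    (hw : 1.75 * (1 / L) ≤ w) : Q ≤ (1 - 4 / L) * (Q + w) ^ 4 := by
  have hL0 : 0 < L := by linarith
  have hy : 0 < 1 / L := by positivity
  have hy1 : 1 / L ≤ 1 / 1000 := one_div_le_one_div_of_le (by norm_num) hL
  have hw0 : 0 < w := by nlinarith
  have h5 : Q * (1 + 4 * w) ≤ (Q + w) ^ 4 := by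
    have h6 : Q ^ 4 + 4 * Q ^ 3 * w ≤ (Q + w) ^ 4 := by
      have : 0 ≤ 6 * Q ^ 2 * w ^ 2 + 4 * Q * w ^ 3 + w ^ 4 := by positivity
      nlinarith
    have h7 : 1 ≤ Q ^ 3 := one_le_pow₀ hQ1
    have h8 : 1 ≤ Q ^ 2 := one_le_pow₀ hQ1
    have h10 : Q * 1 ≤ Q * Q ^ 3 := by gcongr
    have h11 : Q * 1 ≤ Q * Q ^ 2 := by gcongr
    nlinarith
  have h12 : 4 / L = 4 * (1 / L) := by ring
  rw [h12]
  set y := 1 / L
  have h14 : 1 ≤ (1 - 4 * y) * (1 + 4 * w) := by nlinarith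
  calc Q = Q * 1 := by ring
    _ ≤ Q * ((1 - 4 * y) * (1 + 4 * w)) := by gcongr
    _ = (1 - 4 * y) * (Q * (1 + 4 * w)) := by ring
    _ ≤ (1 - 4 * y) * (Q + w) ^ 4 := by
        apply mul_le_mul_of_nonneg_left h5; linarith

theorem cube_small {y : ℝ} (hy : 0 < y) (hy1 : y ≤ 1 / 1000) :
    (1 + 4 * y) * (1 - 1.75 * y) ^ 3 ≤ 1 := by
  have h1 : (1 - 1.75 * y) ^ 2 ≤ 1 - 3.4 * y := by nlinarith
  have h2 : (1 - 1.75 * y) ^ 3 ≤ (1 - 3.4 * y) * (1 - 1.75 * y) := by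
    have : 0 ≤ 1 - 1.75 * y := by linarith
    calc (1 - 1.75 * y) ^ 3 = (1 - 1.75 * y) ^ 2 * (1 - 1.75 * y) := by ring
      _ ≤ _ := by gcongr
  have h3 : (1 - 3.4 * y) * (1 - 1.75 * y) ≤ 1 - 5 * y := by nlinarith
  have h4 : (1 - 1.75 * y) ^ 3 ≤ 1 - 5 * y := h2.trans h3
  calc (1 + 4 * y) * (1 - 1.75 * y) ^ 3 ≤ (1 + 4 * y) * (1 - 5 * y) := by
        apply mul_le_mul_of_nonneg_left h4; linarith
    _ ≤ 1 := by nlinarith

/-- numeric fact, near side, `Q < 1`. -/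
theorem num_near {L Q w : ℝ} (hL : 1000 ≤ L) (hQ1 : 0.98 ≤ Q) (hQ2 : Q ≤ 1)
    (hw : 1.75 * (1 / L) ≤ w) (hw2 : w ≤ 1 / 10) : (1 + 4 / L) * (Q - w) ^ 4 ≤ Q := by
  have hL0 : 0 < L := by linarith
  have hy : 0 < 1 / L := by positivity
  have hy1 : 1 / L ≤ 1 / 1000 := one_div_le_one_div_of_le (by norm_num) hL
  rw [show 4 / L = 4 * (1 / L) by ring]
  set y := 1 / L
  set r := Q - w with hr
  have hyp : 0 < r := by linarith
  have hr1 : r ≤ 1 - 1.75 * y := by linarith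
  have hr3 : r ^ 3 ≤ (1 - 1.75 * y) ^ 3 := pow_le_pow_left₀ hyp.le hr1 3
  have h7 : (1 + 4 * y) * r ^ 3 ≤ 1 :=
    (mul_le_mul_of_nonneg_left hr3 (by linarith)).trans (cube_small hy hy1)
  have hw0 : 0 ≤ w := by nlinarith
  calc (1 + 4 * y) * r ^ 4 = ((1 + 4 * y) * r ^ 3) * r := by ring
    _ ≤ 1 * r := by gcongr
    _ ≤ Q := by rw [hr]; linarith

/-- (Z3c), first branch. -/
theorem zone3c_far {κ L q xm xp e : ℝ} (hL : 1000 ≤ L) (hκ : L ^ 4 ≤ κ) (n m : ℤ) {σ σ' : ℝ}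
    (hσ : σ = 1 ∨ σ = -1) (hσ' : σ' = 1 ∨ σ' = -1) (T : ℝ)
    (hT : xm + T = n + σ * (1 / 4 + dl κ)) (hT' : xp + q * T = m + σ' * (1 / 4 + dl κ) - e)
    (he : 2 * π * κ * |e| ≤ 250 * L) (he' : 3.5 ≤ 2 * π * κ * |e|)
    (hq1 : 0.98 ≤ |q|) (hq2 : |q| ≤ 1.02)
    (hc : L / 10 ≤ 2 * π * κ * |e| ∨ 1 ≤ |q|) : GoodJ κ L q xm xp T := by
  have hL0 : 0 < L := by linarith
  have hκ0 : 0 < κ := lt_of_lt_of_le (by positivity) hκ
  have hK : 0 < 2 * π * κ := by positivity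
  have hq0 : q ≠ 0 := by rintro rfl; norm_num at hq1
  have hqp : 0 < |q| := by linarith
  have hu0 : ∀ u, L ≤ 2 * π * κ * u → 0 < u := by
    intro u h1
    by_contra h
    push Not at h
    nlinarith
  obtain ⟨s, hs, hside⟩ := side_far (q := q) (e := e) hq0
  apply zone3_core hL hκ n m hσ hσ' hs T hT hT'
  · intro u h1 h2
    rw [hside u (hu0 u h1).le]
    have e1 : 2 * π * κ * (|q| * u + |e|) = |q| * (2 * π * κ * u) + 2 * π * κ * |e| := by ring
    rw [e1]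
    have h3 : 0 ≤ 2 * π * κ * |e| := by positivity
    constructor
    · have : 0.98 * L ≤ |q| * (2 * π * κ * u) := mul_le_mul hq1 h1 hL0.le (abs_nonneg _)
      have : L / 1.9 ≤ 0.98 * L := by rw [div_le_iff₀ (by norm_num)]; nlinarith
      linarith
    · have : |q| * (2 * π * κ * u) ≤ 1.02 * (2 * L) :=
        mul_le_mul hq2 h2 (by nlinarith) (by norm_num)
      linarith
  · right
    intro u h1 h2
    left
    have hu := hu0 u h1
    have h3 : (q * (s * u) - e) ^ 4 = (|q| * u + |e|) ^ 4 := by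
      rw [← hside u hu.le, ← abs_pow, abs_of_nonneg (by positivity)]
    rw [h3]
    -- w = |e|/u
    obtain ⟨w, hew⟩ : ∃ w, |e| = w * u := ⟨|e| / u, by field_simp⟩
    have hw0 : 0 ≤ w := by
      by_contra h
      push Not at h
      nlinarith [abs_nonneg e]
    have h4 : |q| * (u ^ 4 / (|q| * u + |e|) ^ 4) = |q| / (|q| + w) ^ 4 := by
      rw [hew, show |q| * u + w * u = (|q| + w) * u by ring, mul_pow]
      field_simp
    rw [h4]
    have hden : 0 < (|q| + w) ^ 4 := by positivity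
    rw [div_le_iff₀ hden]
    have hwK : 2 * π * κ * |e| ≤ w * (2 * L) := by
      rw [hew]
      calc 2 * π * κ * (w * u) = w * (2 * π * κ * u) := by ring
        _ ≤ w * (2 * L) := by gcongr
    rcases hc with hc | hc
    · have hw1 : 1 / 20 ≤ w := by
        by_contra h
        push Not at h
        nlinarith
      exact num_far1 hL hq1 hq2 hw1
    · have hw1 : 1.75 * (1 / L) ≤ w := by
        rw [show 1.75 * (1 / L) = 1.75 / L by ring, div_le_iff₀ hL0]
        linarith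
      exact num_far2 hL hc hw1

/-- (Z3c), second branch. -/
theorem zone3c_near {κ L q xm xp e : ℝ} (hL : 1000 ≤ L) (hκ : L ^ 4 ≤ κ) (n m : ℤ) {σ σ' : ℝ}
    (hσ : σ = 1 ∨ σ = -1) (hσ' : σ' = 1 ∨ σ' = -1) (T : ℝ)
    (hT : xm + T = n + σ * (1 / 4 + dl κ)) (hT' : xp + q * T = m + σ' * (1 / 4 + dl κ) - e)
    (he : 2 * π * κ * |e| ≤ 250 * L) (he' : 3.5 ≤ 2 * π * κ * |e|)
    (hq1 : 0.98 ≤ |q|) (hc1 : 2 * π * κ * |e| ≤ L / 10) (hc2 : |q| ≤ 1) :
    GoodJ κ L q xm xp T := by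
  have hL0 : 0 < L := by linarith
  have hκ0 : 0 < κ := lt_of_lt_of_le (by positivity) hκ
  have hK : 0 < 2 * π * κ := by positivity
  have hq0 : q ≠ 0 := by rintro rfl; norm_num at hq1
  have hqp : 0 < |q| := by linarith
  have hu0 : ∀ u, L ≤ 2 * π * κ * u → 0 < u := by
    intro u h1
    by_contra h
    push Not at h
    nlinarith
  obtain ⟨s, hs, hside⟩ := side_near (q := q) (e := e) hq0
  have hle : ∀ u, L ≤ 2 * π * κ * u → |e| ≤ |q| * u := by
    intro u h1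
    have h3 : 2 * π * κ * |e| ≤ 2 * π * κ * (|q| * u) := by
      have : 0.98 * L ≤ |q| * (2 * π * κ * u) := mul_le_mul hq1 h1 hL0.le (abs_nonneg _)
      have e2 : 2 * π * κ * (|q| * u) = |q| * (2 * π * κ * u) := by ring
      rw [e2]; linarith
    exact le_of_mul_le_mul_left h3 hK
  apply zone3_core hL hκ n m hσ hσ' hs T hT hT'
  · intro u h1 h2
    rw [hside u (hle u h1)]
    have e1 : 2 * π * κ * (|q| * u - |e|) = |q| * (2 * π * κ * u) - 2 * π * κ * |e| := by ring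
    rw [e1]
    have h3 : 0 ≤ 2 * π * κ * |e| := by positivity
    constructor
    · have : 0.98 * L ≤ |q| * (2 * π * κ * u) := mul_le_mul hq1 h1 hL0.le (abs_nonneg _)
      have : L / 1.9 ≤ 0.6 * L := by rw [div_le_iff₀ (by norm_num)]; nlinarith
      linarith
    · have : |q| * (2 * π * κ * u) ≤ 1 * (2 * L) :=
        mul_le_mul hc2 h2 (by nlinarith) (by norm_num)
      linarith
  · right
    intro u h1 h2
    right
    have hu := hu0 u h1
    have h3 : (q * (s * u) - e) ^ 4 = (|q| * u - |e|) ^ 4 := by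
      rw [← hside u (hle u h1), ← abs_pow, abs_of_nonneg (by positivity)]
    rw [h3]
    obtain ⟨w, hew⟩ : ∃ w, |e| = w * u := ⟨|e| / u, by field_simp⟩
    have hw0 : 0 ≤ w := by
      by_contra h
      push Not at h
      nlinarith [abs_nonneg e]
    have hwK : 2 * π * κ * |e| ≤ w * (2 * L) := by
      rw [hew]
      calc 2 * π * κ * (w * u) = w * (2 * π * κ * u) := by ring
        _ ≤ w * (2 * L) := by gcongr
    have hw1 : 1.75 * (1 / L) ≤ w := by
      rw [show 1.75 * (1 / L) = 1.75 / L by ring, div_le_iff₀ hL0]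
      linarith
    have hwl : w ≤ 1 / 10 := by
      have h5 : w * L ≤ 2 * π * κ * |e| := by
        rw [hew]
        calc w * L ≤ w * (2 * π * κ * u) := by gcongr
          _ = _ := by ring
      by_contra h
      push Not at h
      nlinarith
    have hyp : 0 < |q| - w := by linarith
    have h4 : |q| * (u ^ 4 / (|q| * u - |e|) ^ 4) = |q| / (|q| - w) ^ 4 := by
      rw [hew, show |q| * u - w * u = (|q| - w) * u by ring, mul_pow]
      field_simp
    rw [h4, le_div_iff₀ (by positivity)]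
    exact num_near hL hq1 hc2 hw1 hwl

/-- (Z3c): `|q| ≈ 1`, `K|e| ≥ 3.5`. -/
theorem zone3c {κ L q xm xp e : ℝ} (hL : 1000 ≤ L) (hκ : L ^ 4 ≤ κ) (n m : ℤ) {σ σ' : ℝ}
    (hσ : σ = 1 ∨ σ = -1) (hσ' : σ' = 1 ∨ σ' = -1) (T : ℝ)
    (hT : xm + T = n + σ * (1 / 4 + dl κ)) (hT' : xp + q * T = m + σ' * (1 / 4 + dl κ) - e)
    (he : 2 * π * κ * |e| ≤ 250 * L) (he' : 3.5 ≤ 2 * π * κ * |e|)
    (hq1 : 0.98 ≤ |q|) (hq2 : |q| ≤ 1.02) : GoodJ κ L q xm xp T := by
  by_cases hc : L / 10 ≤ 2 * π * κ * |e| ∨ 1 ≤ |q|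
  · exact zone3c_far hL hκ n m hσ hσ' T hT hT' he he' hq1 hq2 hc
  · push Not at hc
    exact zone3c_near hL hκ n m hσ hσ' T hT hT' he he' hq1 hc.1.le hc.2.le

end Vale.Agent.P108.H850
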