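import Vale.Agent.P108.H850.Zone1
import Vale.Agent.P108.H850.Zone3
import Vale.Agent.P108.H850.FourPoints

namespace Vale.Agent.P108.H850

open Real Set

/-- LOCAL HOLE LEMMA.  `T` is a zero of the reference digit `t ↦ a(xm + t)`, the other digit is
`t ↦ a(xp + q t)` with `|q| ≥ 0.98`.  Either there is a good interval near `T`, or the other digit
has a zero within `3.5/K` of `T` with the opposite slope and `|q| < 1.02`. -/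
theorem hole_local {κ L q xm xp : ℝ} (hL : 1000 ≤ L) (hκ : L ^ 4 ≤ κ) (hq1 : 0.98 ≤ |q|)
    (hq2 : |q| * L ^ 3 ≤ κ) (n : ℤ) {σ : ℝ} (hσ : σ = 1 ∨ σ = -1) (T : ℝ)
    (hT : xm + T = n + σ * (1 / 4 + dl κ)) :
    GoodJ κ L q xm xp T ∨ (|q| < 1.02 ∧ ∃ (m : ℤ) (σ' e : ℝ), (σ' = 1 ∨ σ' = -1) ∧
      xp + q * T = m + σ' * (1 / 4 + dl κ) - e ∧ σ * σ' * q < 0 ∧
      2 * π * κ * |e| < 3.5) := by
  have hL0 : 0 < L := by linarith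
  have hL4 : 1000000000 * L ≤ L ^ 4 := by
    have : (1000:ℝ) ^ 3 ≤ L ^ 3 := pow_le_pow_left₀ (by norm_num) hL 3
    nlinarith
  by_cases h100 : 100 ≤ |q|
  · left
    exact zone1 (by linarith) hκ h100 hq2 n hσ T hT
  push Not at h100
  by_cases ha : 208 * L ≤ |aF κ (xp + q * T)|
  · left
    exact zone2 (by linarith) hκ h100.le n hσ T hT ha
  push Not at ha
  obtain ⟨m, σ', hσ', hm⟩ := exists_zero (κ := κ) (M := 208 * L) (x := xp + q * T)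
    (by linarith) (by linarith) ha.le
  obtain ⟨e, he⟩ : ∃ e, e = m + σ' * (1 / 4 + dl κ) - (xp + q * T) := ⟨_, rfl⟩
  have hT' : xp + q * T = m + σ' * (1 / 4 + dl κ) - e := by rw [he]; ring
  have hme : |xp + q * T - (m + σ' * (1 / 4 + dl κ))| = |e| := by
    rw [he, ← abs_neg]; congr 1; ring
  rw [hme] at hm
  have hm' : 2 * π * κ * |e| ≤ 250 * L := by linarith
  by_cases hc : 1.02 ≤ |q| ∨ 0 ≤ σ * σ' * q
  · left
    exact zone3ab hL hκ n m hσ hσ' T hT hT' hm' hq1 h100.le hc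
  push Not at hc
  by_cases h35 : 3.5 ≤ 2 * π * κ * |e|
  · left
    exact zone3c hL hκ n m hσ hσ' T hT hT' hm' h35 hq1 hc.1.le
  · right
    push Not at h35
    exact ⟨hc.1, m, σ', e, hσ', hT', hc.2, h35⟩

/-- integer in a small window -/
theorem int_zero {M : ℤ} (h1 : -1 < (M : ℝ)) (h2 : (M : ℝ) < 1) : M = 0 := by
  have a1 : -1 < M := by exact_mod_cast h1
  have a2 : M < 1 := by exact_mod_cast h2
  omega

/-- purely linear core, `σ = 1`. -/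
theorem third_lin1 {δ ε c0 c1 p A2 A3 A4 e1 e2 e3 e4 w1 w2 w3 w4 : ℝ} {m1 m2 m3 m4 : ℤ}
    (hδ0 : 0 < δ) (hδ1 : δ ≤ 1 / 1000) (hc1 : 0.97 ≤ c1)
    (hc1' : c1 ≤ 1.03) (hε : ε ≤ δ / 20) (hp1 : 0.97 * δ ≤ p) (hp2 : p ≤ 1.03 * δ)
    (hA2 : |A2| ≤ 1 / 1000) (hA3 : |A3| ≤ 1 / 1000) (hA4 : |A4| ≤ 3 / 1000)
    (hA : |A4 - 3 * A3 + 3 * A2| ≤ δ / 50)
    (h1 : |w1 - c0| ≤ ε)
    (h2 : |w2 - (c0 + (c1 * (1 / 2) - 2 * p) + A2)| ≤ ε)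
    (h3 : |w3 - (c0 + c1 + A3)| ≤ ε)
    (h4 : |w4 - (c0 + (c1 * (3 / 2) - 2 * p) + A4)| ≤ ε)
    (k1 : w1 = m1 - (1 / 4 + δ) - e1) (k2 : w2 = m2 + (1 / 4 + δ) - e2)
    (k3 : w3 = m3 - (1 / 4 + δ) - e3) (k4 : w4 = m4 + (1 / 4 + δ) - e4)
    (he1 : |e1| ≤ 1.8 * δ) (he2 : |e2| ≤ 1.8 * δ) (he3 : |e3| ≤ 1.8 * δ) (he4 : |e4| ≤ 1.8 * δ) :
    False := by
  obtain ⟨h1a, h1b⟩ := abs_le.mp h1
  obtain ⟨h2a, h2b⟩ := abs_le.mp h2
  obtain ⟨h3a, h3b⟩ := abs_le.mp h3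
  obtain ⟨h4a, h4b⟩ := abs_le.mp h4
  obtain ⟨e1a, e1b⟩ := abs_le.mp he1
  obtain ⟨e2a, e2b⟩ := abs_le.mp he2
  obtain ⟨e3a, e3b⟩ := abs_le.mp he3
  obtain ⟨e4a, e4b⟩ := abs_le.mp he4
  obtain ⟨A2a, A2b⟩ := abs_le.mp hA2
  obtain ⟨A3a, A3b⟩ := abs_le.mp hA3
  obtain ⟨A4a, A4b⟩ := abs_le.mp hA4
  obtain ⟨Aa, Ab⟩ := abs_le.mp hA
  clear h1 h2 h3 h4 he1 he2 he3 he4 hA2 hA3 hA4 hA
  have a1 : m2 - m1 = 0 := by
    apply int_zero <;> push_cast <;> linarith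
  have a2 : m3 - m2 - 1 = 0 := by
    apply int_zero <;> push_cast <;> linarith
  have a3 : m4 - m3 = 0 := by
    apply int_zero <;> push_cast <;> linarith
  have b1 : (m2 : ℝ) = m1 := by exact_mod_cast (by omega : m2 = m1)
  have b2 : (m3 : ℝ) = m1 + 1 := by exact_mod_cast (by omega : m3 = m1 + 1)
  have b3 : (m4 : ℝ) = m1 + 1 := by exact_mod_cast (by omega : m4 = m1 + 1)
  rw [b1] at k2
  rw [b2] at k3
  rw [b3] at k4
  linarith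

/-- purely linear core, `σ = -1`. -/
theorem third_lin2 {δ ε c0 c1 p A2 A3 A4 e1 e2 e3 e4 w1 w2 w3 w4 : ℝ} {m1 m2 m3 m4 : ℤ}
    (hδ0 : 0 < δ) (hδ1 : δ ≤ 1 / 1000) (hc1 : 0.97 ≤ c1)
    (hc1' : c1 ≤ 1.03) (hε : ε ≤ δ / 20) (hp1 : 0.97 * δ ≤ p) (hp2 : p ≤ 1.03 * δ)
    (hA2 : |A2| ≤ 1 / 1000) (hA3 : |A3| ≤ 1 / 1000) (hA4 : |A4| ≤ 3 / 1000)
    (hA : |A4 - 3 * A3 + 3 * A2| ≤ δ / 50)
    (h1 : |w1 - c0| ≤ ε)
    (h2 : |w2 - (c0 + (c1 * (1 / 2) + 2 * p) + A2)| ≤ ε)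
    (h3 : |w3 - (c0 + c1 + A3)| ≤ ε)
    (h4 : |w4 - (c0 + (c1 * (3 / 2) + 2 * p) + A4)| ≤ ε)
    (k1 : w1 = m1 + (1 / 4 + δ) - e1) (k2 : w2 = m2 - (1 / 4 + δ) - e2)
    (k3 : w3 = m3 + (1 / 4 + δ) - e3) (k4 : w4 = m4 - (1 / 4 + δ) - e4)
    (he1 : |e1| ≤ 1.8 * δ) (he2 : |e2| ≤ 1.8 * δ) (he3 : |e3| ≤ 1.8 * δ) (he4 : |e4| ≤ 1.8 * δ) :
    False := by
  obtain ⟨h1a, h1b⟩ := abs_le.mp h1
  obtain ⟨h2a, h2b⟩ := abs_le.mp h2
  obtain ⟨h3a, h3b⟩ := abs_le.mp h3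
  obtain ⟨h4a, h4b⟩ := abs_le.mp h4
  obtain ⟨e1a, e1b⟩ := abs_le.mp he1
  obtain ⟨e2a, e2b⟩ := abs_le.mp he2
  obtain ⟨e3a, e3b⟩ := abs_le.mp he3
  obtain ⟨e4a, e4b⟩ := abs_le.mp he4
  obtain ⟨A2a, A2b⟩ := abs_le.mp hA2
  obtain ⟨A3a, A3b⟩ := abs_le.mp hA3
  obtain ⟨A4a, A4b⟩ := abs_le.mp hA4
  obtain ⟨Aa, Ab⟩ := abs_le.mp hA
  clear h1 h2 h3 h4 he1 he2 he3 he4 hA2 hA3 hA4 hA
  have a1 : m2 - m1 - 1 = 0 := by
    apply int_zero <;> push_cast <;> linarith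
  have a2 : m3 - m2 = 0 := by
    apply int_zero <;> push_cast <;> linarith
  have a3 : m4 - m3 - 1 = 0 := by
    apply int_zero <;> push_cast <;> linarith
  have b1 : (m2 : ℝ) = m1 + 1 := by exact_mod_cast (by omega : m2 = m1 + 1)
  have b2 : (m3 : ℝ) = m1 + 1 := by exact_mod_cast (by omega : m3 = m1 + 1)
  have b3 : (m4 : ℝ) = m1 + 2 := by exact_mod_cast (by omega : m4 = m1 + 2)
  rw [b1] at k2
  rw [b2] at k3
  rw [b3] at k4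
  linarith

theorem c2_bound {c2 y B : ℝ} (hc2 : |c2| ≤ 1 / 1000) (hy : |y| ≤ B) : |c2 * y| ≤ B / 1000 := by
  rw [abs_mul]
  calc |c2| * |y| ≤ 1 / 1000 * B := mul_le_mul hc2 hy (abs_nonneg _) (by norm_num)
    _ = B / 1000 := by ring

/-- polynomial bounds -/
theorem poly1 {δ : ℝ} (hδ0 : 0 < δ) (hδ1 : δ ≤ 1 / 1000) :
    |(1 / 2 - 2 * 1 * δ) ^ 2| ≤ 1 ∧ |(3 / 2 - 2 * 1 * δ) ^ 2| ≤ 3 ∧
      |-(12 * δ) + 16 * δ ^ 2| ≤ 12 * δ := by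
  refine ⟨?_, ?_, ?_⟩
  · rw [abs_of_nonneg (sq_nonneg _)]; nlinarith
  · rw [abs_of_nonneg (sq_nonneg _)]; nlinarith
  · rw [abs_le]; constructor <;> nlinarith

theorem poly2 {δ : ℝ} (hδ0 : 0 < δ) (hδ1 : δ ≤ 1 / 1000) :
    |(1 / 2 - 2 * (-1) * δ) ^ 2| ≤ 1 ∧ |(3 / 2 - 2 * (-1) * δ) ^ 2| ≤ 3 ∧
      |(12 * δ) + 16 * δ ^ 2| ≤ 13 * δ := by
  refine ⟨?_, ?_, ?_⟩
  · rw [abs_of_nonneg (sq_nonneg _)]; nlinarith
  · rw [abs_of_nonneg (sq_nonneg _)]; nlinarith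
  · rw [abs_le]; constructor <;> nlinarith

/-- the contradiction behind the choice of the zone, normalised to `c1 > 0`.
`z2 - z1 = 1/2 - 2σδ`, `z3 - z1 = 1`, `z4 - z1 = 3/2 - 2σδ`. -/
theorem third_diff {δ ε c0 c1 c2 e1 e2 e3 e4 σ w1 w2 w3 w4 : ℝ} {m1 m2 m3 m4 : ℤ}
    (hσ : σ = 1 ∨ σ = -1) (hδ0 : 0 < δ) (hδ1 : δ ≤ 1 / 1000) (hc1 : 0.97 ≤ c1)
    (hc1' : c1 ≤ 1.03) (hc2 : |c2| ≤ 1 / 1000) (hε : ε ≤ δ / 20)
    (h1 : |w1 - c0| ≤ ε)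
    (h2 : |w2 - (c0 + c1 * (1 / 2 - 2 * σ * δ) + c2 * (1 / 2 - 2 * σ * δ) ^ 2)| ≤ ε)
    (h3 : |w3 - (c0 + c1 * 1 + c2 * 1 ^ 2)| ≤ ε)
    (h4 : |w4 - (c0 + c1 * (3 / 2 - 2 * σ * δ) + c2 * (3 / 2 - 2 * σ * δ) ^ 2)| ≤ ε)
    (k1 : w1 = m1 - σ * (1 / 4 + δ) - e1) (k2 : w2 = m2 + σ * (1 / 4 + δ) - e2)
    (k3 : w3 = m3 - σ * (1 / 4 + δ) - e3) (k4 : w4 = m4 + σ * (1 / 4 + δ) - e4)
    (he1 : |e1| ≤ 1.8 * δ) (he2 : |e2| ≤ 1.8 * δ) (he3 : |e3| ≤ 1.8 * δ) (he4 : |e4| ≤ 1.8 * δ) :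
    False := by
  have hp1 : 0.97 * δ ≤ c1 * δ := by nlinarith
  have hp2 : c1 * δ ≤ 1.03 * δ := by nlinarith
  have hA3 : |c2 * 1 ^ 2| ≤ 1 / 1000 := by simpa using hc2
  rcases hσ with rfl | rfl
  · obtain ⟨q1, q2, q3⟩ := poly1 hδ0 hδ1
    have hA2 : |c2 * (1 / 2 - 2 * 1 * δ) ^ 2| ≤ 1 / 1000 := c2_bound hc2 q1
    have hA4 : |c2 * (3 / 2 - 2 * 1 * δ) ^ 2| ≤ 3 / 1000 := c2_bound hc2 q2
    have hA : |c2 * (3 / 2 - 2 * 1 * δ) ^ 2 - 3 * (c2 * 1 ^ 2)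
        + 3 * (c2 * (1 / 2 - 2 * 1 * δ) ^ 2)| ≤ δ / 50 := by
      rw [show c2 * (3 / 2 - 2 * 1 * δ) ^ 2 - 3 * (c2 * 1 ^ 2)
        + 3 * (c2 * (1 / 2 - 2 * 1 * δ) ^ 2) = c2 * (-(12 * δ) + 16 * δ ^ 2) by ring]
      refine (c2_bound hc2 q3).trans ?_
      linarith
    refine third_lin1 (p := c1 * δ) (c1 := c1) (w1 := w1) (w2 := w2) (w3 := w3) (w4 := w4) (m1 := m1) (m2 := m2)
      (m3 := m3) (m4 := m4) hδ0 hδ1 hc1 hc1' hε hp1 hp2 hA2 hA3 hA4 hA h1 ?_ ?_ ?_ ?_ ?_ ?_ ?_ he1 he2 he3 he4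
    · rw [show c0 + (c1 * (1 / 2) - 2 * (c1 * δ)) = c0 + c1 * (1 / 2 - 2 * 1 * δ) by ring]
      exact h2
    · rw [show c0 + c1 = c0 + c1 * 1 by ring]; exact h3
    · rw [show c0 + (c1 * (3 / 2) - 2 * (c1 * δ)) = c0 + c1 * (3 / 2 - 2 * 1 * δ) by ring]
      exact h4
    · rw [k1]; ring
    · rw [k2]; ring
    · rw [k3]; ring
    · rw [k4]; ring
  · obtain ⟨q1, q2, q3⟩ := poly2 hδ0 hδ1
    have hA2 : |c2 * (1 / 2 - 2 * (-1) * δ) ^ 2| ≤ 1 / 1000 := c2_bound hc2 q1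
    have hA4 : |c2 * (3 / 2 - 2 * (-1) * δ) ^ 2| ≤ 3 / 1000 := c2_bound hc2 q2
    have hA : |c2 * (3 / 2 - 2 * (-1) * δ) ^ 2 - 3 * (c2 * 1 ^ 2)
        + 3 * (c2 * (1 / 2 - 2 * (-1) * δ) ^ 2)| ≤ δ / 50 := by
      rw [show c2 * (3 / 2 - 2 * (-1) * δ) ^ 2 - 3 * (c2 * 1 ^ 2)
        + 3 * (c2 * (1 / 2 - 2 * (-1) * δ) ^ 2) = c2 * ((12 * δ) + 16 * δ ^ 2) by ring]
      refine (c2_bound hc2 q3).trans ?_
      linarith
    refine third_lin2 (p := c1 * δ) (c1 := c1) (w1 := w1) (w2 := w2) (w3 := w3) (w4 := w4) (m1 := m1) (m2 := m2)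
      (m3 := m3) (m4 := m4) hδ0 hδ1 hc1 hc1' hε hp1 hp2 hA2 hA3 hA4 hA h1 ?_ ?_ ?_ ?_ ?_ ?_ ?_ he1 he2 he3 he4
    · rw [show c0 + (c1 * (1 / 2) + 2 * (c1 * δ)) = c0 + c1 * (1 / 2 - 2 * (-1) * δ) by ring]
      exact h2
    · rw [show c0 + c1 = c0 + c1 * 1 by ring]; exact h3
    · rw [show c0 + (c1 * (3 / 2) + 2 * (c1 * δ)) = c0 + c1 * (3 / 2 - 2 * (-1) * δ) by ring]
      exact h4
    · rw [k1]; ring
    · rw [k2]; ring
    · rw [k3]; ring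
    · rw [k4]; ring

/-- `K δ ≥ 2` where `K = 2πκ` and `δ = dl κ` is the shift of the zeros. -/
theorem two_le_dl {κ : ℝ} (hκ : 100 ≤ κ) : 2 ≤ 2 * π * κ * dl κ := by
  have h := (dl_bounds hκ).1
  have hκ0 : 0 < κ := by linarith
  rw [div_le_iff₀ hκ0] at h
  calc (2:ℝ) ≤ 2 * π * dl κ * κ := h
    _ = _ := by ring

theorem dl_small {κ : ℝ} (hκ : 10000 ≤ κ) : 0 < dl κ ∧ dl κ ≤ 1 / 1000 := by
  have h := dl_bounds (κ := κ) (by linarith)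
  have hκ0 : 0 < κ := by linarith
  have hπ := Real.pi_gt_three
  constructor
  · have h3 : 0 < 2 * π * dl κ := lt_of_lt_of_le (by positivity) h.1
    exact (pos_iff_pos_of_mul_pos h3).mp (by positivity)
  · have h2 : 4 / κ ≤ 4 / 10000 := by gcongr
    by_contra hc
    push Not at hc
    nlinarith [h.2]

theorem exc_sign_pos {σ σ' q c1 : ℝ} (hσ : σ = 1 ∨ σ = -1) (hσ' : σ' = 1 ∨ σ' = -1)
    (h : σ * σ' * q < 0) (hq : |q - c1| ≤ 0.01) (hc : 0.5 ≤ c1) : σ' = -σ := by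
  rw [abs_le] at hq
  have hq0 : 0 < q := by linarith [hq.1]
  rcases hσ with rfl | rfl <;> rcases hσ' with rfl | rfl
  · exfalso; linarith
  · norm_num
  · norm_num
  · exfalso; linarith

theorem exc_sign_neg {σ σ' q c1 : ℝ} (hσ : σ = 1 ∨ σ = -1) (hσ' : σ' = 1 ∨ σ' = -1)
    (h : σ * σ' * q < 0) (hq : |q - c1| ≤ 0.01) (hc : c1 ≤ -0.5) : σ' = σ := by
  rw [abs_le] at hq
  have hq0 : q < 0 := by linarith [hq.2]
  rcases hσ with rfl | rfl <;> rcases hσ' with rfl | rfl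
  · norm_num
  · exfalso; linarith
  · exfalso; linarith
  · norm_num

/-- CHOICE OF THE ZONE.  `z i` are four consecutive zeros of `a`, `w i` are the values of the other
digit, which is (up to `0.1/K`) a quadratic function of the first one with slope `≈ ±1`, small
curvature; `q i` is the local ratio of the speeds.  Then one of the four zones is good. -/
theorem zone_select {κ L : ℝ} (hL : 1000 ≤ L) (hκ : L ^ 4 ≤ κ) (n : ℤ) {σ : ℝ}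
    (hσ : σ = 1 ∨ σ = -1) {z1 z2 z3 z4 w1 w2 w3 w4 q1 q2 q3 q4 c0 c1 c2 : ℝ}
    (hz1 : z1 = n + σ * (1 / 4 + dl κ)) (hz2 : z2 = z1 + (1 / 2 - 2 * σ * dl κ))
    (hz3 : z3 = z1 + 1) (hz4 : z4 = z1 + (3 / 2 - 2 * σ * dl κ))
    (hc2 : |c2| ≤ 1 / 1000)
    (h1 : 2 * π * κ * |w1 - (c0 + c1 * (z1 - z1) + c2 * (z1 - z1) ^ 2)| ≤ 0.1)
    (h2 : 2 * π * κ * |w2 - (c0 + c1 * (z2 - z1) + c2 * (z2 - z1) ^ 2)| ≤ 0.1)
    (h3 : 2 * π * κ * |w3 - (c0 + c1 * (z3 - z1) + c2 * (z3 - z1) ^ 2)| ≤ 0.1)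
    (h4 : 2 * π * κ * |w4 - (c0 + c1 * (z4 - z1) + c2 * (z4 - z1) ^ 2)| ≤ 0.1)
    (hq1 : 0.98 ≤ |q1|) (hq2 : 0.98 ≤ |q2|) (hq3 : 0.98 ≤ |q3|) (hq4 : 0.98 ≤ |q4|)
    (hQ1 : |q1| * L ^ 3 ≤ κ) (hQ2 : |q2| * L ^ 3 ≤ κ) (hQ3 : |q3| * L ^ 3 ≤ κ)
    (hQ4 : |q4| * L ^ 3 ≤ κ)
    (hd1 : |q1 - c1| ≤ 0.01) (hd2 : |q2 - c1| ≤ 0.01) (hd3 : |q3 - c1| ≤ 0.01)
    (hd4 : |q4 - c1| ≤ 0.01) :
    GoodJ κ L q1 z1 w1 0 ∨ GoodJ κ L q2 z2 w2 0 ∨ GoodJ κ L q3 z3 w3 0 ∨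
      GoodJ κ L q4 z4 w4 0 := by
  have hL4 : 1000000000 * L ≤ L ^ 4 := by
    have : (1000:ℝ) ^ 3 ≤ L ^ 3 := pow_le_pow_left₀ (by norm_num) hL 3
    nlinarith
  have hκ1 : 10000 ≤ κ := by linarith
  have hκ0 : 0 < κ := by linarith
  have hK : 0 < 2 * π * κ := by positivity
  obtain ⟨hδ0, hδ1⟩ := dl_small hκ1
  have hKδ := two_le_dl (κ := κ) (by linarith)
  have hσn : -σ = 1 ∨ -σ = -1 := by
    rcases hσ with rfl | rfl
    · right; norm_num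
    · left; norm_num
  -- zero representations
  have r1 : z1 + 0 = n + σ * (1 / 4 + dl κ) := by rw [hz1]; ring
  obtain ⟨n2, r2⟩ : ∃ n2 : ℤ, z2 + 0 = n2 + (-σ) * (1 / 4 + dl κ) := by
    rcases hσ with rfl | rfl
    · exact ⟨n + 1, by rw [hz2, hz1]; push_cast; ring⟩
    · exact ⟨n, by rw [hz2, hz1]; ring⟩
  have r3 : z3 + 0 = (n + 1 : ℤ) + σ * (1 / 4 + dl κ) := by rw [hz3, hz1]; push_cast; ring
  have r4 : z4 + 0 = (n2 + 1 : ℤ) + (-σ) * (1 / 4 + dl κ) := by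
    push_cast
    rw [hz4]
    rw [hz2] at r2
    linear_combination r2
  rcases hole_local hL hκ hq1 hQ1 n hσ 0 r1 with g1 | ⟨b1, m1, s1, e1, hs1, t1, u1, v1⟩
  · exact Or.inl g1
  rcases hole_local hL hκ hq2 hQ2 n2 hσn 0 r2 with g2 | ⟨b2, m2, s2, e2, hs2, t2, u2, v2⟩
  · exact Or.inr (Or.inl g2)
  rcases hole_local hL hκ hq3 hQ3 (n + 1) hσ 0 r3 with g3 | ⟨b3, m3, s3, e3, hs3, t3, u3, v3⟩
  · exact Or.inr (Or.inr (Or.inl g3))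
  rcases hole_local hL hκ hq4 hQ4 (n2 + 1) hσn 0 r4 with g4 | ⟨b4, m4, s4, e4, hs4, t4, u4, v4⟩
  · exact Or.inr (Or.inr (Or.inr g4))
  exfalso
  -- conversion of the bounds
  have conv_e : ∀ e, 2 * π * κ * |e| < 3.5 → |e| ≤ 1.8 * dl κ := by
    intro e he
    by_contra hc
    push Not at hc
    have : 2 * π * κ * (1.8 * dl κ) < 2 * π * κ * |e| := mul_lt_mul_of_pos_left hc hK
    have h5 : 2 * π * κ * (1.8 * dl κ) = 1.8 * (2 * π * κ * dl κ) := by ring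
    linarith
  have conv_w : ∀ y, 2 * π * κ * |y| ≤ 0.1 → |y| ≤ dl κ / 20 := by
    intro y he
    by_contra hc
    push Not at hc
    have : 2 * π * κ * (dl κ / 20) < 2 * π * κ * |y| := mul_lt_mul_of_pos_left hc hK
    have h5 : 2 * π * κ * (dl κ / 20) = (2 * π * κ * dl κ) / 20 := by ring
    linarith
  have w1' := conv_w _ h1
  have w2' := conv_w _ h2
  have w3' := conv_w _ h3
  have w4' := conv_w _ h4
  have d2 : z2 - z1 = 1 / 2 - 2 * σ * dl κ := by rw [hz2]; ring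
  have d3 : z3 - z1 = 1 := by rw [hz3]; ring
  have d4 : z4 - z1 = 3 / 2 - 2 * σ * dl κ := by rw [hz4]; ring
  rw [sub_self] at w1'
  rw [d2] at w2'
  rw [d3] at w3'
  rw [d4] at w4'
  have w1'' : |w1 - c0| ≤ dl κ / 20 := by
    have : c0 + c1 * 0 + c2 * 0 ^ 2 = c0 := by ring
    rwa [this] at w1'
  have a1 := abs_le.mp hd1
  rcases le_total 0 q1 with hq | hq
  · have hq' := hq1
    rw [abs_of_nonneg hq] at hq' b1
    have hc : 0.5 ≤ c1 := by linarith [a1.1, a1.2]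
    obtain rfl := exc_sign_pos hσ hs1 u1 hd1 hc
    have := exc_sign_pos hσn hs2 u2 hd2 hc
    rw [neg_neg] at this
    subst this
    obtain rfl := exc_sign_pos hσ hs3 u3 hd3 hc
    have := exc_sign_pos hσn hs4 u4 hd4 hc
    rw [neg_neg] at this
    subst this
    exact third_diff (m1 := m1) (m2 := m2) (m3 := m3) (m4 := m4) hσ hδ0 hδ1
      (by linarith [a1.1, a1.2]) (by linarith [a1.1, a1.2]) hc2 le_rfl w1'' w2' w3' w4'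
      (by linear_combination t1) (by linear_combination t2) (by linear_combination t3)
      (by linear_combination t4) (conv_e _ v1) (conv_e _ v2) (conv_e _ v3) (conv_e _ v4)
  · have hq' := hq1
    rw [abs_of_nonpos hq] at hq' b1
    have hc : c1 ≤ -0.5 := by linarith [a1.1, a1.2]
    obtain rfl := exc_sign_neg hσ hs1 u1 hd1 hc
    obtain rfl := exc_sign_neg hσn hs2 u2 hd2 hc
    have x3 := exc_sign_neg hσ hs3 u3 hd3 hc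
    have x4 := exc_sign_neg hσn hs4 u4 hd4 hc
    rw [x3] at t3
    rw [x4] at t4
    have n1 : |-w1 - (-c0)| ≤ dl κ / 20 := by
      rw [show -w1 - (-c0) = -(w1 - c0) by ring, abs_neg]; exact w1''
    have n2 : |-w2 - (-c0 + (-c1) * (1 / 2 - 2 * s1 * dl κ)
        + (-c2) * (1 / 2 - 2 * s1 * dl κ) ^ 2)| ≤ dl κ / 20 := by
      rw [← abs_neg]; refine le_trans (le_of_eq ?_) w2'; congr 1; ring
    have n3 : |-w3 - (-c0 + (-c1) * 1 + (-c2) * 1 ^ 2)| ≤ dl κ / 20 := by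
      rw [← abs_neg]; refine le_trans (le_of_eq ?_) w3'; congr 1; ring
    have n4 : |-w4 - (-c0 + (-c1) * (3 / 2 - 2 * s1 * dl κ)
        + (-c2) * (3 / 2 - 2 * s1 * dl κ) ^ 2)| ≤ dl κ / 20 := by
      rw [← abs_neg]; refine le_trans (le_of_eq ?_) w4'; congr 1; ring
    have ab : ∀ e, |e| ≤ 1.8 * dl κ → |(-e)| ≤ 1.8 * dl κ := by
      intro e he; rwa [abs_neg]
    exact third_diff (m1 := -m1) (m2 := -m2) (m3 := -m3) (m4 := -m4) (e1 := -e1) (e2 := -e2)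
      (e3 := -e3) (e4 := -e4) hσ hδ0 hδ1
      (by linarith [a1.1, a1.2]) (by linarith [a1.1, a1.2]) (by rwa [abs_neg]) le_rfl
      n1 n2 n3 n4
      (by push_cast; linear_combination -t1) (by push_cast; linear_combination -t2)
      (by push_cast; linear_combination -t3)
      (by push_cast; linear_combination -t4)
      (ab _ (conv_e _ v1)) (ab _ (conv_e _ v2)) (ab _ (conv_e _ v3)) (ab _ (conv_e _ v4))

/-- Four pairwise separated points are excluded ⇒ one of the four subintervals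
`[A + 2iℓ, A + (2i+1)ℓ]`, `ℓ = (B-A)/7`, misses `S`. -/
theorem interval_of_no_four {A B : ℝ} {S : Set ℝ} (hAB : A < B)
    (h : ∀ t0 t1 t2 t3 : ℝ, t0 ∈ S → t1 ∈ S → t2 ∈ S → t3 ∈ S → A ≤ t0 → t3 ≤ B →
      (B - A) / 7 ≤ t1 - t0 → (B - A) / 7 ≤ t2 - t1 → (B - A) / 7 ≤ t3 - t2 → False) :
    ∃ a b, A ≤ a ∧ b ≤ B ∧ b - a = (B - A) / 7 ∧ Disjoint (Icc a b) S := by
  by_contra hc
  push Not at hc
  have key : ∀ a b, A ≤ a → b ≤ B → b - a = (B - A) / 7 → ∃ t, t ∈ Icc a b ∧ t ∈ S := by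
    intro a b h1 h2 h3
    exact Set.not_disjoint_iff.mp (hc a b h1 h2 h3)
  obtain ⟨t0, ⟨a0, b0⟩, m0⟩ := key A (A + (B - A) / 7) le_rfl (by linarith) (by ring)
  obtain ⟨t1, ⟨a1, b1⟩, m1⟩ := key (A + 2 * ((B - A) / 7)) (A + 3 * ((B - A) / 7))
    (by linarith) (by linarith) (by ring)
  obtain ⟨t2, ⟨a2, b2⟩, m2⟩ := key (A + 4 * ((B - A) / 7)) (A + 5 * ((B - A) / 7))
    (by linarith) (by linarith) (by ring)
  obtain ⟨t3, ⟨a3, b3⟩, m3⟩ := key (A + 6 * ((B - A) / 7)) B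
    (by linarith) (by linarith) (by ring)
  exact h t0 t1 t2 t3 m0 m1 m2 m3 a0 b3 (by linarith) (by linarith) (by linarith)

/-- HOLE IN A GOOD ZONE.  In a good zone, a set `S` on which a quadratic polynomial plus
`1/a(xm+t) + q⁻²/a(xp+qt)` is at most `θ < 1/(200000 L²)` in absolute value misses an interval
of length at least `d/28`, `d = L/K`. -/
theorem hole_interval {κ L q xm xp T θ C0 C1 C2 : ℝ} (hL : 0 < L) (hκ : 0 < κ) (hq : q ≠ 0)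
    (hJ : GoodJ κ L q xm xp T) (hθ : 200000 * L ^ 2 * θ < 1) {S : Set ℝ}
    (hS : ∀ t ∈ S, |t - T| ≤ 2 * (L / (2 * π * κ)) → L / 2 ≤ |aF κ (xm + t)| →
      |aF κ (xm + t)| ≤ 4 * L → L / 2 ≤ |aF κ (xp + q * t)| →
      |C0 + C1 * t + C2 * t ^ 2 + (1 / aF κ (xm + t) + 1 / q ^ 2 * (1 / aF κ (xp + q * t)))| ≤ θ) :
    ∃ a b, T - 2 * (L / (2 * π * κ)) ≤ a ∧ b ≤ T + 2 * (L / (2 * π * κ)) ∧
      (L / (2 * π * κ)) / 28 ≤ b - a ∧ Disjoint (Icc a b) S ∧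
      ∀ t ∈ Icc a b, L / 2 ≤ |aF κ (xm + t)| ∧ |aF κ (xm + t)| ≤ 4 * L ∧
        L / 2 ≤ |aF κ (xp + q * t)| := by
  obtain ⟨A, B, hA, hB, hlen, hgood⟩ := hJ
  have hd : 0 < L / (2 * π * κ) := by positivity
  have hAB : A < B := by linarith
  have hne1 : ∀ t ∈ Icc A B, aF κ (xm + t) ≠ 0 := by
    intro t ht h0
    have := (hgood t ht).1
    rw [h0, abs_zero] at this
    linarith
  have hne2 : ∀ t ∈ Icc A B, aF κ (xp + q * t) ≠ 0 := by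
    intro t ht h0
    have := (hgood t ht).2.2.1
    rw [h0, abs_zero] at this
    linarith
  have hthree : ∀ t0 t1 t2 t3 : ℝ, t0 ∈ S → t1 ∈ S → t2 ∈ S → t3 ∈ S → A ≤ t0 → t3 ≤ B →
      (B - A) / 7 ≤ t1 - t0 → (B - A) / 7 ≤ t2 - t1 → (B - A) / 7 ≤ t3 - t2 → False := by
    intro t0 t1 t2 t3 m0 m1 m2 m3 a0 b3 h01 h12 h23
    have hstep : 0 < (B - A) / 7 := by linarith
    have hval : ∀ t ∈ S, A ≤ t → t ≤ B →
        |C0 + C1 * t + C2 * t ^ 2 + (1 / aF κ (xm + t) + 1 / q ^ 2 * (1 / aF κ (xp + q * t)))|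
          ≤ θ := by
      intro t ht h1 h2
      obtain ⟨g1, g2, g3, -⟩ := hgood t ⟨h1, h2⟩
      refine hS t ht ?_ g1 g2 g3
      rw [abs_le]
      constructor <;> linarith
    have := four_points (A := A) (B := B) (Λ := (2 * π * κ) ^ 3 / L ^ 5) (θ := θ)
      (h := (B - A) / 7) (C0 := C0) (C1 := C1) (C2 := C2)
      (R := fun t => 1 / aF κ (xm + t) + 1 / q ^ 2 * (1 / aF κ (xp + q * t)))
      (R1 := fun t => i1 κ xm 1 t + 1 / q ^ 2 * i1 κ xp q t)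
      (R2 := fun t => i2 κ xm 1 t + 1 / q ^ 2 * i2 κ xp q t)
      (R3 := fun t => 1 ^ 3 * gF κ (xm + 1 * t) + 1 / q ^ 2 * (q ^ 3 * gF κ (xp + q * t)))
      ?_ ?_ ?_ ?_ hstep a0 b3 h01 h12 h23 (hval t0 m0 (by linarith) (by linarith))
      (hval t1 m1 (by linarith) (by linarith)) (hval t2 m2 (by linarith) (by linarith))
      (hval t3 m3 (by linarith) (by linarith))
    · have h7 : (L / (2 * π * κ)) / 28 ≤ (B - A) / 7 := by linarith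
      have h8 : ((L / (2 * π * κ)) / 28) ^ 3 ≤ ((B - A) / 7) ^ 3 :=
        pow_le_pow_left₀ (by positivity) h7 3
      have h9 : (2 * π * κ) ^ 3 / L ^ 5 * ((L / (2 * π * κ)) / 28) ^ 3
          ≤ (2 * π * κ) ^ 3 / L ^ 5 * ((B - A) / 7) ^ 3 := by gcongr
      have h10 : (2 * π * κ) ^ 3 / L ^ 5 * ((L / (2 * π * κ)) / 28) ^ 3 = 1 / (21952 * L ^ 2) := by
        field_simp
        norm_num
      rw [h10] at h9
      have h11 : 1 / (21952 * L ^ 2) ≤ 8 * θ := h9.trans this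
      rw [div_le_iff₀ (by positivity)] at h11
      nlinarith
    · intro t ht
      have e1 := hasDerivAt_i0 (κ := κ) (x := xm) (q := 1) (t := t)
        (by rw [one_mul]; exact hne1 t ht)
      have e2 := hasDerivAt_i0 (κ := κ) (x := xp) (q := q) (t := t) (hne2 t ht)
      have e3 := e1.add (e2.const_mul (1 / q ^ 2))
      simp only [one_mul] at e3 ⊢
      exact e3
    · intro t ht
      have e1 := hasDerivAt_i1 (κ := κ) (x := xm) (q := 1) (t := t)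
        (by rw [one_mul]; exact hne1 t ht)
      have e2 := hasDerivAt_i1 (κ := κ) (x := xp) (q := q) (t := t) (hne2 t ht)
      exact e1.add (e2.const_mul (1 / q ^ 2))
    · intro t ht
      have e1 := hasDerivAt_i2 (κ := κ) (x := xm) (q := 1) (t := t)
        (by rw [one_mul]; exact hne1 t ht)
      have e2 := hasDerivAt_i2 (κ := κ) (x := xp) (q := q) (t := t) (hne2 t ht)
      exact e1.add (e2.const_mul (1 / q ^ 2))
    · intro t ht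
      have h12 := (hgood t ht).2.2.2
      refine h12.trans (le_of_eq ?_)
      congr 1
      rw [one_mul]
      field_simp
  obtain ⟨a, b, ha, hb, hab, hdis⟩ := interval_of_no_four hAB hthree
  refine ⟨a, b, by linarith, by linarith, by linarith, hdis, ?_⟩
  intro t ht
  obtain ⟨g1, g2, g3, -⟩ := hgood t ⟨by linarith [ht.1], by linarith [ht.2]⟩
  exact ⟨g1, g2, g3⟩

end Vale.Agent.P108.H850
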