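import Vale.Agent.P108.H850.Trig

/-! Local asymptotics of `a` and `g = (1/a)'''` near a zero of `a`. -/

namespace Vale.Agent.P108.H850

open Real Set

theorem sin_mvt (a b : ℝ) : ∃ ξ : ℝ, |ξ - a| ≤ |b - a| ∧
    Real.sin b - Real.sin a = Real.cos ξ * (b - a) := by
  rcases lt_trichotomy a b with h | h | h
  · obtain ⟨c, hc, h2⟩ := exists_hasDerivAt_eq_slope Real.sin Real.cos h
      Real.continuous_sin.continuousOn (fun x _ => Real.hasDerivAt_sin x)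
    refine ⟨c, ?_, ?_⟩
    · rw [abs_of_pos (by linarith [hc.1]), abs_of_pos (by linarith)]
      linarith [hc.2]
    · rw [h2]; field_simp [sub_ne_zero.2 h.ne']
  · subst h; exact ⟨a, by simp, by simp⟩
  · obtain ⟨c, hc, h2⟩ := exists_hasDerivAt_eq_slope Real.sin Real.cos h
      Real.continuous_sin.continuousOn (fun x _ => Real.hasDerivAt_sin x)
    refine ⟨c, ?_, ?_⟩
    · rw [abs_of_neg (by linarith [hc.2]), abs_of_neg (by linarith)]
      linarith [hc.1]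
    · rw [h2]
      have : a - b ≠ 0 := sub_ne_zero.2 h.ne'
      field_simp
      ring

theorem cos_ge {x e : ℝ} (h : |x| ≤ e) : 1 - e ^ 2 / 2 ≤ Real.cos x := by
  have h1 := Real.one_sub_sq_div_two_le_cos (x := x)
  have h2 : x ^ 2 ≤ e ^ 2 := sq_le_sq' (by linarith [abs_le.1 h |>.1]) (abs_le.1 h).2
  linarith

theorem G_bound {e c1 c2 ρ : ℝ} (he0 : 0 < e) (he1 : e ≤ 1 / 100) (c1l : 1 - e / 8 ≤ c1)
    (hc1' : c1 ≤ 1) (c2l : 1 - e / 8 ≤ c2) (hc2' : c2 ≤ 1) (hρ1 : |ρ - 1| ≤ e / 8) :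
    |c2 * ρ / c1 ^ 4 - 1| ≤ e := by
  rw [abs_le] at hρ1
  have hc4 : 0 < c1 := by linarith
  have c1p : 0 < c1 ^ 4 := by positivity
  have l1 : (1 - e / 8) ^ 4 ≤ c1 ^ 4 := pow_le_pow_left₀ (by linarith) c1l 4
  have l2 : c1 ^ 4 ≤ 1 := pow_le_one₀ hc4.le hc1'
  have l3 : 1 - e / 2 ≤ (1 - e / 8) ^ 4 := by
    have h1 : 1 - e / 4 ≤ (1 - e / 8) ^ 2 := by nlinarith [sq_nonneg e]
    have h2 : (1 - e / 4) ^ 2 ≤ ((1 - e / 8) ^ 2) ^ 2 := pow_le_pow_left₀ (by linarith) h1 2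
    nlinarith [sq_nonneg e]
  have p1 : (1 - e / 8) * (1 - e / 8) ≤ c2 * ρ := by
    apply mul_le_mul c2l (by linarith) (by linarith) (by linarith)
  have p2 : c2 * ρ ≤ 1 * (1 + e / 8) := by
    apply mul_le_mul hc2' (by linarith) (by linarith) (by norm_num)
  rw [abs_le]
  constructor
  · rw [le_sub_iff_add_le, le_div_iff₀ c1p]
    have h3 : (-e + 1) * c1 ^ 4 ≤ (-e + 1) * 1 := mul_le_mul_of_nonneg_left l2 (by linarith)
    nlinarith
  · rw [sub_le_iff_le_add, div_le_iff₀ c1p]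
    have h3 : (e + 1) * (1 - e / 2) ≤ (e + 1) * c1 ^ 4 :=
      mul_le_mul_of_nonneg_left (l3.trans l1) (by linarith)
    nlinarith

theorem rho_bound {κ M A : ℝ} (hM : 1 ≤ M) (hκ : 100 * M ≤ κ) (haM : |A| ≤ M) :
    |(6 * κ ^ 2 - 24 + 12 * A - A ^ 2) / (6 * κ ^ 2) - 1| ≤ M / κ / 8 := by
  have hκ0 : 0 < κ := by linarith
  have h6 : 0 < 6 * κ ^ 2 := by positivity
  have e0 : (6 * κ ^ 2 - 24 + 12 * A - A ^ 2) / (6 * κ ^ 2) - 1
      = (-24 + 12 * A - A ^ 2) / (6 * κ ^ 2) := by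
    rw [div_sub_one h6.ne']; congr 1; ring
  rw [e0, abs_div, abs_of_pos h6, div_le_iff₀ h6]
  have h1 : |-24 + 12 * A - A ^ 2| ≤ 37 * M ^ 2 := by
    rw [abs_le] at haM ⊢
    constructor <;> nlinarith [haM.1, haM.2, sq_nonneg A]
  refine h1.trans ?_
  have h2 : M / κ / 8 * (6 * κ ^ 2) = 3 / 4 * M * κ := by field_simp; ring
  rw [h2]
  nlinarith [mul_le_mul_of_nonneg_left hκ (by linarith : 0 ≤ M)]

theorem g_algebra {κ σ c2 ρ u c1 : ℝ} (hκ : 0 < κ) (hu : u ≠ 0) (hc : 0 < c1) :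
    8 * π ^ 3 * κ * (σ * c2) * (ρ * (6 * κ ^ 2)) / ((2 * π * κ) ^ 4 * u ^ 4 * c1 ^ 4)
      = 3 * σ / (π * κ) * (c2 * ρ / c1 ^ 4) / u ^ 4 := by
  have := Real.pi_pos
  field_simp
  ring

theorem near_zero {κ M : ℝ} (hM : 1 ≤ M) (hκ : 100 * M ≤ κ) (n : ℤ) {σ : ℝ}
    (hσ : σ = 1 ∨ σ = -1) {u : ℝ} (hu : u ≠ 0) (huM : 2 * π * κ * |u| ≤ M) :
    ∃ G c : ℝ, |G - 1| ≤ M / κ ∧ 1 - M / κ ≤ c ∧ c ≤ 1 ∧
      gF κ (n + σ * (1 / 4 + dl κ) + u) = 3 * σ / (π * κ) * G / u ^ 4 ∧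
      aF κ (n + σ * (1 / 4 + dl κ) + u) = -(2 * π * κ * σ * u) * c := by
  have hκ0 : 0 < κ := by linarith
  have hσ2 : σ * σ = 1 := by rcases hσ with rfl | rfl <;> norm_num
  have hσa : |σ| = 1 := by rcases hσ with rfl | rfl <;> norm_num
  obtain ⟨hd1, hd2⟩ := dl_bounds (κ := κ) (by linarith)
  have hd0 : 0 ≤ 2 * π * dl κ := le_trans (by positivity) hd1
  set y := dl κ + σ * u with hy
  have hx : (n : ℝ) + σ * (1 / 4 + dl κ) + u = n + σ * (1 / 4 + y) := by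
    rw [hy]; linear_combination -u * hσ2
  set e := M / κ with he
  have he0 : 0 < e := by positivity
  have he1 : e ≤ 1 / 100 := by rw [he, div_le_iff₀ hκ0]; linarith
  have hinv : 1 / κ ≤ e := by rw [he]; gcongr
  have hd3 : |2 * π * dl κ| ≤ 4 * e := by
    rw [abs_of_nonneg hd0]
    have : 4 / κ = 4 * (1 / κ) := by ring
    linarith
  have hv : |2 * π * (σ * u)| ≤ e := by
    rw [abs_mul (2 * π), abs_mul σ, hσa, abs_of_pos (by positivity : 0 < 2 * π)]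
    rw [he, le_div_iff₀ hκ0]; nlinarith [huM]
  obtain ⟨ξ, hξ1, hξ2⟩ := sin_mvt (2 * π * dl κ) (2 * π * y)
  have hyv : 2 * π * y - 2 * π * dl κ = 2 * π * (σ * u) := by rw [hy]; ring
  rw [hyv] at hξ1 hξ2
  have hξ : |ξ| ≤ 5 * e := by
    have : ξ = (ξ - 2 * π * dl κ) + 2 * π * dl κ := by ring
    rw [this]
    refine (abs_add_le _ _).trans ?_
    linarith
  have hyb : |2 * π * y| ≤ 5 * e := by
    have : 2 * π * y = 2 * π * (σ * u) + 2 * π * dl κ := by rw [hy]; ring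
    rw [this]
    refine (abs_add_le _ _).trans ?_
    linarith
  have hc1 := cos_ge hξ
  have hc2 := cos_ge hyb
  set c1 := Real.cos ξ with hc1d
  set c2 := Real.cos (2 * π * y) with hc2d
  have hc1' : c1 ≤ 1 := Real.cos_le_one _
  have hc2' : c2 ≤ 1 := Real.cos_le_one _
  have q1 : (5 * e) ^ 2 / 2 ≤ e / 8 := by nlinarith
  have c1l : 1 - e / 8 ≤ c1 := by linarith
  have c2l : 1 - e / 8 ≤ c2 := by linarith
  have ha : aF κ (n + σ * (1 / 4 + y)) = -(2 * π * κ * σ * u) * c1 := by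
    rw [aF_param (by linarith) n hσ]
    have : Real.sin (2 * π * dl κ) - Real.sin (2 * π * y) = -(c1 * (2 * π * (σ * u))) := by
      linarith
    rw [this]; ring
  have haM : |aF κ (n + σ * (1 / 4 + y))| ≤ M := by
    rw [ha, abs_mul, abs_neg, abs_mul, abs_mul, hσa, abs_of_pos (by positivity : 0 < 2 * π * κ),
      abs_of_nonneg (by linarith : 0 ≤ c1)]
    calc 2 * π * κ * 1 * |u| * c1 ≤ 2 * π * κ * 1 * |u| * 1 := by gcongr
      _ ≤ M := by linarith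
  set A := aF κ (n + σ * (1 / 4 + y)) with hA
  have hρ1 := rho_bound hM hκ haM
  obtain ⟨ρ, hρ⟩ : ∃ r, r = (6 * κ ^ 2 - 24 + 12 * A - A ^ 2) / (6 * κ ^ 2) := ⟨_, rfl⟩
  rw [← hρ] at hρ1
  have hc4 : 0 < c1 := by linarith
  refine ⟨c2 * ρ / c1 ^ 4, c1, G_bound he0 he1 c1l hc1' c2l hc2' hρ1, by linarith, hc1', ?_,
    by rw [hx]; exact ha⟩
  rw [hx]
  unfold gF
  rw [sin_param n hσ, ← hA, ← hc2d]
  have h6 : 0 < 6 * κ ^ 2 := by positivity
  have e1 : 6 * κ ^ 2 - 24 + 12 * A - A ^ 2 = ρ * (6 * κ ^ 2) := by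
    rw [hρ, div_mul_cancel₀ _ h6.ne']
  have e2 : A ^ 4 = (2 * π * κ) ^ 4 * u ^ 4 * c1 ^ 4 := by
    have : σ ^ 4 = 1 := by rcases hσ with rfl | rfl <;> norm_num
    rw [ha]
    calc (-(2 * π * κ * σ * u) * c1) ^ 4 = (2 * π * κ) ^ 4 * u ^ 4 * c1 ^ 4 * σ ^ 4 := by ring
      _ = _ := by rw [this]; ring
  rw [e1, e2]
  exact g_algebra hκ0 hu hc4

/-- If `|a(x)|` is small then `x` is near a zero of `a`. -/
theorem exists_zero {κ M x : ℝ} (hM : 1 ≤ M) (hκ : 1000 * M ≤ κ) (hx : |aF κ x| ≤ M) :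
    ∃ (n : ℤ) (σ : ℝ), (σ = 1 ∨ σ = -1) ∧
      2 * π * κ * |x - (n + σ * (1 / 4 + dl κ))| ≤ 1.1 * M := by
  have hκ0 : 0 < κ := by linarith
  obtain ⟨n, σ, y, hσ, hy, rfl⟩ := exists_param x
  refine ⟨n, σ, hσ, ?_⟩
  have hσa : |σ| = 1 := by rcases hσ with rfl | rfl <;> norm_num
  obtain ⟨hd1, hd2⟩ := dl_bounds (κ := κ) (by linarith)
  have hd0 : 0 ≤ 2 * π * dl κ := le_trans (by positivity) hd1
  have e0 : (n : ℝ) + σ * (1 / 4 + y) - (n + σ * (1 / 4 + dl κ)) = σ * (y - dl κ) := by ring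
  rw [e0, abs_mul, hσa, one_mul]
  rw [aF_param (by linarith) n hσ, abs_mul, abs_of_pos hκ0] at hx
  have hinv : 4 / κ ≤ 1 / 100 := by rw [div_le_iff₀ hκ0]; linarith
  have hMκ : M / κ ≤ 1 / 1000 := by rw [div_le_iff₀ hκ0]; linarith
  have h1 : |Real.sin (2 * π * dl κ) - Real.sin (2 * π * y)| ≤ M / κ := by
    rw [le_div_iff₀ hκ0]; linarith
  have hsd : |Real.sin (2 * π * dl κ)| ≤ 1 / 100 := by
    rw [sin_dl (by linarith), abs_of_pos (by positivity)]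
    have : 2 / κ ≤ 4 / κ := by gcongr; norm_num
    linarith
  have hsy : |Real.sin (2 * π * y)| ≤ 1 / 50 := by
    have : Real.sin (2 * π * y) = Real.sin (2 * π * dl κ)
      - (Real.sin (2 * π * dl κ) - Real.sin (2 * π * y)) := by ring
    rw [this]
    refine (abs_sub _ _).trans ?_
    linarith
  have hyy : |2 * π * y| ≤ π / 2 := by
    rw [abs_mul, abs_of_pos (by positivity : 0 < 2 * π)]
    nlinarith [Real.pi_pos]
  have h2 := Real.mul_abs_le_abs_sin hyy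
  have h2π : (1:ℝ) / 2 ≤ 2 / π := by
    rw [div_le_div_iff₀ (by norm_num) Real.pi_pos]
    linarith [Real.pi_lt_four]
  have hyb : |2 * π * y| ≤ 1 / 20 := by
    have : 1 / 2 * |2 * π * y| ≤ 2 / π * |2 * π * y| := by gcongr
    linarith
  obtain ⟨ξ, hξ1, hξ2⟩ := sin_mvt (2 * π * dl κ) (2 * π * y)
  have hdb : |2 * π * dl κ| ≤ 1 / 100 := by rw [abs_of_nonneg hd0]; linarith
  have hξ : |ξ| ≤ 1 / 10 := by
    have e1 : ξ = (ξ - 2 * π * dl κ) + 2 * π * dl κ := by ring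
    rw [e1]
    refine (abs_add_le _ _).trans ?_
    have := abs_sub (2 * π * y) (2 * π * dl κ)
    linarith
  have hc := cos_ge hξ
  have e2 : 2 * π * y - 2 * π * dl κ = 2 * π * (y - dl κ) := by ring
  rw [e2] at hξ2
  rw [abs_sub_comm, hξ2, abs_mul, abs_mul, abs_of_pos (by positivity : 0 < 2 * π),
    abs_of_pos (by linarith : 0 < Real.cos ξ)] at h1
  have h3 : (0.99:ℝ) * (2 * π * |y - dl κ|) ≤ M / κ := by
    refine le_trans ?_ h1
    apply mul_le_mul_of_nonneg_right _ (by positivity)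
    linarith
  rw [le_div_iff₀ hκ0] at h3
  nlinarith

end Vale.Agent.P108.H850
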