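import Vale.Agent.P108.H850.Hole

namespace Vale.Agent.P108.H850

open Real Set

theorem aF_neg (κ x : ℝ) : aF κ (-x) = aF κ x := by
  unfold aF
  rw [show 2 * π * -x = -(2 * π * x) by ring, Real.cos_neg]

/-- perturbation of `1/a` -/
theorem inv_diff {a b L ε : ℝ} (hL : 0 < L) (ha : L / 2 ≤ |a|) (hab : |b - a| ≤ ε)
    (hε : ε ≤ L / 4) : L / 4 ≤ |b| ∧ |1 / b - 1 / a| ≤ 8 * ε / L ^ 2 := by
  have h1 : |a| ≤ |b| + |b - a| := by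
    have := abs_sub_abs_le_abs_sub a b
    rw [abs_sub_comm a b] at this
    linarith
  have hb : L / 4 ≤ |b| := by linarith
  refine ⟨hb, ?_⟩
  have ha0 : a ≠ 0 := by
    intro h; rw [h, abs_zero] at ha; linarith
  have hb0 : b ≠ 0 := by
    intro h; rw [h, abs_zero] at hb; linarith
  have e : 1 / b - 1 / a = (a - b) / (b * a) := by field_simp
  rw [e, abs_div, abs_mul, abs_sub_comm]
  have h2 : L ^ 2 / 8 ≤ |b| * |a| := by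
    calc L ^ 2 / 8 = (L / 4) * (L / 2) := by ring
      _ ≤ |b| * |a| := by gcongr
  have hε0 : 0 ≤ ε := le_trans (abs_nonneg _) hab
  calc |b - a| / (|b| * |a|) ≤ ε / (L ^ 2 / 8) := by gcongr
    _ = 8 * ε / L ^ 2 := by field_simp

/-- change of the weight `q⁻²` -/
theorem weight_diff {q η : ℝ} (hη : |η| ≤ 1 / 100) (hq : q ≠ 0) :
    |1 / q ^ 2 - 1 / (q * (1 + η)) ^ 2| ≤ 2.2 * |η| / q ^ 2 := by
  have h1 := abs_le.mp hη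
  have h2 : 0 < 1 + η := by linarith [h1.1]
  have hq2 : 0 < q ^ 2 := by positivity
  have e : 1 / q ^ 2 - 1 / (q * (1 + η)) ^ 2 = (η * (2 + η) / (1 + η) ^ 2) / q ^ 2 := by
    field_simp
    ring
  rw [e, abs_div, abs_of_pos hq2]
  apply div_le_div_of_nonneg_right _ hq2.le
  rw [abs_div, abs_mul, abs_of_pos (by positivity : 0 < (1 + η) ^ 2), div_le_iff₀ (by positivity)]
  have h3 : |2 + η| ≤ 2.01 := by rw [abs_le]; constructor <;> linarith [h1.1, h1.2]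
  have h4 : 0.98 ≤ (1 + η) ^ 2 := by nlinarith [h1.1]
  have h5 : 0 ≤ |η| := abs_nonneg _
  calc |η| * |2 + η| ≤ |η| * 2.01 := by gcongr
    _ ≤ |η| * (2.2 * 0.98) := by gcongr; norm_num
    _ = 2.2 * |η| * 0.98 := by ring
    _ ≤ 2.2 * |η| * (1 + η) ^ 2 := by gcongr

/-- triangle inequality used in `zone_transfer` -/
theorem four_tri {P x1 x2 y1 y2 p Q θ δ1 δ2 δ3 : ℝ} (h : |P + (x1 + p * y1)| ≤ θ)
    (h1 : |x1 - x2| ≤ δ1) (h2 : |p * (y1 - y2)| ≤ δ2) (h3 : |(p - Q) * y2| ≤ δ3) :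
    |P + (x2 + Q * y2)| ≤ θ + δ1 + δ2 + δ3 := by
  have e : P + (x2 + Q * y2) = (P + (x1 + p * y1)) - (x1 - x2) - p * (y1 - y2) - (p - Q) * y2 := by
    ring
  rw [e]
  have a1 := abs_sub (P + (x1 + p * y1) - (x1 - x2) - p * (y1 - y2)) ((p - Q) * y2)
  have a2 := abs_sub (P + (x1 + p * y1) - (x1 - x2)) (p * (y1 - y2))
  have a3 := abs_sub (P + (x1 + p * y1)) (x1 - x2)
  linarith

/-- numerical facts about the sizes -/
theorem sizes {κ L : ℝ} (hL : 1000 ≤ L) (hκ : L ^ 4 ≤ κ) :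
    0 < κ ∧ 6 * κ ≤ 2 * π * κ ∧ 2 * π * κ * (L / (2 * π * κ)) = L ∧
      L / (2 * π * κ) ≤ 1 / 10 ^ 9 ∧ 0 < L / (2 * π * κ) := by
  have hL4 : 10 ^ 9 * L ≤ L ^ 4 := by
    have : (1000:ℝ) ^ 3 ≤ L ^ 3 := pow_le_pow_left₀ (by norm_num) hL 3
    nlinarith
  have hκ0 : 0 < κ := by nlinarith
  have h6 : 6 * κ ≤ 2 * π * κ := by nlinarith [Real.pi_gt_three]
  have hK : 0 < 2 * π * κ := by positivity
  refine ⟨hκ0, h6, by field_simp, ?_, by positivity⟩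
  rw [div_le_iff₀ hK]
  have : L ≤ 1 / 10 ^ 9 * κ := by linarith
  linarith

theorem A_facts {α α0 v : ℝ} (hα : |α| ≤ α0) (h0 : 0 ≤ v) (h3 : v ≤ 3)
    (hα11 : α0 ≤ 1 / 10 ^ 11) :
    |2 * α * v| ≤ 6 * α0 ∧ 0.999 ≤ 1 + 2 * α * v ∧ 1 + 2 * α * v ≤ 1.001 := by
  have hαv : |2 * α * v| ≤ 6 * α0 := by
    rw [abs_mul, abs_mul, abs_of_nonneg h0, abs_of_pos (by norm_num : (0:ℝ) < 2)]
    nlinarith [abs_nonneg α]
  have hA2 := abs_le.mp hαv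
  refine ⟨hαv, by linarith [hA2.1], by linarith [hA2.2]⟩

theorem beta_facts {β q α0 v : ℝ} (hβ : |β| ≤ q ^ 2 * α0) (h0 : 0 ≤ v) (h3 : v ≤ 3)
    (hqp : 0 < |q|) (hα0 : 0 ≤ α0) : |2 * β * v / q| ≤ 6 * (|q| * α0) := by
  rw [abs_div, div_le_iff₀ hqp, abs_mul, abs_mul, abs_of_nonneg h0,
    abs_of_pos (by norm_num : (0:ℝ) < 2)]
  have h1 : |β| * v ≤ (q ^ 2 * α0) * 3 :=
    mul_le_mul hβ h3 h0 (by positivity)
  rw [← sq_abs] at h1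
  calc 2 * |β| * v = 2 * (|β| * v) := by ring
    _ ≤ 2 * ((|q| ^ 2 * α0) * 3) := by gcongr
    _ = 6 * (|q| * α0) * |q| := by ring

theorem eta_facts {α β q α0 v : ℝ} (hα : |α| ≤ α0) (hβ : |β| ≤ q ^ 2 * α0) (h0 : 0 ≤ v)
    (h3 : v ≤ 3) (hq1 : 1 ≤ |q|) (hα11 : α0 ≤ 1 / 10 ^ 11) :
    ∃ η, (q + 2 * β * v) / (1 + 2 * α * v) = q * (1 + η) ∧ |η| ≤ 12.1 * (|q| * α0) := by
  have hqp : 0 < |q| := by linarith
  have hq0 : q ≠ 0 := abs_pos.mp hqp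
  have hα0 : 0 ≤ α0 := le_trans (abs_nonneg _) hα
  obtain ⟨a1, a2, a3⟩ := A_facts hα h0 h3 hα11
  have b1 := beta_facts hβ h0 h3 hqp hα0
  obtain ⟨A, hA⟩ : ∃ A, A = 1 + 2 * α * v := ⟨_, rfl⟩
  rw [← hA] at a2 a3 ⊢
  have hAp : 0 < A := by linarith
  refine ⟨(2 * β * v / q - 2 * α * v) / A, ?_, ?_⟩
  · field_simp
    rw [hA]; ring
  · rw [abs_div, abs_of_pos hAp, div_le_iff₀ hAp]
    have h1 := abs_sub (2 * β * v / q) (2 * α * v)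
    have h2 : α0 ≤ |q| * α0 := le_mul_of_one_le_left hα0 hq1
    have h5 : 0 ≤ |q| * α0 := by positivity
    have h6 : 12.1 * (|q| * α0) * 0.999 ≤ 12.1 * (|q| * α0) * A := by gcongr
    linarith

theorem Ks_bound {κ L A s d : ℝ} (hL : 0 < L) (hK : 0 < 2 * π * κ) (hKd : 2 * π * κ * d = L)
    (hd0 : 0 < d) (hA : 0.999 ≤ A) (hs : |s| ≤ 2 * d) :
    |s / A| ≤ 2.0025 * d ∧ 2 * π * κ * (s / A) ^ 2 ≤ 4.05 * (L * d) := by
  have hAp : 0 < A := by linarith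
  have h1 : |s / A| ≤ 2.0025 * d := by
    rw [abs_div, abs_of_pos hAp, div_le_iff₀ hAp]
    have : 2.0025 * d * 0.999 ≤ 2.0025 * d * A := by gcongr
    linarith
  refine ⟨h1, ?_⟩
  have h2 : (s / A) ^ 2 ≤ (2.0025 * d) ^ 2 := by
    rw [← sq_abs]; exact pow_le_pow_left₀ (abs_nonneg _) h1 2
  calc 2 * π * κ * (s / A) ^ 2 ≤ 2 * π * κ * (2.0025 * d) ^ 2 := by gcongr
    _ = 2.0025 ^ 2 * ((2 * π * κ * d) * d) := by ring
    _ = 2.0025 ^ 2 * (L * d) := by rw [hKd]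
    _ ≤ 4.05 * (L * d) := by
      have : 0 < L * d := by positivity
      nlinarith

theorem small1 {α0 L d : ℝ} (hα0 : 10 ^ 8 * (L * α0) ≤ 1) (hd9 : d ≤ 1 / 10 ^ 9)
    (hd0 : 0 < d) : 4.05 * (α0 * (L * d)) ≤ 1 / 10 ^ 10 := by
  have h1 : L * α0 * d ≤ 1 / 10 ^ 8 * (1 / 10 ^ 9) :=
    mul_le_mul (by linarith) hd9 hd0.le (by norm_num)
  have h2 : α0 * (L * d) = L * α0 * d := by ring
  rw [h2]
  refine (mul_le_mul_of_nonneg_left h1 (by norm_num)).trans ?_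
  norm_num

theorem qLd {κ L Q d : ℝ} (hL : 1 ≤ L) (hQ : 0 ≤ Q) (hQL : 2 * Q * L ^ 3 ≤ κ) (hκ0 : 0 < κ)
    (hK : 6 * κ ≤ 2 * π * κ) (hKd : 2 * π * κ * d = L) : Q * (L * d) ≤ 1 := by
  have h1 : 2 * π * κ * (Q * (L * d)) = Q * L ^ 2 := by
    calc 2 * π * κ * (Q * (L * d)) = Q * L * (2 * π * κ * d) := by ring
      _ = Q * L ^ 2 := by rw [hKd]; ring
  have h2 : Q * L ^ 2 ≤ 2 * Q * L ^ 3 := by
    have h3 : Q * L ^ 2 * 1 ≤ Q * L ^ 2 * L := by gcongr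
    have h4 : 0 ≤ Q * L ^ 3 := by positivity
    calc Q * L ^ 2 = Q * L ^ 2 * 1 := by ring
      _ ≤ Q * L ^ 2 * L := h3
      _ = Q * L ^ 3 := by ring
      _ ≤ 2 * Q * L ^ 3 := by linarith
  have h5 : 2 * π * κ * (Q * (L * d)) ≤ 2 * π * κ * 1 := by linarith
  exact le_of_mul_le_mul_left h5 (by linarith)

theorem small2 {α0 L d q : ℝ} (hqα : 10 ^ 5 * (|q| * α0) ≤ 1) (h : |q| * (L * d) ≤ 1)
    (h0 : 0 ≤ |q| * (L * d)) : q ^ 2 * (4.05 * (α0 * (L * d))) ≤ 1 / 10 ^ 4 := by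
  have h2 : q ^ 2 * (4.05 * (α0 * (L * d))) = 4.05 * ((|q| * α0) * (|q| * (L * d))) := by
    rw [← sq_abs]; ring
  rw [h2]
  have h3 : (|q| * α0) * (|q| * (L * d)) ≤ (1 / 10 ^ 5) * 1 :=
    mul_le_mul (by linarith) h h0 (by norm_num)
  linarith

theorem weight_final {q Q η α0 L y : ℝ} (hq1 : 1 ≤ |q|) (hL0 : 0 < L) (hα0 : 0 ≤ α0)
    (h1 : |1 / q ^ 2 - 1 / Q ^ 2| ≤ 2.2 * |η| / q ^ 2) (hη1 : |η| ≤ 12.1 * (|q| * α0))
    (hy2 : |y| ≤ 2 / L) : |(1 / q ^ 2 - 1 / Q ^ 2) * y| ≤ 53.3 * α0 / L := by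
  have hqp : 0 < |q| := by linarith
  have hq0 : q ≠ 0 := abs_pos.mp hqp
  rw [abs_mul]
  calc |1 / q ^ 2 - 1 / Q ^ 2| * |y|
      ≤ (2.2 * |η| / q ^ 2) * (2 / L) := by gcongr
    _ ≤ (2.2 * (12.1 * (|q| * α0)) / q ^ 2) * (2 / L) := by gcongr
    _ = 53.24 * α0 / L * (1 / |q|) := by
      rw [← sq_abs q]; field_simp; ring
    _ ≤ 53.3 * α0 / L * 1 := by
      have : 1 / |q| ≤ 1 := by rw [div_le_one hqp]; exact hq1
      gcongr; norm_num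
    _ = 53.3 * α0 / L := by ring

theorem sum_final {L α0 X θ : ℝ} (hL0 : 0 < L) (hα0 : 10 ^ 8 * (L * α0) ≤ 1)
    (hX : X ≤ 1 / 10 ^ 10) :
    θ + 8 * X / L ^ 2 + 8 * X / L ^ 2 + 53.3 * α0 / L ≤ θ + 1 / (1000000 * L ^ 2) := by
  have h2 : 53.3 * α0 / L = 53.3 * (L * α0) / L ^ 2 := by field_simp
  have h5 : θ + 8 * X / L ^ 2 + 8 * X / L ^ 2 + 53.3 * (L * α0) / L ^ 2
      = θ + (16 * X + 53.3 * (L * α0)) / L ^ 2 := by ring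
  rw [h2, h5]
  have h6 : (16 * X + 53.3 * (L * α0)) / L ^ 2 ≤ (1 / 1000000) / L ^ 2 := by
    apply div_le_div_of_nonneg_right _ (by positivity)
    linarith
  have h7 : (1 / 1000000) / L ^ 2 = 1 / (1000000 * L ^ 2) := by field_simp
  linarith

theorem zone_transfer {κ L q xm xp α β α0 θ C0 C1 C2 v : ℝ} (hL : 1000 ≤ L) (hκ : L ^ 4 ≤ κ)
    (hq1 : 1 ≤ |q|) (hqL : 2 * |q| * L ^ 3 ≤ κ) (hα : |α| ≤ α0) (hβ : |β| ≤ q ^ 2 * α0)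
    (hα0 : 10 ^ 8 * (L * α0) ≤ 1) (hqα : 10 ^ 5 * (|q| * α0) ≤ 1)
    (hθ : 400000 * L ^ 2 * θ ≤ 1) (hv1 : 1 / 200 ≤ v) (hv2 : v ≤ 2.99)
    (hJ : GoodJ κ L ((q + 2 * β * v) / (1 + 2 * α * v)) (xm + v + α * v ^ 2)
      (xp + q * v + β * v ^ 2) 0) {S : Set ℝ}
    (hS : ∀ u ∈ S, 0 ≤ u → u ≤ 3 → L / 4 ≤ |aF κ (xm + u + α * u ^ 2)| →
      |aF κ (xm + u + α * u ^ 2)| ≤ 5 * L → L / 4 ≤ |aF κ (xp + q * u + β * u ^ 2)| →
      |C0 + C1 * u + C2 * u ^ 2 + (1 / aF κ (xm + u + α * u ^ 2)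
        + 1 / q ^ 2 * (1 / aF κ (xp + q * u + β * u ^ 2)))| ≤ θ) :
    ∃ a b, 0 ≤ a ∧ b ≤ 3 ∧ (L / (2 * π * κ)) / 30 ≤ b - a ∧ Disjoint (Icc a b) S ∧
      ∀ u ∈ Icc a b, L / 4 ≤ |aF κ (xm + u + α * u ^ 2)| ∧
        |aF κ (xm + u + α * u ^ 2)| ≤ 5 * L ∧ L / 4 ≤ |aF κ (xp + q * u + β * u ^ 2)| := by
  obtain ⟨hκ0, hK6, hKd, hd9, hd0⟩ := sizes hL hκ
  have hL0 : 0 < L := by linarith
  have hK : 0 < 2 * π * κ := by positivity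
  have hα00 : 0 ≤ α0 := le_trans (abs_nonneg _) hα
  have hq0 : q ≠ 0 := by rintro rfl; norm_num at hq1
  have hqp : 0 < |q| := by linarith
  have hα11 : α0 ≤ 1 / 10 ^ 11 := by
    have h1 : 1000 * α0 ≤ L * α0 := by gcongr
    linarith
  have hv0 : 0 ≤ v := by linarith
  have hv3 : v ≤ 3 := by linarith
  obtain ⟨hαv, hA0, hA3⟩ := A_facts hα hv0 hv3 hα11
  obtain ⟨η, hη, hη1⟩ := eta_facts hα hβ hv0 hv3 hq1 hα11
  set d := L / (2 * π * κ) with hd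
  obtain ⟨A, hA⟩ : ∃ A, A = 1 + 2 * α * v := ⟨_, rfl⟩
  rw [← hA] at hA0 hA3 hη
  have hAp : 0 < A := by linarith
  obtain ⟨Q, hQ⟩ : ∃ Q, Q = (q + 2 * β * v) / A := ⟨_, rfl⟩
  rw [← hA, ← hQ] at hJ
  obtain ⟨z, hz⟩ : ∃ z, z = xm + v + α * v ^ 2 := ⟨_, rfl⟩
  obtain ⟨w, hw⟩ : ∃ w, w = xp + q * v + β * v ^ 2 := ⟨_, rfl⟩
  rw [← hz, ← hw] at hJ
  have hxm : ∀ s, xm + (v + s / A) + α * (v + s / A) ^ 2 = z + s + α * (s / A) ^ 2 := by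
    intro s
    rw [hz]
    have : s / A * A = s := by field_simp
    linear_combination this + (s / A) * (-hA)
  have hxp : ∀ s, xp + q * (v + s / A) + β * (v + s / A) ^ 2 = w + Q * s + β * (s / A) ^ 2 := by
    intro s
    rw [hw, hQ]
    field_simp
    ring
  have hQη : Q = q * (1 + η) := by rw [hQ, hη]
  have hη2 : |η| ≤ 1 / 100 := by linarith
  have hQ0 : Q ≠ 0 := by
    rw [hQη]
    have := abs_le.mp hη2
    have h2 : 0 < 1 + η := by linarith [this.1]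
    exact mul_ne_zero hq0 h2.ne'
  have hKs : ∀ s, |s| ≤ 2 * d → 2 * π * κ * (s / A) ^ 2 ≤ 4.05 * (L * d) :=
    fun s hs => (Ks_bound hL0 hK hKd hd0 hA0 hs).2
  have hε1 : ∀ s, |s| ≤ 2 * d →
      |aF κ (xm + (v + s / A) + α * (v + s / A) ^ 2) - aF κ (z + s)| ≤ 4.05 * (α0 * (L * d)) := by
    intro s hs
    refine (aF_lip hκ0 _ _).trans ?_
    rw [hxm s, add_sub_cancel_left, abs_mul, abs_of_nonneg (sq_nonneg (s / A))]
    have h1 := hKs s hs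
    calc 2 * π * κ * (|α| * (s / A) ^ 2) = |α| * (2 * π * κ * (s / A) ^ 2) := by ring
      _ ≤ α0 * (4.05 * (L * d)) := by
        apply mul_le_mul hα h1 (by positivity) hα00
      _ = _ := by ring
  have hε2 : ∀ s, |s| ≤ 2 * d →
      |aF κ (xp + q * (v + s / A) + β * (v + s / A) ^ 2) - aF κ (w + Q * s)|
        ≤ q ^ 2 * (4.05 * (α0 * (L * d))) := by
    intro s hs
    refine (aF_lip hκ0 _ _).trans ?_
    rw [hxp s, add_sub_cancel_left, abs_mul, abs_of_nonneg (sq_nonneg (s / A))]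
    have h1 := hKs s hs
    calc 2 * π * κ * (|β| * (s / A) ^ 2) = |β| * (2 * π * κ * (s / A) ^ 2) := by ring
      _ ≤ (q ^ 2 * α0) * (4.05 * (L * d)) := by
        apply mul_le_mul hβ h1 (by positivity) (by positivity)
      _ = _ := by ring
  have hsm1 : 4.05 * (α0 * (L * d)) ≤ 1 / 10 ^ 10 := small1 hα0 hd9 hd0
  have hqLd : |q| * (L * d) ≤ 1 := qLd (by linarith) (abs_nonneg _) hqL hκ0 hK6 hKd
  have hsm2 : q ^ 2 * (4.05 * (α0 * (L * d))) ≤ 1 / 10 ^ 4 :=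
    small2 hqα hqLd (by positivity)
  have hu : ∀ s, |s| ≤ 2 * d → 0 ≤ v + s / A ∧ v + s / A ≤ 3 := by
    intro s hs
    have h1 : |s / A| ≤ 1 / 200 := by
      have := (Ks_bound hL0 hK hKd hd0 hA0 hs).1
      linarith
    have h2 := abs_le.mp h1
    constructor
    · linarith [h2.1]
    · linarith [h2.2]
  have hθ' : 200000 * L ^ 2 * (θ + 1 / (1000000 * L ^ 2)) < 1 := by
    have h1 : 200000 * L ^ 2 * (θ + 1 / (1000000 * L ^ 2))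
        = (400000 * L ^ 2 * θ) / 2 + 1 / 5 := by field_simp; ring
    rw [h1]; linarith
  obtain ⟨a, b, ha, hb, hab, hdis, hbd⟩ := hole_interval (C0 := C0 + C1 * v + C2 * v ^ 2)
    (C1 := (C1 + 2 * C2 * v) / A) (C2 := C2 / A ^ 2) (θ := θ + 1 / (1000000 * L ^ 2))
    hL0 hκ0 hQ0 hJ hθ' (S := {s | v + s / A ∈ S}) (by
      intro s hs hs2 g1 g2 g3
      rw [sub_zero] at hs2
      obtain ⟨u0, u3⟩ := hu s hs2
      obtain ⟨k1, k2⟩ := inv_diff hL0 g1 (hε1 s hs2) (by linarith)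
      obtain ⟨k3, k4⟩ := inv_diff hL0 g3 (hε2 s hs2) (by linarith)
      have k5 : |aF κ (xm + (v + s / A) + α * (v + s / A) ^ 2)| ≤ 5 * L := by
        have := abs_sub_abs_le_abs_sub (aF κ (xm + (v + s / A) + α * (v + s / A) ^ 2))
          (aF κ (z + s))
        linarith [hε1 s hs2]
      have k6 := hS (v + s / A) hs u0 u3 k1 k5 k3
      have e1 : C0 + C1 * (v + s / A) + C2 * (v + s / A) ^ 2
          = C0 + C1 * v + C2 * v ^ 2 + (C1 + 2 * C2 * v) / A * s + C2 / A ^ 2 * s ^ 2 := by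
        field_simp; ring
      rw [e1] at k6
      have hy2 : |1 / aF κ (w + Q * s)| ≤ 2 / L := by
        rw [abs_div, abs_one, div_le_div_iff₀ (by linarith) hL0]
        linarith
      refine (four_tri (Q := 1 / Q ^ 2) k6 k2 (δ2 := 8 * (4.05 * (α0 * (L * d))) / L ^ 2)
        (δ3 := 53.3 * α0 / L) ?_ ?_).trans ?_
      · rw [abs_mul, abs_of_pos (by positivity : 0 < 1 / q ^ 2)]
        calc 1 / q ^ 2 * |1 / aF κ (xp + q * (v + s / A) + β * (v + s / A) ^ 2)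
              - 1 / aF κ (w + Q * s)|
            ≤ 1 / q ^ 2 * (8 * (q ^ 2 * (4.05 * (α0 * (L * d)))) / L ^ 2) := by gcongr
          _ = 8 * (4.05 * (α0 * (L * d))) / L ^ 2 := by field_simp
      · have h1 := weight_diff hη2 hq0
        rw [← hQη] at h1
        exact weight_final hq1 hL0 hα00 h1 hη1 hy2
      · exact sum_final hL0 hα0 hsm1)
  refine ⟨v + a / A, v + b / A, ?_, ?_, ?_, ?_, ?_⟩
  · exact (hu a (by rw [abs_le]; constructor <;> linarith)).1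
  · exact (hu b (by rw [abs_le]; constructor <;> linarith)).2
  · have : v + b / A - (v + a / A) = (b - a) / A := by ring
    rw [this, le_div_iff₀ hAp]
    have h9 : d / 30 * A ≤ d / 30 * 1.001 := by gcongr
    linarith
  · rw [Set.disjoint_left] at hdis ⊢
    intro u hu' huS
    have h1 : A * (u - v) ∈ Icc a b := by
      constructor
      · have := hu'.1
        have h2 : a / A ≤ u - v := by linarith
        rw [div_le_iff₀ hAp] at h2; linarith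
      · have := hu'.2
        have h2 : u - v ≤ b / A := by linarith
        rw [le_div_iff₀ hAp] at h2; linarith
    apply hdis h1
    show v + A * (u - v) / A ∈ S
    have h3 : v + A * (u - v) / A = u := by field_simp; ring
    rw [h3]; exact huS
  · intro u hu'
    have h1 : A * (u - v) ∈ Icc a b := by
      constructor
      · have := hu'.1
        have h2 : a / A ≤ u - v := by linarith
        rw [div_le_iff₀ hAp] at h2; linarith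
      · have := hu'.2
        have h2 : u - v ≤ b / A := by linarith
        rw [le_div_iff₀ hAp] at h2; linarith
    have h3 : v + A * (u - v) / A = u := by field_simp; ring
    have hs2 : |A * (u - v)| ≤ 2 * d := by
      rw [abs_le]; constructor
      · linarith [h1.1]
      · linarith [h1.2]
    obtain ⟨g1, g2, g3⟩ := hbd _ h1
    obtain ⟨k1, -⟩ := inv_diff hL0 g1 (hε1 _ hs2) (by linarith)
    obtain ⟨k3, -⟩ := inv_diff hL0 g3 (hε2 _ hs2) (by linarith)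
    have k5 : |aF κ (xm + (v + A * (u - v) / A) + α * (v + A * (u - v) / A) ^ 2)| ≤ 5 * L := by
      have := abs_sub_abs_le_abs_sub
        (aF κ (xm + (v + A * (u - v) / A) + α * (v + A * (u - v) / A) ^ 2))
        (aF κ (z + A * (u - v)))
      linarith [hε1 _ hs2]
    rw [h3] at k1 k3 k5
    exact ⟨k1, k5, k3⟩

/-- the quadratic fit -/
theorem fit {α β α0 q v v1 : ℝ} (hα : |α| ≤ α0) (hβ : |β| ≤ q ^ 2 * α0) (hq : |q| ≤ 1.05)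
    (hα11 : α0 ≤ 1 / 10 ^ 11) (h0 : 0 ≤ v) (h3 : v ≤ 3) (k0 : 0 ≤ v1) (k3 : v1 ≤ 3) :
    |β / (1 + 2 * α * v1) ^ 2 - (q + 2 * β * v1) * α / (1 + 2 * α * v1) ^ 3| ≤ 2.4 * α0 ∧
    |(q * v + β * v ^ 2) - ((q * v1 + β * v1 ^ 2)
      + (q + 2 * β * v1) / (1 + 2 * α * v1) * ((v + α * v ^ 2) - (v1 + α * v1 ^ 2))
      + (β / (1 + 2 * α * v1) ^ 2 - (q + 2 * β * v1) * α / (1 + 2 * α * v1) ^ 3)
        * ((v + α * v ^ 2) - (v1 + α * v1 ^ 2)) ^ 2)| ≤ 140 * α0 ^ 2 := by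
  have hα00 : 0 ≤ α0 := le_trans (abs_nonneg _) hα
  obtain ⟨a1, a2, a3⟩ := A_facts hα k0 k3 hα11
  obtain ⟨A, hA⟩ : ∃ A, A = 1 + 2 * α * v1 := ⟨_, rfl⟩
  rw [← hA] at a2 a3 ⊢
  have hAp : 0 < A := by linarith
  obtain ⟨Q, hQ⟩ : ∃ Q, Q = q + 2 * β * v1 := ⟨_, rfl⟩
  rw [← hQ]
  have hβ' : |β| ≤ 1.11 * α0 := by
    refine hβ.trans ?_
    have h1 : q ^ 2 ≤ 1.05 ^ 2 := by
      rw [← sq_abs]; exact pow_le_pow_left₀ (abs_nonneg _) hq 2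
    have h2 : (1.05:ℝ) ^ 2 ≤ 1.11 := by norm_num
    have h3 : q ^ 2 ≤ 1.11 := h1.trans h2
    gcongr
  have hQ1 : |Q| ≤ 1.06 := by
    rw [hQ]
    have h1 : |2 * β * v1| ≤ 6 * (1.11 * α0) := by
      rw [abs_mul, abs_mul, abs_of_nonneg k0, abs_of_pos (by norm_num : (0:ℝ) < 2)]
      calc 2 * |β| * v1 ≤ 2 * (1.11 * α0) * 3 := by gcongr
        _ = _ := by ring
    have h2 := abs_add_le q (2 * β * v1)
    linarith
  have hAsq : 0.99 ≤ A ^ 2 := by nlinarith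
  have hAcu : 0.99 ≤ A ^ 3 := by
    have h1 : (0.999:ℝ) ^ 3 ≤ A ^ 3 := pow_le_pow_left₀ (by norm_num) a2 3
    have h2 : (0.99:ℝ) ≤ 0.999 ^ 3 := by norm_num
    exact h2.trans h1
  have hc2 : |β / A ^ 2 - Q * α / A ^ 3| ≤ 2.4 * α0 := by
    have h1 : |β / A ^ 2| ≤ 1.2 * α0 := by
      rw [abs_div, abs_of_pos (by positivity : 0 < A ^ 2), div_le_iff₀ (by positivity)]
      have : 1.2 * α0 * 0.99 ≤ 1.2 * α0 * A ^ 2 := by gcongr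
      linarith
    have h2 : |Q * α / A ^ 3| ≤ 1.2 * α0 := by
      rw [abs_div, abs_of_pos (by positivity : 0 < A ^ 3), div_le_iff₀ (by positivity), abs_mul]
      have h3 : |Q| * |α| ≤ 1.06 * α0 := by gcongr
      have : 1.2 * α0 * 0.99 ≤ 1.2 * α0 * A ^ 3 := by gcongr
      linarith
    have h3 := abs_sub (β / A ^ 2) (Q * α / A ^ 3)
    linarith
  refine ⟨hc2, ?_⟩
  obtain ⟨x, hx⟩ : ∃ x, x = v - v1 := ⟨_, rfl⟩
  have hv : v = v1 + x := by rw [hx]; ring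
  have hx3 : |x| ≤ 3 := by rw [hx, abs_le]; constructor <;> linarith
  have ey : (v + α * v ^ 2) - (v1 + α * v1 ^ 2) = A * x + α * x ^ 2 := by rw [hA, hv]; ring
  have ew : (q * v + β * v ^ 2) = (q * v1 + β * v1 ^ 2) + (Q * x + β * x ^ 2) := by
    rw [hQ, hv]; ring
  rw [ey, ew]
  have eE : (q * v1 + β * v1 ^ 2) + (Q * x + β * x ^ 2) - ((q * v1 + β * v1 ^ 2)
      + Q / A * (A * x + α * x ^ 2) + (β / A ^ 2 - Q * α / A ^ 3) * (A * x + α * x ^ 2) ^ 2)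
      = -((β / A ^ 2 - Q * α / A ^ 3) * (2 * A * α * x ^ 3 + α ^ 2 * x ^ 4)) := by
    field_simp
    ring
  rw [eE, abs_neg, abs_mul]
  have h1 : |2 * A * α * x ^ 3| ≤ 55 * α0 := by
    rw [abs_mul, abs_mul, abs_mul, abs_of_pos hAp, abs_of_pos (by norm_num : (0:ℝ) < 2), abs_pow]
    have h2 : |x| ^ 3 ≤ 3 ^ 3 := pow_le_pow_left₀ (abs_nonneg _) hx3 3
    calc 2 * A * |α| * |x| ^ 3 ≤ 2 * 1.001 * α0 * 3 ^ 3 := by gcongr
      _ ≤ 55 * α0 := by norm_num; linarith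
  have h2 : |α ^ 2 * x ^ 4| ≤ α0 := by
    rw [abs_mul, abs_pow, abs_pow]
    have h3 : |x| ^ 4 ≤ 3 ^ 4 := pow_le_pow_left₀ (abs_nonneg _) hx3 4
    have h4 : |α| ^ 2 ≤ α0 ^ 2 := pow_le_pow_left₀ (abs_nonneg _) hα 2
    calc |α| ^ 2 * |x| ^ 4 ≤ α0 ^ 2 * 3 ^ 4 := by gcongr
      _ = (81 * α0) * α0 := by ring
      _ ≤ 1 * α0 := by gcongr; linarith
      _ = α0 := by ring
  have h3 := abs_add_le (2 * A * α * x ^ 3) (α ^ 2 * x ^ 4)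
  calc |β / A ^ 2 - Q * α / A ^ 3| * |2 * A * α * x ^ 3 + α ^ 2 * x ^ 4|
      ≤ (2.4 * α0) * (56 * α0) := by gcongr; linarith
    _ = 134.4 * α0 ^ 2 := by ring
    _ ≤ 140 * α0 ^ 2 := by gcongr; norm_num

/-- solving `xm + v + α v² = y` -/
theorem exists_v {xm α α0 y : ℝ} (hα : |α| ≤ α0) (hα11 : α0 ≤ 1 / 10 ^ 11)
    (h1 : xm + 0.01 ≤ y) (h2 : y ≤ xm + 2.7) :
    ∃ v, 1 / 200 ≤ v ∧ v ≤ 2.9 ∧ xm + v + α * v ^ 2 = y := by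
  have hc : ContinuousOn (fun v : ℝ => xm + v + α * v ^ 2) (Icc (1 / 200) 2.9) := by fun_prop
  have hα' := abs_le.mp (hα.trans hα11)
  have := intermediate_value_Icc (by norm_num : (1 / 200 : ℝ) ≤ 2.9) hc
  have hy : y ∈ Icc (xm + (1 / 200) + α * (1 / 200) ^ 2) (xm + 2.9 + α * 2.9 ^ 2) := by
    constructor
    · norm_num at h1 ⊢; linarith [hα'.1, hα'.2]
    · norm_num at h2 ⊢; linarith [hα'.1, hα'.2]
  obtain ⟨v, ⟨v1, v2⟩, hv⟩ := this hy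
  exact ⟨v, v1, v2, hv⟩

/-- the local speed ratios -/
theorem ratio_facts {κ L α β q α0 v : ℝ} (hα : |α| ≤ α0) (hβ : |β| ≤ q ^ 2 * α0)
    (h0 : 0 ≤ v) (h3 : v ≤ 3) (hq1 : 1 ≤ |q|) (hα11 : α0 ≤ 1 / 10 ^ 11)
    (hqα : 10 ^ 5 * (|q| * α0) ≤ 1) (hL : 0 < L) (hqL : 2 * |q| * L ^ 3 ≤ κ) :
    0.999 * |q| ≤ |(q + 2 * β * v) / (1 + 2 * α * v)| ∧
    |(q + 2 * β * v) / (1 + 2 * α * v)| * L ^ 3 ≤ κ ∧
    |(q + 2 * β * v) / (1 + 2 * α * v) - q| ≤ 0.001 * |q| := by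
  obtain ⟨η, hη, hη1⟩ := eta_facts hα hβ h0 h3 hq1 hα11
  rw [hη]
  have h1 : |η| ≤ 0.0009 := by linarith
  have h2 := abs_le.mp h1
  have h4 : |1 + η| = 1 + η := abs_of_pos (by linarith [h2.1])
  have hq0 : 0 ≤ |q| := abs_nonneg _
  have hL3 : 0 < L ^ 3 := by positivity
  refine ⟨?_, ?_, ?_⟩
  · rw [abs_mul, h4]
    calc 0.999 * |q| = |q| * 0.999 := by ring
      _ ≤ |q| * (1 + η) := by gcongr; linarith [h2.1]
  · rw [abs_mul, h4]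
    calc |q| * (1 + η) * L ^ 3 ≤ |q| * 2 * L ^ 3 := by gcongr; linarith [h2.2]
      _ = 2 * |q| * L ^ 3 := by ring
      _ ≤ κ := hqL
  · rw [show q * (1 + η) - q = q * η by ring, abs_mul]
    calc |q| * |η| ≤ |q| * 0.001 := by gcongr; linarith
      _ = 0.001 * |q| := by ring

/-- the fit in the form needed by `zone_select` -/
theorem fit' {κ α β α0 q v v1 xm xp : ℝ} (hα : |α| ≤ α0) (hβ : |β| ≤ q ^ 2 * α0)
    (hq : |q| ≤ 1.05) (hα11 : α0 ≤ 1 / 10 ^ 11) (k0 : 0 ≤ v1) (k3 : v1 ≤ 3) (hK0 : 0 ≤ 2 * π * κ)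
    (hKα : 2000 * (2 * π * κ * α0 ^ 2) ≤ 1) (h0 : 0 ≤ v) (h3 : v ≤ 3) :
    2 * π * κ * |(xp + q * v + β * v ^ 2)
        - ((xp + q * v1 + β * v1 ^ 2)
        + (q + 2 * β * v1) / (1 + 2 * α * v1) * ((xm + v + α * v ^ 2) - (xm + v1 + α * v1 ^ 2))
        + (β / (1 + 2 * α * v1) ^ 2 - (q + 2 * β * v1) * α / (1 + 2 * α * v1) ^ 3)
          * ((xm + v + α * v ^ 2) - (xm + v1 + α * v1 ^ 2)) ^ 2)| ≤ 0.1 := by
  obtain ⟨-, f⟩ := fit (v := v) (v1 := v1) hα hβ hq hα11 h0 h3 k0 k3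
  have e5 : (xp + q * v + β * v ^ 2)
    - ((xp + q * v1 + β * v1 ^ 2)
    + (q + 2 * β * v1) / (1 + 2 * α * v1) * ((xm + v + α * v ^ 2) - (xm + v1 + α * v1 ^ 2))
    + (β / (1 + 2 * α * v1) ^ 2 - (q + 2 * β * v1) * α / (1 + 2 * α * v1) ^ 3)
      * ((xm + v + α * v ^ 2) - (xm + v1 + α * v1 ^ 2)) ^ 2)
    = (q * v + β * v ^ 2) - ((q * v1 + β * v1 ^ 2)
  + (q + 2 * β * v1) / (1 + 2 * α * v1) * ((v + α * v ^ 2) - (v1 + α * v1 ^ 2))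
  + (β / (1 + 2 * α * v1) ^ 2 - (q + 2 * β * v1) * α / (1 + 2 * α * v1) ^ 3)
    * ((v + α * v ^ 2) - (v1 + α * v1 ^ 2)) ^ 2) := by
    have e6 : (xm + v + α * v ^ 2) - (xm + v1 + α * v1 ^ 2)
      = (v + α * v ^ 2) - (v1 + α * v1 ^ 2) := by ring
    rw [e6]; ring
  rw [e5]
  calc 2 * π * κ * _ ≤ 2 * π * κ * (140 * α0 ^ 2) := mul_le_mul_of_nonneg_left f hK0
    _ = 0.07 * (2000 * (2 * π * κ * α0 ^ 2)) := by ring
    _ ≤ 0.07 * 1 := by gcongr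
    _ ≤ 0.1 := by norm_num

theorem exists_good_one {κ L q xm xp α β α0 v1 v2 v3 v4 z1 z2 z3 z4 : ℝ} {n : ℤ}
    (hL : 1000 ≤ L) (hκ : L ^ 4 ≤ κ)
    (hq1 : 1 ≤ |q|) (hq : |q| < 1.05) (hqL : 2 * |q| * L ^ 3 ≤ κ) (hα : |α| ≤ α0)
    (hβ : |β| ≤ q ^ 2 * α0) (hα11 : α0 ≤ 1 / 10 ^ 11) (hqα : 10 ^ 5 * (|q| * α0) ≤ 1)
    (hKα : 2000 * (2 * π * κ * α0 ^ 2) ≤ 1)
    (hz1 : z1 = n + 1 * (1 / 4 + dl κ)) (hz2 : z2 = z1 + (1 / 2 - 2 * 1 * dl κ))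
    (hz3 : z3 = z1 + 1) (hz4 : z4 = z1 + (3 / 2 - 2 * 1 * dl κ))
    (a1 : 0 ≤ v1) (b1 : v1 ≤ 3) (e1 : xm + v1 + α * v1 ^ 2 = z1)
    (a2 : 0 ≤ v2) (b2 : v2 ≤ 3) (e2 : xm + v2 + α * v2 ^ 2 = z2)
    (a3 : 0 ≤ v3) (b3 : v3 ≤ 3) (e3 : xm + v3 + α * v3 ^ 2 = z3)
    (a4 : 0 ≤ v4) (b4 : v4 ≤ 3) (e4 : xm + v4 + α * v4 ^ 2 = z4) :
    GoodJ κ L ((q + 2 * β * v1) / (1 + 2 * α * v1)) z1 (xp + q * v1 + β * v1 ^ 2) 0 ∨
    GoodJ κ L ((q + 2 * β * v2) / (1 + 2 * α * v2)) z2 (xp + q * v2 + β * v2 ^ 2) 0 ∨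
    GoodJ κ L ((q + 2 * β * v3) / (1 + 2 * α * v3)) z3 (xp + q * v3 + β * v3 ^ 2) 0 ∨
    GoodJ κ L ((q + 2 * β * v4) / (1 + 2 * α * v4)) z4 (xp + q * v4 + β * v4 ^ 2) 0 := by
  have hL0 : 0 < L := by linarith
  have hK0 : 0 ≤ 2 * π * κ := by
    have : 0 < κ := lt_of_lt_of_le (by positivity) hκ
    positivity
  have hα00 : 0 ≤ α0 := le_trans (abs_nonneg _) hα
  have hsmall : 2.4 * α0 ≤ 1 / 1000 := by linarith
  have hq98 : 0.98 ≤ 0.999 * |q| := by linarith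
  have hq5 : 0.001 * |q| ≤ 0.002 := by linarith
  have hdiff : ∀ x y : ℝ, |x - q| ≤ 0.001 * |q| → |y - q| ≤ 0.001 * |q| → |x - y| ≤ 0.01 := by
    intro x y hx hy
    have h1 := abs_sub_le x q y
    rw [abs_sub_comm q y] at h1
    linarith
  obtain ⟨r1, s1, t1⟩ := ratio_facts hα hβ a1 b1 hq1 hα11 hqα hL0 hqL
  obtain ⟨r2, s2, t2⟩ := ratio_facts hα hβ a2 b2 hq1 hα11 hqα hL0 hqL
  obtain ⟨r3, s3, t3⟩ := ratio_facts hα hβ a3 b3 hq1 hα11 hqα hL0 hqL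
  obtain ⟨r4, s4, t4⟩ := ratio_facts hα hβ a4 b4 hq1 hα11 hqα hL0 hqL
  have c2b := (fit (v := v1) (v1 := v1) hα hβ hq.le hα11 a1 b1 a1 b1).1
  have hfit := fun v => fit' (xm := xm) (xp := xp) (v := v) (v1 := v1) hα hβ hq.le hα11
      a1 b1 hK0 hKα
  have f1 := hfit v1 a1 b1
  have f2 := hfit v2 a2 b2
  have f3 := hfit v3 a3 b3
  have f4 := hfit v4 a4 b4
  rw [e1] at f1 f2 f3 f4
  rw [e2] at f2
  rw [e3] at f3
  rw [e4] at f4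
  exact zone_select hL hκ n (σ := 1) (Or.inl rfl) hz1 hz2 hz3 hz4 (c2b.trans hsmall)
      f1 f2 f3 f4 (hq98.trans r1) (hq98.trans r2) (hq98.trans r3) (hq98.trans r4) s1 s2 s3 s4
      (hdiff _ _ t1 t1) (hdiff _ _ t2 t1) (hdiff _ _ t3 t1) (hdiff _ _ t4 t1)

/-- existence of a good zone for quadratic digits -/
theorem exists_good {κ L q xm xp α β α0 : ℝ} (hL : 1000 ≤ L) (hκ : L ^ 4 ≤ κ)
    (hq1 : 1 ≤ |q|) (hqL : 2 * |q| * L ^ 3 ≤ κ) (hα : |α| ≤ α0) (hβ : |β| ≤ q ^ 2 * α0)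
    (hα11 : α0 ≤ 1 / 10 ^ 11) (hqα : 10 ^ 5 * (|q| * α0) ≤ 1)
    (hKα : 2000 * (2 * π * κ * α0 ^ 2) ≤ 1) :
    ∃ v, 1 / 200 ≤ v ∧ v ≤ 2.99 ∧
      GoodJ κ L ((q + 2 * β * v) / (1 + 2 * α * v)) (xm + v + α * v ^ 2)
        (xp + q * v + β * v ^ 2) 0 := by
  obtain ⟨hκ0, hK6, hKd, hd9, hd0⟩ := sizes hL hκ
  have hL0 : 0 < L := by linarith
  have hα00 : 0 ≤ α0 := le_trans (abs_nonneg _) hα
  have hκ1 : 10000 ≤ κ := by
    have : (1000:ℝ) ^ 4 ≤ L ^ 4 := pow_le_pow_left₀ (by norm_num) hL 4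
    linarith
  obtain ⟨hδ0, hδ1⟩ := dl_small hκ1
  obtain ⟨n, hn⟩ : ∃ n : ℤ, n = ⌈xm + 0.01 - (1 / 4 + dl κ)⌉ := ⟨_, rfl⟩
  have hn1 : xm + 0.01 - (1 / 4 + dl κ) ≤ n := by rw [hn]; exact Int.le_ceil _
  have hn2 : (n : ℝ) < xm + 0.01 - (1 / 4 + dl κ) + 1 := by rw [hn]; exact Int.ceil_lt_add_one _
  obtain ⟨z1, hz1⟩ : ∃ z1 : ℝ, z1 = n + 1 * (1 / 4 + dl κ) := ⟨_, rfl⟩
  obtain ⟨z2, hz2⟩ : ∃ z2 : ℝ, z2 = z1 + (1 / 2 - 2 * 1 * dl κ) := ⟨_, rfl⟩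
  obtain ⟨z3, hz3⟩ : ∃ z3 : ℝ, z3 = z1 + 1 := ⟨_, rfl⟩
  obtain ⟨z4, hz4⟩ : ∃ z4 : ℝ, z4 = z1 + (3 / 2 - 2 * 1 * dl κ) := ⟨_, rfl⟩
  obtain ⟨v1, a1, b1, e1⟩ := exists_v (xm := xm) (y := z1) hα hα11 (by linarith) (by linarith)
  obtain ⟨v2, a2, b2, e2⟩ := exists_v (xm := xm) (y := z2) hα hα11 (by linarith) (by linarith)
  obtain ⟨v3, a3, b3, e3⟩ := exists_v (xm := xm) (y := z3) hα hα11 (by linarith) (by linarith)
  obtain ⟨v4, a4, b4, e4⟩ := exists_v (xm := xm) (y := z4) hα hα11 (by linarith) (by linarith)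
  obtain ⟨r1, s1, t1⟩ := ratio_facts hα hβ (v := v1) (by linarith) (by linarith) hq1 hα11 hqα hL0
    hqL
  by_cases hq : 1.05 ≤ |q|
  · refine ⟨v1, a1, by linarith, ?_⟩
    rw [e1]
    rcases hole_local hL hκ (q := (q + 2 * β * v1) / (1 + 2 * α * v1)) (xm := z1)
      (xp := xp + q * v1 + β * v1 ^ 2) (by linarith) s1 n (σ := 1) (Or.inl rfl) 0
      (by rw [hz1]; ring) with g | ⟨g, -⟩
    · exact g
    · exfalso
      have : 0.999 * 1.05 ≤ 0.999 * |q| := by gcongr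
      linarith
  · push Not at hq
    have p1 : 0 ≤ v1 := by linarith
    have p2 : 0 ≤ v2 := by linarith
    have p3 : 0 ≤ v3 := by linarith
    have p4 : 0 ≤ v4 := by linarith
    have m1 : v1 ≤ 3 := by linarith
    have m2 : v2 ≤ 3 := by linarith
    have m3 : v3 ≤ 3 := by linarith
    have m4 : v4 ≤ 3 := by linarith
    rcases exists_good_one (xp := xp) hL hκ hq1 hq hqL hα hβ hα11 hqα hKα hz1 hz2 hz3 hz4
      p1 m1 e1 p2 m2 e2 p3 m3 e3 p4 m4 e4 with g | g | g | g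
    · exact ⟨v1, a1, by linarith, by rw [e1]; exact g⟩
    · exact ⟨v2, a2, by linarith, by rw [e2]; exact g⟩
    · exact ⟨v3, a3, by linarith, by rw [e3]; exact g⟩
    · exact ⟨v4, a4, by linarith, by rw [e4]; exact g⟩

/-- **HOLE LEMMA, quadratic digits.**  `κ = 2πk`, `a = aF κ`, `K = 2πκ`; the two digits are
`xm + s u + α u²` and `xp + q u + β u²`, `s = ±1`, `1 ≤ |q|`.  If on `S` (in the cell `[0,3]`, where
the digits are at distance `~ L/K` from the critical points) a quadratic polynomial plus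
`1/a₋ + q⁻²/a₊` is `≤ θ ≤ 1/(400000 L²)`, then `S` misses an interval of length `≥ (L/K)/30`. -/
theorem hole_quad {κ L q xm xp α β α0 θ C0 C1 C2 s : ℝ} (hL : 1000 ≤ L) (hκ : L ^ 4 ≤ κ)
    (hs : s = 1 ∨ s = -1) (hq1 : 1 ≤ |q|) (hqL : 2 * |q| * L ^ 3 ≤ κ) (hα : |α| ≤ α0)
    (hβ : |β| ≤ q ^ 2 * α0)
    (hα0 : 10 ^ 8 * (L * α0) ≤ 1) (hqα : 10 ^ 5 * (|q| * α0) ≤ 1)
    (hKα : 2000 * (2 * π * κ * α0 ^ 2) ≤ 1) (hθ : 400000 * L ^ 2 * θ ≤ 1) {S : Set ℝ}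
    (hS : ∀ u ∈ S, 0 ≤ u → u ≤ 3 → L / 4 ≤ |aF κ (xm + s * u + α * u ^ 2)| →
      |aF κ (xm + s * u + α * u ^ 2)| ≤ 5 * L → L / 4 ≤ |aF κ (xp + q * u + β * u ^ 2)| →
      |C0 + C1 * u + C2 * u ^ 2 + (1 / aF κ (xm + s * u + α * u ^ 2)
        + 1 / q ^ 2 * (1 / aF κ (xp + q * u + β * u ^ 2)))| ≤ θ) :
    ∃ a b, 0 ≤ a ∧ b ≤ 3 ∧ (L / (2 * π * κ)) / 30 ≤ b - a ∧ Disjoint (Icc a b) S ∧
      ∀ u ∈ Icc a b, L / 4 ≤ |aF κ (xm + s * u + α * u ^ 2)| ∧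
        |aF κ (xm + s * u + α * u ^ 2)| ≤ 5 * L ∧ L / 4 ≤ |aF κ (xp + q * u + β * u ^ 2)| := by
  have hα00 : 0 ≤ α0 := le_trans (abs_nonneg _) hα
  have hα11 : α0 ≤ 1 / 10 ^ 11 := by
    have h1 : 1000 * α0 ≤ L * α0 := by gcongr
    linarith
  rcases hs with rfl | rfl
  · obtain ⟨v, hv1, hv2, hJ⟩ := exists_good (xm := xm) (xp := xp) hL hκ hq1 hqL hα hβ hα11 hqα hKα
    simp only [one_mul] at hS ⊢
    exact zone_transfer hL hκ hq1 hqL hα hβ hα0 hqα hθ hv1 hv2 hJ hS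
  · have hα' : |-α| ≤ α0 := by rwa [abs_neg]
    obtain ⟨v, hv1, hv2, hJ⟩ := exists_good (xm := -xm) (xp := xp) hL hκ hq1 hqL hα' hβ hα11 hqα
      hKα
    have e : ∀ u, aF κ (xm + -1 * u + α * u ^ 2) = aF κ (-xm + u + -α * u ^ 2) := by
      intro u
      rw [← aF_neg]
      congr 1; ring
    simp only [e] at hS ⊢
    exact zone_transfer hL hκ hq1 hqL hα' hβ hα0 hqα hθ hv1 hv2 hJ hS

end Vale.Agent.P108.H850
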