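import Vale.Agent.P108.Sk.Final
import Vale.Agent.P108.H850.ZoneAt
import Vale.Agent.P108.H462.GrowFinal

/-!
# P108: symmetry `k ↦ -k` and the final statement
-/

open MeasureTheory Filter Set Topology

namespace Vale.Agent.P108.H850
open Vale.Agent.P108 Vale.Agent.P108.Dyn Vale.Agent.P108.H786 P108C

/-- the translation by a half period -/
noncomputable def tau (z : ℝ × ℝ) : ℝ × ℝ := (z.1 + 1 / 2, z.2)

theorem F_tau (k : ℝ) (z : ℝ × ℝ) : F k (tau z) = tau (F (-k) z) := by
  unfold F tau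
  have h : Real.sin (2 * Real.pi * (z.1 + 1 / 2)) = - Real.sin (2 * Real.pi * z.1) := by
    rw [show 2 * Real.pi * (z.1 + 1 / 2) = 2 * Real.pi * z.1 + Real.pi by ring, Real.sin_add_pi]
  simp only [h]
  ext <;> simp <;> ring

theorem iter_tau (k : ℝ) (n : ℕ) (z : ℝ × ℝ) : (F k)^[n] (tau z) = tau ((F (-k))^[n] z) := by
  induction n with
  | zero => rfl
  | succ n ih => rw [Function.iterate_succ_apply', Function.iterate_succ_apply', ih, F_tau]

theorem fderiv_tau (k : ℝ) (n : ℕ) (z : ℝ × ℝ) :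
    fderiv ℝ (F (-k))^[n] z = fderiv ℝ (F k)^[n] (tau z) := by
  have e : (F (-k))^[n] = fun w => (F k)^[n] (w + (1 / 2, 0)) - (1 / 2, 0) := by
    funext w
    have h1 : tau w = w + (1 / 2, 0) := by unfold tau; ext <;> simp
    have h2 : tau ((F (-k))^[n] w) = (F (-k))^[n] w + (1 / 2, 0) := by unfold tau; ext <;> simp
    rw [← h1, iter_tau, h2, add_sub_cancel_right]
  have h3 : tau z = z + (1 / 2, 0) := by unfold tau; ext <;> simp
  rw [e, h3, fderiv_sub_const, fderiv_comp_add_right]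

theorem lyap_neg (k : ℝ) (z : ℝ × ℝ) : lyap (-k) z = lyap k (tau z) := by
  unfold lyap
  simp only [fderiv_tau]

/-- integer translations -/
theorem iter_add_one (k : ℝ) (n : ℕ) (z : ℝ × ℝ) :
    (F k)^[n] (z + (1, 0)) = (F k)^[n] z + (1, 0) := by
  induction n with
  | zero => rfl
  | succ n ih =>
    rw [Function.iterate_succ_apply', Function.iterate_succ_apply', ih]
    generalize (F k)^[n] z = w
    unfold F
    have h : Real.sin (2 * Real.pi * (w.1 + 1)) = Real.sin (2 * Real.pi * w.1) := by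
      rw [mul_add, mul_one, Real.sin_add_two_pi]
    ext
    · simp [h]; ring
    · simp [h]

theorem lyap_add_one (k x y : ℝ) : lyap k (x + 1, y) = lyap k (x, y) := by
  unfold lyap
  have key : ∀ n : ℕ, fderiv ℝ (F k)^[n] (x + 1, y) = fderiv ℝ (F k)^[n] (x, y) := by
    intro n
    have e : (F k)^[n] = fun w => (F k)^[n] (w + (1, 0)) - (1, 0) := by
      funext w
      rw [iter_add_one, add_sub_cancel_right]
    have h3 : ((x + 1, y) : ℝ × ℝ) = (x, y) + (1, 0) := by ext <;> simp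
    conv_rhs => rw [e]
    rw [fderiv_sub_const, fderiv_comp_add_right, h3]
  simp only [key]

theorem ent_neg (k : ℝ) : ent (-k) = ent k := by
  unfold ent Q
  rw [Measure.volume_eq_prod]
  have hi : ∀ κ : ℝ, Integrable (fun z : ℝ × ℝ => lyap κ z)
      ((volume.restrict (Ico (0:ℝ) 1)).prod (volume.restrict (Ico (0:ℝ) 1))) := by
    intro κ
    have := integrable_lyap κ
    rwa [mQ_eq] at this
  rw [← Measure.prod_restrict, integral_prod_symm _ (hi (-k)), integral_prod_symm _ (hi k)]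
  congr 1
  funext y
  have h1 : ∀ x, lyap (-k) (x, y) = lyap k (x + 1 / 2, y) := fun x => lyap_neg k (x, y)
  simp only [h1]
  have hper : Function.Periodic (fun x => lyap k (x, y)) 1 := fun x => lyap_add_one k x y
  have e1 : ∀ f : ℝ → ℝ, ∫ x in Ico (0:ℝ) 1, f x = ∫ x in (0:ℝ)..1, f x := by
    intro f
    rw [intervalIntegral.integral_of_le zero_le_one, integral_Ico_eq_integral_Ioc]
  rw [e1, e1, intervalIntegral.integral_comp_add_right (fun x => lyap k (x, y)) (1 / 2)]
  have := hper.intervalIntegral_add_eq (0 + 1 / 2) 0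
  rw [show (1:ℝ) + 1 / 2 = 0 + 1 / 2 + 1 by ring, this, zero_add]

/-- **Final theorem.** -/
theorem main_all : ∃ k₀ : ℝ, 0 < k₀ ∧ ∀ k : ℝ, k₀ ≤ |k| →
    99 / 100 * Real.log |k| ≤ ent k ∧ 0 < ent k ∧ 0 < volume {z | z ∈ Q ∧ 0 < lyap k z} := by
  obtain ⟨k0, h⟩ := Sk.main_of zone_eventually H462.detCone H462.decor
  refine ⟨max k0 1, lt_of_lt_of_le one_pos (le_max_right _ _), fun k hk => ?_⟩
  have h1 : ent |k| = ent k := by
    rcases abs_choice k with h2 | h2
    · rw [h2]
    · rw [h2, ent_neg]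
  obtain ⟨g1, g2, -⟩ := h |k| ((le_max_left _ _).trans hk)
  rw [h1] at g1 g2
  exact ⟨g1, g2, (ent_pos_iff k).mp g2⟩

theorem measure_pos : 0 < volume {k : ℝ | 0 < ent k} := by
  obtain ⟨k₀, h0, h⟩ := main_all
  have hsub : Ici k₀ ⊆ {k : ℝ | 0 < ent k} := by
    intro k hk
    exact (h k (le_trans hk (le_abs_self k))).2.1
  refine lt_of_lt_of_le ?_ (measure_mono hsub)
  rw [Real.volume_Ici]
  exact ENNReal.zero_lt_top

end Vale.Agent.P108.H850
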