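import Mathlib.Analysis.SpecialFunctions.Trigonometric.Deriv
import Mathlib.Analysis.SpecialFunctions.Trigonometric.Bounds
import Mathlib.Analysis.SpecialFunctions.Trigonometric.Inverse
import Mathlib.Analysis.Real.Pi.Bounds
import Mathlib.Analysis.Calculus.Deriv.Inv
import Mathlib.Analysis.Calculus.MeanValue
import Mathlib.Tactic

/-! The function `a(x) = 2 + κ cos 2πx` and the third derivative of `1/a`. -/

namespace Vale.Agent.P108.H850

open Real Set

/-- `a(x) = 2 + κ cos(2πx)`; the derivative of `2x + k sin 2πx` when `κ = 2πk`. -/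
noncomputable def aF (κ x : ℝ) : ℝ := 2 + κ * Real.cos (2 * π * x)

/-- third derivative of `1/a` -/
noncomputable def gF (κ x : ℝ) : ℝ :=
  8 * π ^ 3 * κ * Real.sin (2 * π * x) * (6 * κ ^ 2 - 24 + 12 * aF κ x - aF κ x ^ 2)
    / aF κ x ^ 4

theorem hasDerivAt_cosq (x q t : ℝ) :
    HasDerivAt (fun t => Real.cos (2 * π * (x + q * t)))
      (-(2 * π * q) * Real.sin (2 * π * (x + q * t))) t := by
  have h1 : HasDerivAt (fun t : ℝ => 2 * π * (x + q * t)) (2 * π * (q * 1)) t :=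
    (((hasDerivAt_id' t).const_mul q).const_add x).const_mul (2 * π)
  refine (h1.cos).congr_deriv ?_
  ring

theorem hasDerivAt_sinq (x q t : ℝ) :
    HasDerivAt (fun t => Real.sin (2 * π * (x + q * t)))
      ((2 * π * q) * Real.cos (2 * π * (x + q * t))) t := by
  have h1 : HasDerivAt (fun t : ℝ => 2 * π * (x + q * t)) (2 * π * (q * 1)) t :=
    (((hasDerivAt_id' t).const_mul q).const_add x).const_mul (2 * π)
  refine (h1.sin).congr_deriv ?_
  ring

theorem hasDerivAt_aq (κ x q t : ℝ) :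
    HasDerivAt (fun t => aF κ (x + q * t))
      (-(2 * π * q * κ) * Real.sin (2 * π * (x + q * t))) t := by
  unfold aF
  refine (((hasDerivAt_cosq x q t).const_mul κ).const_add 2).congr_deriv ?_
  ring

/-- first derivative of `1/a(x+qt)` -/
noncomputable def i1 (κ x q t : ℝ) : ℝ :=
  q * (2 * π * κ * Real.sin (2 * π * (x + q * t))) / aF κ (x + q * t) ^ 2

/-- second derivative of `1/a(x+qt)` -/
noncomputable def i2 (κ x q t : ℝ) : ℝ :=
  q ^ 2 * (4 * π ^ 2 * κ * Real.cos (2 * π * (x + q * t)) / aF κ (x + q * t) ^ 2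
    + 8 * π ^ 2 * κ ^ 2 * Real.sin (2 * π * (x + q * t)) ^ 2 / aF κ (x + q * t) ^ 3)

theorem hasDerivAt_i0 {κ x q t : ℝ} (h : aF κ (x + q * t) ≠ 0) :
    HasDerivAt (fun t => 1 / aF κ (x + q * t)) (i1 κ x q t) t := by
  have h1 := (hasDerivAt_aq κ x q t).inv h
  have e : (fun t => 1 / aF κ (x + q * t)) = (fun t => (aF κ (x + q * t))⁻¹) := by
    funext t; rw [one_div]
  rw [e]
  refine h1.congr_deriv ?_
  unfold i1
  ring

theorem hasDerivAt_i1 {κ x q t : ℝ} (h : aF κ (x + q * t) ≠ 0) :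
    HasDerivAt (fun t => i1 κ x q t) (i2 κ x q t) t := by
  have ha := hasDerivAt_aq κ x q t
  have hs := hasDerivAt_sinq x q t
  have h2 : HasDerivAt (fun t => aF κ (x + q * t) ^ 2) _ t := ha.fun_pow 2
  have h3 := ((hs.const_mul (2 * π * κ)).const_mul q).div h2 (pow_ne_zero 2 h)
  refine h3.congr_deriv ?_
  unfold i2
  field_simp
  push_cast
  ring

theorem hasDerivAt_i2 {κ x q t : ℝ} (h : aF κ (x + q * t) ≠ 0) :
    HasDerivAt (fun t => i2 κ x q t) (q ^ 3 * gF κ (x + q * t)) t := by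
  have ha := hasDerivAt_aq κ x q t
  have hs := hasDerivAt_sinq x q t
  have hc := hasDerivAt_cosq x q t
  have h2 : HasDerivAt (fun t => aF κ (x + q * t) ^ 2) _ t := ha.fun_pow 2
  have h3 : HasDerivAt (fun t => aF κ (x + q * t) ^ 3) _ t := ha.fun_pow 3
  have hs2 : HasDerivAt (fun t => Real.sin (2 * π * (x + q * t)) ^ 2) _ t := hs.fun_pow 2
  have h4 := ((((hc.const_mul (4 * π ^ 2 * κ)).div h2 (pow_ne_zero 2 h)).add
    ((hs2.const_mul (8 * π ^ 2 * κ ^ 2)).div h3 (pow_ne_zero 3 h))).const_mul (q ^ 2))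
  refine h4.congr_deriv ?_
  unfold gF
  have e : κ * Real.cos (2 * π * (x + q * t)) = aF κ (x + q * t) - 2 := by unfold aF; ring
  have e2 : κ ^ 2 * Real.sin (2 * π * (x + q * t)) ^ 2
      = κ ^ 2 - (aF κ (x + q * t) - 2) ^ 2 := by
    rw [← e, Real.sin_sq]; ring
  set S := Real.sin (2 * π * (x + q * t)) with hS
  set C := Real.cos (2 * π * (x + q * t)) with hC
  set A := aF κ (x + q * t) with hA
  have e3 : q ^ 3 * (8 * π ^ 3 * κ * S * (6 * κ ^ 2 - 24 + 12 * A - A ^ 2) / A ^ 4)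
      = q ^ 3 * (8 * π ^ 3 * κ * S * (-A ^ 2 + 6 * (κ * C) * A + 6 * (κ ^ 2 * S ^ 2)) / A ^ 4) := by
    rw [e, e2]; ring
  rw [e3]
  field_simp
  push_cast
  ring

/-- every real is `n + σ(1/4 + y)` -/
theorem exists_param (x : ℝ) : ∃ (n : ℤ) (σ y : ℝ), (σ = 1 ∨ σ = -1) ∧ |y| ≤ 1 / 4 ∧
    x = n + σ * (1 / 4 + y) := by
  have h := abs_sub_round x
  rw [abs_le] at h
  rcases le_total 0 (x - round x) with h0 | h0
  · refine ⟨round x, 1, x - round x - 1 / 4, Or.inl rfl, ?_, by ring⟩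
    rw [abs_le]; constructor <;> linarith [h.2]
  · refine ⟨round x, -1, -(x - round x) - 1 / 4, Or.inr rfl, ?_, by ring⟩
    rw [abs_le]; constructor <;> linarith [h.1]

theorem cos_param (n : ℤ) {σ : ℝ} (hσ : σ = 1 ∨ σ = -1) (y : ℝ) :
    Real.cos (2 * π * (n + σ * (1 / 4 + y))) = - Real.sin (2 * π * y) := by
  have e : 2 * π * (n + σ * (1 / 4 + y)) = 2 * π * (σ * (1 / 4 + y)) + n * (2 * π) := by ring
  rw [e, Real.cos_add_int_mul_two_pi]
  rcases hσ with rfl | rfl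
  · rw [show 2 * π * (1 * (1 / 4 + y)) = 2 * π * y + π / 2 by ring, Real.cos_add_pi_div_two]
  · rw [show 2 * π * (-1 * (1 / 4 + y)) = -(2 * π * y + π / 2) by ring, Real.cos_neg,
      Real.cos_add_pi_div_two]

theorem sin_param (n : ℤ) {σ : ℝ} (hσ : σ = 1 ∨ σ = -1) (y : ℝ) :
    Real.sin (2 * π * (n + σ * (1 / 4 + y))) = σ * Real.cos (2 * π * y) := by
  have e : 2 * π * (n + σ * (1 / 4 + y)) = 2 * π * (σ * (1 / 4 + y)) + n * (2 * π) := by ring
  rw [e, Real.sin_add_int_mul_two_pi]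
  rcases hσ with rfl | rfl
  · rw [show 2 * π * (1 * (1 / 4 + y)) = 2 * π * y + π / 2 by ring, Real.sin_add_pi_div_two]; ring
  · rw [show 2 * π * (-1 * (1 / 4 + y)) = -(2 * π * y + π / 2) by ring, Real.sin_neg,
      Real.sin_add_pi_div_two]; ring

/-- zeros of `a` are `n + σ(1/4 + δ)` -/
noncomputable def dl (κ : ℝ) : ℝ := Real.arcsin (2 / κ) / (2 * π)

theorem sin_dl {κ : ℝ} (hκ : 2 ≤ κ) : Real.sin (2 * π * dl κ) = 2 / κ := by
  unfold dl
  rw [show 2 * π * (Real.arcsin (2 / κ) / (2 * π)) = Real.arcsin (2 / κ) by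
    field_simp]
  apply Real.sin_arcsin
  · have : 0 < 2 / κ := by positivity
    linarith
  · rw [div_le_one (by linarith)]; exact hκ

theorem aF_param {κ : ℝ} (hκ : 2 ≤ κ) (n : ℤ) {σ : ℝ} (hσ : σ = 1 ∨ σ = -1) (y : ℝ) :
    aF κ (n + σ * (1 / 4 + y)) = κ * (Real.sin (2 * π * dl κ) - Real.sin (2 * π * y)) := by
  unfold aF
  rw [cos_param n hσ, sin_dl hκ]
  field_simp
  ring

/-- bounds for `dl` -/
theorem dl_bounds {κ : ℝ} (hκ : 100 ≤ κ) : 2 / κ ≤ 2 * π * dl κ ∧ 2 * π * dl κ ≤ 4 / κ := by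
  have e : 2 * π * dl κ = Real.arcsin (2 / κ) := by unfold dl; field_simp
  rw [e]
  have h0 : 0 < 2 / κ := by positivity
  have h1 : 2 / κ ≤ 1 := by rw [div_le_one (by linarith)]; linarith
  constructor
  · have := Real.sin_le (Real.arcsin_nonneg.2 h0.le)
    rwa [Real.sin_arcsin (by linarith) h1] at this
  · have h2 := Real.mul_le_sin (Real.arcsin_nonneg.2 h0.le) (Real.arcsin_le_pi_div_two (2 / κ))
    rw [Real.sin_arcsin (by linarith) h1] at h2
    have h3 : 0 ≤ Real.arcsin (2 / κ) := Real.arcsin_nonneg.2 h0.le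
    have h4 : (1:ℝ) / 2 ≤ 2 / π := by
      rw [div_le_div_iff₀ (by norm_num) Real.pi_pos]
      linarith [Real.pi_lt_four]
    have h5 : 1 / 2 * Real.arcsin (2 / κ) ≤ 2 / κ := (mul_le_mul_of_nonneg_right h4 h3).trans h2
    have h6 : 4 / κ = 2 * (2 / κ) := by ring
    rw [h6]; linarith

/-- global bound for `g` -/
theorem abs_gF_le {κ x : ℝ} (hκ : 1000 ≤ κ) (h : aF κ x ≠ 0) :
    |gF κ x| ≤ 6.5 * (2 * π * κ) ^ 3 / aF κ x ^ 4 := by
  unfold gF
  have ha : 0 < aF κ x ^ 4 := by positivity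
  rw [abs_div, abs_of_pos ha]
  apply div_le_div_of_nonneg_right _ ha.le
  have hc := Real.abs_cos_le_one (2 * π * x)
  have hs := Real.abs_sin_le_one (2 * π * x)
  have ha2 : |aF κ x| ≤ κ + 2 := by
    unfold aF
    calc |2 + κ * Real.cos (2 * π * x)| ≤ |(2:ℝ)| + |κ * Real.cos (2 * π * x)| := abs_add_le _ _
      _ ≤ 2 + κ * 1 := by
          rw [abs_mul, abs_of_pos (by linarith : (0:ℝ) < κ), abs_of_pos (by norm_num : (0:ℝ) < 2)]
          gcongr
      _ = κ + 2 := by ring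
  have h3 : |6 * κ ^ 2 - 24 + 12 * aF κ x - aF κ x ^ 2| ≤ 6.5 * κ ^ 2 := by
    rw [abs_le] at ha2 ⊢
    constructor <;> nlinarith [ha2.1, ha2.2, sq_nonneg (aF κ x)]
  rw [abs_mul, abs_mul, abs_of_pos (by positivity : 0 < 8 * π ^ 3 * κ)]
  calc 8 * π ^ 3 * κ * |Real.sin (2 * π * x)| * |6 * κ ^ 2 - 24 + 12 * aF κ x - aF κ x ^ 2|
      ≤ 8 * π ^ 3 * κ * 1 * (6.5 * κ ^ 2) := by gcongr
    _ = 6.5 * (2 * π * κ) ^ 3 := by ring

end Vale.Agent.P108.H850
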