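import Vale.Agent.P108.H850.Near

/-! Lower bounds for `R''' = g(x₋+t) + q g(x₊+qt)` in one critical zone. -/

namespace Vale.Agent.P108.H850

open Real Set

/-- `J = [A,B]` is a good interval in the zone around `T`. -/
def GoodJ (κ L q xm xp T : ℝ) : Prop :=
  ∃ A B : ℝ, T - 2 * (L / (2 * π * κ)) ≤ A ∧ B ≤ T + 2 * (L / (2 * π * κ)) ∧
    (L / (2 * π * κ)) / 4 ≤ B - A ∧
    ∀ t ∈ Icc A B, L / 2 ≤ |aF κ (xm + t)| ∧ |aF κ (xm + t)| ≤ 4 * L ∧
      L / 2 ≤ |aF κ (xp + q * t)| ∧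
      (2 * π * κ) ^ 3 / L ^ 5 ≤ |gF κ (xm + t) + q * gF κ (xp + q * t)|

theorem aF_lip {κ : ℝ} (hκ : 0 < κ) (x y : ℝ) : |aF κ x - aF κ y| ≤ 2 * π * κ * |x - y| := by
  unfold aF
  have h : (2 + κ * Real.cos (2 * π * x)) - (2 + κ * Real.cos (2 * π * y))
      = κ * (Real.sin (2 * π * x + π / 2) - Real.sin (2 * π * y + π / 2)) := by
    rw [Real.sin_add_pi_div_two, Real.sin_add_pi_div_two]; ring
  rw [h, abs_mul, abs_of_pos hκ]
  obtain ⟨ξ, -, h2⟩ := sin_mvt (2 * π * y + π / 2) (2 * π * x + π / 2)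
  rw [h2, abs_mul]
  have h3 : |2 * π * x + π / 2 - (2 * π * y + π / 2)| = 2 * π * |x - y| := by
    rw [show 2 * π * x + π / 2 - (2 * π * y + π / 2) = 2 * π * (x - y) by ring, abs_mul,
      abs_of_pos (by positivity : 0 < 2 * π)]
  rw [h3]
  have h4 := Real.abs_cos_le_one ξ
  calc κ * (|Real.cos ξ| * (2 * π * |x - y|)) ≤ κ * (1 * (2 * π * |x - y|)) := by gcongr
    _ = _ := by ring

/-- size of the first term on `d ≤ |u| ≤ 2d` -/
theorem first_term {κ L : ℝ} (hL : 100 ≤ L) (hκ : L ^ 4 ≤ κ) (n : ℤ) {σ : ℝ}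
    (hσ : σ = 1 ∨ σ = -1) {u : ℝ} (hu1 : L ≤ 2 * π * κ * |u|) (hu2 : 2 * π * κ * |u| ≤ 2 * L) :
    L / 2 ≤ |aF κ (n + σ * (1 / 4 + dl κ) + u)| ∧ |aF κ (n + σ * (1 / 4 + dl κ) + u)| ≤ 4 * L ∧
    ∃ G : ℝ, |G - 1| ≤ 1 / L ^ 2 ∧
      gF κ (n + σ * (1 / 4 + dl κ) + u) = σ * (6 / (2 * π * κ * u ^ 4)) * G ∧
      0.371 * ((2 * π * κ) ^ 3 / L ^ 4) ≤ 6 / (2 * π * κ * u ^ 4) * 0.99 := by
  have hL0 : 0 < L := by linarith
  have hL4 : 1000000 * L ≤ L ^ 4 := by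
    have : (100:ℝ) ^ 3 ≤ L ^ 3 := pow_le_pow_left₀ (by norm_num) hL 3
    nlinarith
  have hκ0 : 0 < κ := by linarith
  have hK : 0 < 2 * π * κ := by positivity
  have hu : u ≠ 0 := by
    rintro rfl; simp at hu1; linarith
  have hua : 0 < |u| := abs_pos.2 hu
  have hσa : |σ| = 1 := by rcases hσ with rfl | rfl <;> norm_num
  obtain ⟨G, c, hG, hc1, hc2, hg, ha⟩ := near_zero (κ := κ) (M := 2 * L) (by linarith)
    (by linarith) n hσ hu hu2
  have hML : 2 * L / κ ≤ 1 / L ^ 2 := by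
    rw [div_le_div_iff₀ hκ0 (by positivity)]
    have : 2 * L * L ^ 2 ≤ L ^ 4 := by nlinarith [pow_pos hL0 3]
    linarith
  have hL2 : 1 / L ^ 2 ≤ 1 / 10000 := by
    apply one_div_le_one_div_of_le (by norm_num)
    nlinarith
  have habs : |aF κ (n + σ * (1 / 4 + dl κ) + u)| = 2 * π * κ * |u| * c := by
    rw [ha, abs_mul, abs_neg, abs_mul, abs_mul, hσa, abs_of_pos hK,
      abs_of_nonneg (by linarith : 0 ≤ c)]
    ring
  refine ⟨?_, ?_, G, hG.trans hML, ?_, ?_⟩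
  · rw [habs]
    have : L * (1 / 2) ≤ 2 * π * κ * |u| * c :=
      mul_le_mul hu1 (by linarith) (by norm_num) (by positivity)
    linarith
  · rw [habs]
    have : 2 * π * κ * |u| * c ≤ 2 * L * 1 :=
      mul_le_mul hu2 hc2 (by linarith) (by linarith)
    linarith
  · rw [hg]
    have := Real.pi_pos
    field_simp
    ring
  · have h1 : (2 * π * κ) ^ 4 * u ^ 4 ≤ 16 * L ^ 4 := by
      have h2 : (2 * π * κ * |u|) ^ 4 ≤ (2 * L) ^ 4 := pow_le_pow_left₀ (by positivity) hu2 4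
      have h3 : |u| ^ 4 = u ^ 4 := by rw [← abs_pow, abs_of_nonneg (by positivity)]
      rw [mul_pow, h3] at h2
      linarith [show (2 * L) ^ 4 = 16 * L ^ 4 by ring]
    have hu4 : 0 < u ^ 4 := by positivity
    have e1 : 6 / (2 * π * κ * u ^ 4) * 0.99 = 5.94 / (2 * π * κ * u ^ 4) := by ring
    rw [e1, ← mul_div_assoc, div_le_div_iff₀ (by positivity) (by positivity)]
    calc 0.371 * (2 * π * κ) ^ 3 * (2 * π * κ * u ^ 4)
        = 0.371 * ((2 * π * κ) ^ 4 * u ^ 4) := by ring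
      _ ≤ 0.371 * (16 * L ^ 4) := by gcongr
      _ ≤ 5.94 * L ^ 4 := by nlinarith [pow_pos hL0 4]

/-- the derived bound: if `|q g₊| ≤ 0.3 K³/L⁴` then fine -/
theorem combine_small {K L G σ V s : ℝ} (hK : 0 < K) (hL : 100 ≤ L) (hσ : σ = 1 ∨ σ = -1)
    (hG : |G - 1| ≤ 1 / L ^ 2) (hV : 0.371 * (K ^ 3 / L ^ 4) ≤ V * 0.99)
    (hs : |s| ≤ 0.3 * (K ^ 3 / L ^ 4)) :
    K ^ 3 / L ^ 5 ≤ |σ * V * G + s| := by
  have hL0 : 0 < L := by linarith
  have hL2 : 1 / L ^ 2 ≤ 1 / 10000 := by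
    apply one_div_le_one_div_of_le (by norm_num)
    nlinarith
  have hG1 : 0.99 ≤ G := by
    have := (abs_le.1 hG).1
    linarith
  have hKL : 0 < K ^ 3 / L ^ 4 := by positivity
  have hV0 : 0 < V := by nlinarith
  have h1 : 0.371 * (K ^ 3 / L ^ 4) ≤ |σ * V * G| := by
    have : |σ * V * G| = V * G := by
      rw [abs_mul, abs_mul, abs_of_pos hV0, abs_of_pos (by linarith : 0 < G)]
      rcases hσ with rfl | rfl <;> norm_num
    rw [this]
    exact hV.trans (mul_le_mul_of_nonneg_left hG1 hV0.le)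
  have h2 : |σ * V * G| - |s| ≤ |σ * V * G + s| := by
    have := abs_sub_abs_le_abs_sub (σ * V * G) (-s)
    rw [abs_neg, sub_neg_eq_add] at this
    exact this
  have h3 : K ^ 3 / L ^ 5 ≤ 0.07 * (K ^ 3 / L ^ 4) := by
    have e : K ^ 3 / L ^ 5 = (1 / L) * (K ^ 3 / L ^ 4) := by field_simp
    rw [e]
    apply mul_le_mul_of_nonneg_right _ hKL.le
    have : 1 / L ≤ 1 / 100 := one_div_le_one_div_of_le (by norm_num) hL
    linarith
  linarith

/-- bound for `|q g₊|` from a lower bound for `|a₊|` -/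
theorem second_small {κ L q x : ℝ} (hL : 100 ≤ L) (hκ : L ^ 4 ≤ κ) {B : ℝ} (hB : 0 < B)
    (ha : B ≤ |aF κ x|) (hq : |q| * (6.5 * L ^ 4) ≤ 0.3 * B ^ 4) :
    |q * gF κ x| ≤ 0.3 * ((2 * π * κ) ^ 3 / L ^ 4) := by
  have hL0 : 0 < L := by linarith
  have hL4 : 1000000 * L ≤ L ^ 4 := by
    have : (100:ℝ) ^ 3 ≤ L ^ 3 := pow_le_pow_left₀ (by norm_num) hL 3
    nlinarith
  have hκ0 : 0 < κ := by linarith
  have hne : aF κ x ≠ 0 := by
    intro h; rw [h, abs_zero] at ha; linarith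
  have h1 := abs_gF_le (κ := κ) (by linarith) hne
  have h4 : B ^ 4 ≤ aF κ x ^ 4 := by
    have : B ^ 4 ≤ |aF κ x| ^ 4 := pow_le_pow_left₀ hB.le ha 4
    rwa [← abs_pow, abs_of_nonneg (by positivity : 0 ≤ aF κ x ^ 4)] at this
  have hK3 : 0 < (2 * π * κ) ^ 3 := by positivity
  rw [abs_mul]
  calc |q| * |gF κ x| ≤ |q| * (6.5 * (2 * π * κ) ^ 3 / aF κ x ^ 4) := by gcongr
    _ ≤ |q| * (6.5 * (2 * π * κ) ^ 3 / B ^ 4) := by gcongr
    _ ≤ 0.3 * ((2 * π * κ) ^ 3 / L ^ 4) := by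
        rw [← mul_div_assoc, ← mul_div_assoc, div_le_div_iff₀ (by positivity) (by positivity)]
        calc |q| * (6.5 * (2 * π * κ) ^ 3) * L ^ 4
            = (|q| * (6.5 * L ^ 4)) * (2 * π * κ) ^ 3 := by ring
          _ ≤ (0.3 * B ^ 4) * (2 * π * κ) ^ 3 := by gcongr
          _ = _ := by ring

/-- (Z2): `|q| ≤ 100` and `|a₊(T)| ≥ 208 L`. -/
theorem zone2 {κ L q xm xp : ℝ} (hL : 100 ≤ L) (hκ : L ^ 4 ≤ κ) (hq : |q| ≤ 100) (n : ℤ) {σ : ℝ}
    (hσ : σ = 1 ∨ σ = -1) (T : ℝ) (hT : xm + T = n + σ * (1 / 4 + dl κ))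
    (ha : 208 * L ≤ |aF κ (xp + q * T)|) : GoodJ κ L q xm xp T := by
  have hL0 : 0 < L := by linarith
  have hL4 : 1000000 * L ≤ L ^ 4 := by
    have : (100:ℝ) ^ 3 ≤ L ^ 3 := pow_le_pow_left₀ (by norm_num) hL 3
    nlinarith
  have hκ0 : 0 < κ := by linarith
  have hK : 0 < 2 * π * κ := by positivity
  set d := L / (2 * π * κ) with hd
  have hd0 : 0 < d := by positivity
  have hKd : 2 * π * κ * d = L := by rw [hd]; field_simp
  refine ⟨T + d, T + 2 * d, by linarith, le_rfl, by linarith, ?_⟩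
  intro t ht
  have hu : t = T + (t - T) := by ring
  set u := t - T with hu'
  have hu1 : d ≤ u := by linarith [ht.1]
  have hu2 : u ≤ 2 * d := by linarith [ht.2]
  have hxm : xm + t = n + σ * (1 / 4 + dl κ) + u := by rw [← hT, hu]; ring
  have hua : |u| = u := abs_of_pos (by linarith)
  have hb1 : L ≤ 2 * π * κ * |u| := by rw [hua]; nlinarith
  have hb2 : 2 * π * κ * |u| ≤ 2 * L := by rw [hua]; nlinarith
  obtain ⟨f1, f2, G, hG, hg, hV⟩ := first_term hL hκ n hσ hb1 hb2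
  have ha2 : 8 * L ≤ |aF κ (xp + q * t)| := by
    have h1 := aF_lip hκ0 (xp + q * T) (xp + q * t)
    have h2 : |xp + q * T - (xp + q * t)| ≤ 100 * (2 * d) := by
      rw [show xp + q * T - (xp + q * t) = -(q * u) by rw [hu']; ring, abs_neg, abs_mul, hua]
      exact mul_le_mul hq hu2 (by linarith) (by norm_num)
    have h3 : 2 * π * κ * |xp + q * T - (xp + q * t)| ≤ 200 * L := by
      calc 2 * π * κ * |xp + q * T - (xp + q * t)| ≤ 2 * π * κ * (100 * (2 * d)) := by gcongr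
        _ = 200 * (2 * π * κ * d) := by ring
        _ = 200 * L := by rw [hKd]
    have h4 := abs_sub_abs_le_abs_sub (aF κ (xp + q * T)) (aF κ (xp + q * t))
    linarith
  rw [hxm]
  refine ⟨f1, f2, by linarith, ?_⟩
  rw [hg]
  apply combine_small hK hL hσ hG hV
  apply second_small hL hκ (B := 8 * L) (by linarith) ha2
  have : (8 * L) ^ 4 = 4096 * L ^ 4 := by ring
  rw [this]
  have := pow_pos hL0 4
  nlinarith [abs_nonneg q]

end Vale.Agent.P108.H850
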