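import Vale.Agent.P108.H850.Zone

/-! (Z1): large `|q|`. -/

namespace Vale.Agent.P108.H850

open Real Set

/-- if `|a(x)| ≤ κ/10` then `|sin 2πx| ≥ 0.9`. -/
theorem sin_ge_of_a {κ x : ℝ} (hκ : 100 ≤ κ) (h : |aF κ x| ≤ κ / 10) :
    0.9 ≤ |Real.sin (2 * π * x)| := by
  have hc : |Real.cos (2 * π * x)| ≤ 0.12 := by
    have e : Real.cos (2 * π * x) = (aF κ x - 2) / κ := by
      unfold aF; field_simp; ring
    rw [e, abs_div, abs_of_pos (by linarith : 0 < κ), div_le_iff₀ (by linarith)]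
    refine (abs_sub _ _).trans ?_
    rw [abs_of_pos (by norm_num : (0:ℝ) < 2)]
    linarith
  have h1 := Real.sin_sq_add_cos_sq (2 * π * x)
  have h2 : Real.cos (2 * π * x) ^ 2 ≤ 0.12 ^ 2 := by
    rw [← sq_abs]; exact pow_le_pow_left₀ (abs_nonneg _) hc 2
  by_contra h3
  push Not at h3
  have h4 : Real.sin (2 * π * x) ^ 2 ≤ 0.9 ^ 2 := by
    rw [← sq_abs]; exact pow_le_pow_left₀ (abs_nonneg _) h3.le 2
  norm_num at h2 h4
  linarith

/-- expansion of `a(x+qt)` where `|a| ≤ κ/10`. -/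
theorem aF_expand {κ x q t s : ℝ} (hκ : 100 ≤ κ)
    (h : ∀ r, |r - s| ≤ |t - s| → |aF κ (x + q * r)| ≤ κ / 10) :
    0.9 * (2 * π * κ * |q|) * |t - s| ≤ |aF κ (x + q * t) - aF κ (x + q * s)| := by
  have hκ0 : 0 < κ := by linarith
  obtain ⟨ξ, h1, h2⟩ := sin_mvt (2 * π * (x + q * s) + π / 2) (2 * π * (x + q * t) + π / 2)
  have e : aF κ (x + q * t) - aF κ (x + q * s)
      = κ * (Real.sin (2 * π * (x + q * t) + π / 2) - Real.sin (2 * π * (x + q * s) + π / 2)) := by
    unfold aF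
    rw [Real.sin_add_pi_div_two, Real.sin_add_pi_div_two]; ring
  rcases eq_or_ne q 0 with rfl | hq
  · simp
  set r := (ξ - π / 2 - 2 * π * x) / (2 * π * q) with hr
  have hπ := Real.pi_pos
  have e2 : ξ = 2 * π * (x + q * r) + π / 2 := by rw [hr]; field_simp; ring
  have h3 : |r - s| ≤ |t - s| := by
    rw [e2] at h1
    rw [show 2 * π * (x + q * r) + π / 2 - (2 * π * (x + q * s) + π / 2) = 2 * π * q * (r - s) by
      ring, show 2 * π * (x + q * t) + π / 2 - (2 * π * (x + q * s) + π / 2)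
        = 2 * π * q * (t - s) by ring, abs_mul, abs_mul (2 * π * q)] at h1
    exact le_of_mul_le_mul_left h1 (abs_pos.2 (by positivity))
  have h4 := sin_ge_of_a hκ (h r h3)
  have e3 : Real.cos ξ = - Real.sin (2 * π * (x + q * r)) := by
    rw [e2, Real.cos_add_pi_div_two]
  rw [e, h2, e3, abs_mul, abs_mul, abs_neg, abs_of_pos hκ0,
    show 2 * π * (x + q * t) + π / 2 - (2 * π * (x + q * s) + π / 2) = 2 * π * (q * (t - s)) by ring,
    abs_mul (2 * π), abs_mul q, abs_of_pos (by positivity : 0 < 2 * π)]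
  calc 0.9 * (2 * π * κ * |q|) * |t - s| = κ * (0.9 * (2 * π * (|q| * |t - s|))) := by ring
    _ ≤ _ := by gcongr

/-- (Z1): `|q| ≥ 100`. -/
theorem zone1 {κ L q xm xp : ℝ} (hL : 100 ≤ L) (hκ : L ^ 4 ≤ κ) (hq : 100 ≤ |q|)
    (hq2 : |q| * L ^ 3 ≤ κ) (n : ℤ) {σ : ℝ}
    (hσ : σ = 1 ∨ σ = -1) (T : ℝ) (hT : xm + T = n + σ * (1 / 4 + dl κ)) :
    GoodJ κ L q xm xp T := by
  have hL0 : 0 < L := by linarith
  have hL4 : 1000000 * L ≤ L ^ 4 := by
    have : (100:ℝ) ^ 3 ≤ L ^ 3 := pow_le_pow_left₀ (by norm_num) hL 3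
    nlinarith
  have hκ0 : 0 < κ := by linarith
  have hK : 0 < 2 * π * κ := by positivity
  set d := L / (2 * π * κ) with hd
  have hd0 : 0 < d := by positivity
  have hKd : 2 * π * κ * d = L := by rw [hd]; field_simp
  set s := Real.sqrt |q| with hs
  have hs2 : s ^ 2 = |q| := Real.sq_sqrt (abs_nonneg q)
  have hs10 : 10 ≤ s := by
    rw [hs]; apply Real.le_sqrt_of_sq_le; norm_num; linarith
  have hs0 : 0 < s := by linarith
  -- common consequences for `u ∈ [d,2d]`
  have main : ∀ t, T + d ≤ t → t ≤ T + 2 * d → s * L ≤ |aF κ (xp + q * t)| →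
      L / 2 ≤ |aF κ (xm + t)| ∧ |aF κ (xm + t)| ≤ 4 * L ∧
      L / 2 ≤ |aF κ (xp + q * t)| ∧
      (2 * π * κ) ^ 3 / L ^ 5 ≤ |gF κ (xm + t) + q * gF κ (xp + q * t)| := by
    intro t h1 h2 h3
    have hu : t = T + (t - T) := by ring
    set u := t - T with hu'
    have hxm : xm + t = n + σ * (1 / 4 + dl κ) + u := by rw [← hT, hu]; ring
    have hu1 : d ≤ u := by linarith
    have hu2 : u ≤ 2 * d := by linarith
    have hua : |u| = u := abs_of_pos (by linarith)
    have hb1 : L ≤ 2 * π * κ * |u| := by rw [hua]; nlinarith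
    have hb2 : 2 * π * κ * |u| ≤ 2 * L := by rw [hua]; nlinarith
    obtain ⟨f1, f2, G, hG, hg, hV⟩ := first_term hL hκ n hσ hb1 hb2
    rw [hxm]
    refine ⟨f1, f2, by nlinarith, ?_⟩
    rw [hg]
    apply combine_small hK hL hσ hG hV
    apply second_small hL hκ (B := s * L) (by positivity) h3
    have e : (s * L) ^ 4 = |q| * |q| * L ^ 4 := by rw [mul_pow, ← hs2]; ring
    rw [e]
    have := pow_pos hL0 4
    have h5 : 6.5 ≤ 0.3 * |q| := by linarith
    calc |q| * (6.5 * L ^ 4) = 6.5 * (|q| * L ^ 4) := by ring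
      _ ≤ (0.3 * |q|) * (|q| * L ^ 4) := by gcongr
      _ = _ := by ring
  by_cases hall : ∀ t ∈ Icc (T + d) (T + 5 / 4 * d), s * L ≤ |aF κ (xp + q * t)|
  · refine ⟨T + d, T + 5 / 4 * d, by linarith, by linarith, by linarith, ?_⟩
    intro t ht
    exact main t ht.1 (by linarith [ht.2]) (hall t ht)
  · push Not at hall
    obtain ⟨t', ht', hlt⟩ := hall
    refine ⟨T + 3 / 2 * d, T + 7 / 4 * d, by linarith, by linarith, by linarith, ?_⟩
    intro t ht
    refine main t (by linarith [ht.1]) (by linarith [ht.2]) ?_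
    -- size of `a₊` in the zone
    have hqL : |q| * L ≤ κ / 10000 := by
      have h1 : |q| * L ^ 3 = (|q| * L) * L ^ 2 := by ring
      have h2 : (10000:ℝ) ≤ L ^ 2 := by nlinarith
      have h3 : 0 ≤ |q| * L := by positivity
      rw [le_div_iff₀ (by norm_num)]
      nlinarith
    have hsL : s * L ≤ κ / 10000 := by
      have : s ≤ |q| := by rw [← hs2]; nlinarith
      exact (mul_le_mul_of_nonneg_right this hL0.le).trans hqL
    have hdist : |t - t'| ≤ d := by
      rw [abs_le]; constructor <;> linarith [ht.1, ht.2, ht'.1, ht'.2]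
    have hdist2 : d / 4 ≤ |t - t'| := by
      rw [abs_of_nonneg (by linarith [ht.1, ht'.2])]; linarith [ht.1, ht'.2]
    have hsmall : ∀ r, |r - t'| ≤ |t - t'| → |aF κ (xp + q * r)| ≤ κ / 10 := by
      intro r hr
      have h1 := aF_lip hκ0 (xp + q * r) (xp + q * t')
      have h2 : |xp + q * r - (xp + q * t')| ≤ |q| * d := by
        rw [show xp + q * r - (xp + q * t') = q * (r - t') by ring, abs_mul]
        exact mul_le_mul_of_nonneg_left (hr.trans hdist) (abs_nonneg _)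
      have h3 : 2 * π * κ * |xp + q * r - (xp + q * t')| ≤ |q| * L := by
        calc 2 * π * κ * |xp + q * r - (xp + q * t')| ≤ 2 * π * κ * (|q| * d) := by gcongr
          _ = |q| * (2 * π * κ * d) := by ring
          _ = |q| * L := by rw [hKd]
      have h4 := abs_sub_abs_le_abs_sub (aF κ (xp + q * r)) (aF κ (xp + q * t'))
      linarith
    have h6 := aF_expand (x := xp) (q := q) (t := t) (s := t') (by linarith) hsmall
    have h7 : 2.25 * (s * L) ≤ 0.9 * (2 * π * κ * |q|) * |t - t'| := by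
      calc 2.25 * (s * L) ≤ 2.25 * (s * L) * (s / 10) := by
            have : 1 ≤ s / 10 := by rw [le_div_iff₀ (by norm_num)]; linarith
            exact le_mul_of_one_le_right (by positivity) this
        _ = 0.9 * (2 * π * κ * d * |q|) / 4 := by rw [hKd, ← hs2]; ring
        _ = 0.9 * (2 * π * κ * |q|) * (d / 4) := by ring
        _ ≤ _ := by gcongr
    have h8 := abs_sub (aF κ (xp + q * t)) (aF κ (xp + q * t'))
    have h9 : 0 < s * L := by positivity
    linarith

end Vale.Agent.P108.H850
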