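import Vale.Agent.P108.H850.Gen

/-!
# P108 [ZONE], abstract form: two digit terms with errors
-/

namespace Vale.Agent.P108.H850

open Real Set

/-- one digit term: `g/(a - e)` against `1/a` -/
theorem digit_err {a e g L μ ν : ℝ} (hL : 1000 ≤ L) (ha : L / 4 ≤ |a|) (he : |e| ≤ μ)
    (hμ : μ ≤ 1 / 2) (hg : |g - 1| ≤ ν) :
    |g / (a - e) - 1 / a| ≤ 17 * μ / L ^ 2 + 5 * ν / L := by
  have hL0 : 0 < L := by linarith
  have hμ0 : 0 ≤ μ := le_trans (abs_nonneg _) he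
  have hν0 : 0 ≤ ν := le_trans (abs_nonneg _) hg
  have h1 : |a| ≤ |a - e| + |e| := by
    have := abs_sub_abs_le_abs_sub a (a - e)
    rw [sub_sub_cancel] at this
    linarith
  have hae : L / 4.1 ≤ |a - e| := by
    have h2 : L / 4.1 ≤ L / 4 - 1 / 2 := by
      rw [div_le_iff₀ (by norm_num)]; nlinarith
    linarith
  have hae0 : a - e ≠ 0 := by
    intro h; rw [h, abs_zero] at hae
    have : 0 < L / 4.1 := by positivity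
    linarith
  have ha0 : a ≠ 0 := by
    intro h; rw [h, abs_zero] at ha; linarith
  have e1 : g / (a - e) - 1 / a = (g - 1) / (a - e) + e / (a * (a - e)) := by
    field_simp
    ring
  rw [e1]
  refine (abs_add_le _ _).trans ?_
  rw [abs_div, abs_div, abs_mul]
  have h3 : |g - 1| / |a - e| ≤ 5 * ν / L := by
    calc |g - 1| / |a - e| ≤ ν / (L / 4.1) := by gcongr
      _ = 4.1 * ν / L := by field_simp
      _ ≤ 5 * ν / L := by gcongr; norm_num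
  have h4 : |e| / (|a| * |a - e|) ≤ 17 * μ / L ^ 2 := by
    calc |e| / (|a| * |a - e|) ≤ μ / (L / 4 * (L / 4.1)) := by gcongr
      _ = 16.4 * μ / L ^ 2 := by field_simp; ring
      _ ≤ 17 * μ / L ^ 2 := by gcongr; norm_num
  linarith

/-- **ZONE, abstract form.** -/
theorem zone_abs {κ L q xm xp α β α0 α1 ε μ C0 C1 C2 : ℝ} {Xm Xp Qp : ℝ → ℝ}
    (hL : 1000 ≤ L) (hκ : L ^ 4 ≤ κ)
    (hq1 : 1 ≤ |q|) (hqL : 2 * |q| * L ^ 3 ≤ κ) (hα : |α| ≤ α0)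
    (hα0 : 10 ^ 8 * (L * α0) ≤ 1) (hα10 : 0 ≤ α1) (hα1 : 10 ^ 8 * (L * α1) ≤ q ^ 2)
    (hα1' : α1 ≤ 1 / 2000)
    (hKα : 2000 * (2 * π * κ * α0 ^ 2) ≤ 1)
    (hμ : 10 ^ 8 * μ ≤ 1)
    (hε : 10 ^ 10 * (2 * π * κ * ε) ≤ 1)
    (hXm : ∀ u, 0 ≤ u → u ≤ 3 → |Xm u - (xm + u + α * u ^ 2)| ≤ ε)
    (hXp : ∀ v u, 0 ≤ v → v ≤ 3 → 0 ≤ u → u ≤ 3 → |u - v| ≤ 3 * (L / (2 * π * κ)) →
      |Xp u - (Xp v + Qp v * (u - v))| ≤ ε)
    (hQp : ∀ v, 0 ≤ v → v ≤ 3 → |Qp v - q| ≤ α1 * |q|)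
    (hXq : |q| < 1.05 → |β| ≤ q ^ 2 * α0 ∧
      ∀ v, 0 ≤ v → v ≤ 3 → |Xp v - (xp + q * v + β * v ^ 2)| ≤ ε) {S : Set ℝ}
    {U gm gp em ep : ℝ → ℝ}
    (hgm : ∀ u ∈ S, 0 ≤ u → u ≤ 3 → |gm u - 1| ≤ μ / L)
    (hgp : ∀ u ∈ S, 0 ≤ u → u ≤ 3 → |gp u - 1| ≤ q ^ 2 * (μ / L))
    (hem : ∀ u ∈ S, 0 ≤ u → u ≤ 3 → |em u| ≤ μ)
    (hep : ∀ u ∈ S, 0 ≤ u → u ≤ 3 → |ep u| ≤ μ)
    (hU : ∀ u ∈ S, 0 ≤ u → u ≤ 3 → |U u - (C0 + C1 * u + C2 * u ^ 2)| ≤ μ / L ^ 2)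
    (hF : ∀ u ∈ S, 0 ≤ u → u ≤ 3 →
      |U u + (gm u / (aF κ (Xm u) - em u) + 1 / q ^ 2 * (gp u / (aF κ (Xp u) - ep u)))|
        ≤ μ / L ^ 2) :
    ∃ a b, 0 ≤ a ∧ b ≤ 3 ∧ (L / (2 * π * κ)) / 30 ≤ b - a ∧ Disjoint (Icc a b) S := by
  have hL0 : 0 < L := by linarith
  have hq0 : q ≠ 0 := by rintro rfl; norm_num at hq1
  have hq2 : 1 ≤ q ^ 2 := by rw [← sq_abs]; exact one_le_pow₀ hq1
  obtain ⟨a, b, h1, h2, h3, h4, -⟩ := hole_gen (C0 := C0) (C1 := C1) (C2 := C2) (xp := xp)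
    (β := β) (θ := 1 / (400000 * L ^ 2)) (S := S)
    hL hκ hq1 hqL hα hα0 hα10 hα1 hα1' hKα (by
      have : 0 < L ^ 2 := by positivity
      field_simp; norm_num) hε hXm hXp hQp hXq (by
    intro u hu h0 h3 g1 g2 g3
    have hμ0 : 0 ≤ μ := le_trans (abs_nonneg _) (hem u hu h0 h3)
    have b1 := digit_err hL g1 (hem u hu h0 h3) (by linarith) (hgm u hu h0 h3)
    have b2 := digit_err hL g3 (hep u hu h0 h3) (by linarith) (hgp u hu h0 h3)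
    have b3 := hU u hu h0 h3
    have b4 := hF u hu h0 h3
    have hq3 : 1 / q ^ 2 ≤ 1 := by rw [div_le_one (by positivity)]; exact hq2
    have b5 : |1 / q ^ 2 * (gp u / (aF κ (Xp u) - ep u) - 1 / aF κ (Xp u))|
        ≤ 22 * μ / L ^ 2 := by
      rw [abs_mul, abs_of_pos (by positivity : 0 < 1 / q ^ 2)]
      calc 1 / q ^ 2 * |gp u / (aF κ (Xp u) - ep u) - 1 / aF κ (Xp u)|
          ≤ 1 / q ^ 2 * (17 * μ / L ^ 2 + 5 * (q ^ 2 * (μ / L)) / L) := by gcongr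
        _ = 1 / q ^ 2 * (17 * μ / L ^ 2) + 5 * μ / L ^ 2 := by field_simp
        _ ≤ 1 * (17 * μ / L ^ 2) + 5 * μ / L ^ 2 := by gcongr
        _ = 22 * μ / L ^ 2 := by ring
    have b6 : 17 * μ / L ^ 2 + 5 * (μ / L) / L = 22 * μ / L ^ 2 := by field_simp; norm_num
    rw [b6] at b1
    have e1 : C0 + C1 * u + C2 * u ^ 2 + (1 / aF κ (Xm u) + 1 / q ^ 2 * (1 / aF κ (Xp u)))
        = (U u + (gm u / (aF κ (Xm u) - em u) + 1 / q ^ 2 * (gp u / (aF κ (Xp u) - ep u))))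
          - (U u - (C0 + C1 * u + C2 * u ^ 2))
          - (gm u / (aF κ (Xm u) - em u) - 1 / aF κ (Xm u))
          - 1 / q ^ 2 * (gp u / (aF κ (Xp u) - ep u) - 1 / aF κ (Xp u)) := by ring
    rw [e1]
    have c1 := abs_sub ((U u + (gm u / (aF κ (Xm u) - em u)
      + 1 / q ^ 2 * (gp u / (aF κ (Xp u) - ep u)))) - (U u - (C0 + C1 * u + C2 * u ^ 2))
          - (gm u / (aF κ (Xm u) - em u) - 1 / aF κ (Xm u)))
      (1 / q ^ 2 * (gp u / (aF κ (Xp u) - ep u) - 1 / aF κ (Xp u)))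
    have c2 := abs_sub ((U u + (gm u / (aF κ (Xm u) - em u)
      + 1 / q ^ 2 * (gp u / (aF κ (Xp u) - ep u)))) - (U u - (C0 + C1 * u + C2 * u ^ 2)))
      (gm u / (aF κ (Xm u) - em u) - 1 / aF κ (Xm u))
    have c3 := abs_sub (U u + (gm u / (aF κ (Xm u) - em u)
      + 1 / q ^ 2 * (gp u / (aF κ (Xp u) - ep u)))) (U u - (C0 + C1 * u + C2 * u ^ 2))
    have c4 : 46 * μ / L ^ 2 ≤ 1 / (400000 * L ^ 2) := by
      rw [div_le_div_iff₀ (by positivity) (by positivity)]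
      have : 0 < L ^ 2 := by positivity
      nlinarith
    have c5 : μ / L ^ 2 + μ / L ^ 2 + 22 * μ / L ^ 2 + 22 * μ / L ^ 2 = 46 * μ / L ^ 2 := by ring
    linarith)
  exact ⟨a, b, h1, h2, h3, h4⟩

end Vale.Agent.P108.H850
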