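import Vale.Agent.P108.H850.ZoneNum
import Vale.Agent.P108.H442.PeakLine

/-!
# P108 [ZONE]: final form, as used in `H442.peak_line`
-/

namespace Vale.Agent.P108.H850

open Real Set
open Vale.Agent.P108 Vale.Agent.P108.Dyn Vale.Agent.P108.H504 Vale.Agent.P108.H786
  Vale.Agent.P108.Area Vale.Agent.P108.H320 Vale.Agent.P108.H442

/-- a level gives a base orbit -/
theorem base_of_level {k E c t : ℝ} {r : ℕ} (hk : 3 ≤ k) (hE : 1 < E) (hEk : E ≤ k)
    (hr : 2 ≤ r) (h : IsLevel E (rt k c t) r) : Base k (1 / E) 1 ((r : ℤ) - 1) (fam k c t) := by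
  have R := rates_rt (k := k) (E := E) (by linarith) hE (by linarith) c t
  have hE0 : 0 < E := by linarith
  refine ⟨hk, by positivity, ?_, ?_, by omega, fun j _ _ => orb_succ k _ j, ?_, ?_⟩
  · rw [div_le_one hE0]; exact hE.le
  · rw [mul_one_div, le_div_iff₀ hE0]; linarith
  · have := R.level_pos h
    exact abs_pos.mp this
  · intro j h1 h2
    have h3 := R.level_growth h (l := j.toNat) (by omega)
    have e1 : rt k c t j.toNat = D (av k (fam k c t)) 1 (j - 1) := by
      unfold rt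
      rw [Int.toNat_of_nonneg (by omega)]
      rfl
    have e2 : rt k c t r = D (av k (fam k c t)) 1 ((r : ℤ) - 1) := rfl
    rw [e1, e2] at h3
    have e3 : ((r : ℤ) - 1 + 1 - j) = ((r - j.toNat : ℕ) : ℤ) := by
      rw [Nat.cast_sub (by omega), Int.toNat_of_nonneg (by omega)]; ring
    rw [e3, zpow_natCast, one_div, inv_pow, ← div_eq_inv_mul, le_div_iff₀ (by positivity)]
    exact h3

/-- the digit site has a nonvanishing tail -/
theorem tail_ne {k c s τ : ℝ} {r : ℕ} {L : ℤ} (hr : 1 ≤ r) (hL : (r : ℤ) ≤ L)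
    (h1 : D (ao k (pt k 1 (c, s))) 1 L ≠ 0)
    (h2 : |D (ao k (pt k 1 (c, s))) ((r : ℤ) + 2) L|
      ≤ τ * |D (ao k (pt k 1 (c, s))) ((r : ℤ) + 1) L|) :
    D (ao k (pt k 1 (c, s))) ((r : ℤ) + 1) L ≠ 0 ∧
    |D (ao k (pt k 1 (c, s))) ((r : ℤ) + 2) L / D (ao k (pt k 1 (c, s))) ((r : ℤ) + 1) L| ≤ τ := by
  have h3 : D (ao k (pt k 1 (c, s))) ((r : ℤ) + 1) L ≠ 0 := by
    intro h0
    rw [h0, abs_zero, mul_zero] at h2
    have h4 : D (ao k (pt k 1 (c, s))) ((r : ℤ) + 2) L = 0 := by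
      have := le_antisymm h2 (abs_nonneg _)
      exact abs_eq_zero.mp this
    have h5 := D_concat (ao k (pt k 1 (c, s))) (p := 1) (q := L) (j := (r : ℤ)) (by omega) hL
    rw [h0, h4] at h5
    apply h1
    rw [h5]; ring
  refine ⟨h3, ?_⟩
  rw [abs_div, div_le_iff₀ (abs_pos.mpr h3)]
  exact h2

/-- the level of the partner is at least `2` -/
theorem two_le_of_matched {a c t : ℝ} (ha : 10 ^ 10 ≤ a) {G G' : Set ℕ} {r p : ℕ} (hr : 3 ≤ r)
    (hm : Matched (a ^ 180) (8 * a ^ 200) (rt (a ^ 200) c t) (lt (a ^ 200) c t) G G' r p) :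
    2 ≤ p := by
  have ha1 : 1 < a := by linarith
  have ha0 : 0 < a := by linarith
  obtain ⟨h1, -, h3, -, h5, -⟩ := hm
  have hk2 : 2 ≤ a ^ 200 := by
    calc (2 : ℝ) ≤ a := by linarith
      _ = a ^ 1 := (pow_one a).symm
      _ ≤ a ^ 200 := pow_le_pow_right₀ ha1.le (by norm_num)
  have hE : 1 < a ^ 180 := one_lt_pow₀ ha1 (by norm_num)
  have hEk : a ^ 180 ≤ 8 * a ^ 200 := by
    have := pow_le_pow_right₀ ha1.le (show 180 ≤ 200 by norm_num)
    linarith
  have R := rates_rt hk2 hE hEk c t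
  have R' := rates_lt hk2 hE hEk c t
  have hp1 : 1 ≤ p := h3.1
  by_contra hcon
  have hp : p = 1 := by omega
  subst hp
  rw [R'.one, mul_one] at h5
  have h6 := R.level_ge h1
  have h7 : (a ^ 180) ^ 2 ≤ (a ^ 180) ^ (r - 1) := pow_le_pow_right₀ hE.le (by omega)
  have hs : Real.sqrt (8 * a ^ 200) ≤ 3 * a ^ 100 := by
    apply Real.sqrt_le_iff.mpr
    refine ⟨by positivity, ?_⟩
    have : (3 * a ^ 100) ^ 2 = 9 * a ^ 200 := by ring
    rw [this]
    have : 0 < a ^ 200 := by positivity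
    linarith
  have h8 : (a ^ 180) ^ 2 ≤ 3 * a ^ 100 := by linarith
  have h9 : (a ^ 180) ^ 2 = a ^ 260 * a ^ 100 := by ring
  rw [h9] at h8
  have h10 : a ^ 260 ≤ 3 := le_of_mul_le_mul_right h8 (by positivity)
  have h11 : a ^ 1 ≤ a ^ 260 := pow_le_pow_right₀ ha1.le (by norm_num)
  rw [pow_one] at h11
  linarith

/-- **ZONE at a matched pair**, `k = a^200`. -/
theorem zone_matched {a k E c t0 : ℝ} (ha : 10 ^ 10 ≤ a) (hk : k = a ^ 200)
    (hEa : E = a ^ 180) {L L' : ℤ} {G G' : Set ℕ} {S : Set ℝ}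
    (hD : ∀ t ∈ S, D (ao k (pt k 1 (c, t))) 1 L ≠ 0)
    (hD' : ∀ t ∈ S, D (ao k (pt k 1 (c, phi k c - t))) 1 L' ≠ 0)
    (hGL : ∀ r ∈ G, (r : ℤ) ≤ L) (hGL' : ∀ r ∈ G', (r : ℤ) ≤ L')
    (hG : ∀ t ∈ S, ∀ r ∈ G, |D (ao k (pt k 1 (c, t))) ((r : ℤ) + 2) L|
      ≤ 1 / a * |D (ao k (pt k 1 (c, t))) ((r : ℤ) + 1) L|)
    (hG' : ∀ t ∈ S, ∀ r ∈ G',
      |D (ao k (pt k 1 (c, phi k c - t))) ((r : ℤ) + 2) L'|
      ≤ 1 / a * |D (ao k (pt k 1 (c, phi k c - t))) ((r : ℤ) + 1) L'|)
    {r p : ℕ} (hr : 3 ≤ r)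
    (hm : Matched E (8 * k) (rt k c t0) (lt k c t0) G G' r p)
    (hSg : ∀ t ∈ S, |Sig k c L L' t| *
      (min |rt k c t0 r| |lt k c t0 p|) ^ 2 ≤ 2 / a / (a ^ 4) ^ 2) :
    ∃ x y, t0 - 3 / min |rt k c t0 r| |lt k c t0 p| ≤ x ∧
      y ≤ t0 + 3 / min |rt k c t0 r| |lt k c t0 p| ∧
      (a ^ 4 / (2 * π * (2 * π * k))) / 90 *
        (3 / min |rt k c t0 r| |lt k c t0 p|) ≤ y - x ∧
      Disjoint (Ioo x y) S := by
  have hp2 : 2 ≤ p := by
    rw [hk, hEa] at hm
    exact two_le_of_matched ha hr hm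
  have N := zn_of_a ha
  rw [← hk, ← hEa] at N
  have ha1 : 1 < a := by linarith
  have hE : 1 < E := by rw [hEa]; exact one_lt_pow₀ ha1 (by norm_num)
  have hEk : E ≤ k := by rw [hEa, hk]; exact pow_le_pow_right₀ ha1.le (by norm_num)
  obtain ⟨h1, h2, h3, h4, h5, h6⟩ := hm
  have Br : Base k (1 / E) 1 ((r : ℤ) - 1) (fam k c t0) :=
    base_of_level N.hk hE hEk (by omega) h1
  have Bl : Base k (1 / E) 1 ((p : ℤ) - 1) (fam k c (phi k c - t0)) :=
    base_of_level N.hk hE hEk hp2 h3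
  have er : rate k c t0 ((r : ℤ) - 1) = rt k c t0 r := rfl
  have el : rate k c (phi k c - t0) ((p : ℤ) - 1) = lt k c t0 p := rfl
  have s1 : (r : ℤ) - 1 + 2 = r + 1 := by ring
  have s2 : (r : ℤ) - 1 + 3 = r + 2 := by ring
  have s3 : (p : ℤ) - 1 + 2 = p + 1 := by ring
  have s4 : (p : ℤ) - 1 + 3 = p + 2 := by ring
  have hrL := hGL r h2
  have hpL := hGL' p h4
  rcases le_total |rt k c t0 r| |lt k c t0 p| with hle | hle
  · rw [min_eq_left hle] at hSg ⊢
    obtain ⟨x, y, g1, g2, g3, g4⟩ := zone_core (c := c) (sm := t0) (sp := phi k c - t0)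
      (Em := L) (Ep := L') (S := {x | t0 + x ∈ S}) N Br Bl (by omega) (by omega)
      (by rw [er, el]; exact hle) (by rw [er, el]; exact h6)
      (fun x hx => hD _ hx)
      (fun x hx => by
        have := hD' _ hx
        rwa [show phi k c - (t0 + x) = phi k c - t0 - x by ring] at this)
      (fun x hx => by
        rw [s1]; exact (tail_ne (by omega) hrL (hD _ hx) (hG _ hx r h2)).1)
      (fun x hx => by
        rw [s3]
        have := (tail_ne (by omega) hpL (hD' _ hx) (hG' _ hx p h4)).1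
        rwa [show phi k c - (t0 + x) = phi k c - t0 - x by ring] at this)
      (fun x hx => by
        rw [s1, s2]; exact (tail_ne (by omega) hrL (hD _ hx) (hG _ hx r h2)).2)
      (fun x hx => by
        rw [s3, s4]
        have := (tail_ne (by omega) hpL (hD' _ hx) (hG' _ hx p h4)).2
        rwa [show phi k c - (t0 + x) = phi k c - t0 - x by ring] at this)
      (fun x hx => by
        have := hSg _ hx
        unfold Sig at this
        rw [show phi k c - (t0 + x) = phi k c - t0 - x by ring] at this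
        rw [er]; exact this)
    rw [er] at g1 g2 g3
    refine ⟨t0 + x, t0 + y, by linarith, by linarith, by linarith, ?_⟩
    rw [Set.disjoint_left] at g4 ⊢
    intro z hz hzS
    apply g4 (a := z - t0) ⟨by linarith [hz.1], by linarith [hz.2]⟩
    show t0 + (z - t0) ∈ S
    rwa [add_sub_cancel]
  · rw [min_eq_right hle] at hSg ⊢
    obtain ⟨x, y, g1, g2, g3, g4⟩ := zone_core (c := c) (sm := phi k c - t0) (sp := t0)
      (Em := L') (Ep := L) (S := {x | t0 - x ∈ S}) N Bl Br (by omega) (by omega)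
      (by rw [er, el]; exact hle) (by rw [er, el]; exact h5)
      (fun x hx => by
        have := hD' _ hx
        rwa [show phi k c - (t0 - x) = phi k c - t0 + x by ring] at this)
      (fun x hx => hD _ hx)
      (fun x hx => by
        rw [s3]
        have := (tail_ne (by omega) hpL (hD' _ hx) (hG' _ hx p h4)).1
        rwa [show phi k c - (t0 - x) = phi k c - t0 + x by ring] at this)
      (fun x hx => by
        rw [s1]; exact (tail_ne (by omega) hrL (hD _ hx) (hG _ hx r h2)).1)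
      (fun x hx => by
        rw [s3, s4]
        have := (tail_ne (by omega) hpL (hD' _ hx) (hG' _ hx p h4)).2
        rwa [show phi k c - (t0 - x) = phi k c - t0 + x by ring] at this)
      (fun x hx => by
        rw [s1, s2]; exact (tail_ne (by omega) hrL (hD _ hx) (hG _ hx r h2)).2)
      (fun x hx => by
        have := hSg _ hx
        unfold Sig at this
        rw [show phi k c - (t0 - x) = phi k c - t0 + x by ring] at this
        rw [el]
        refine le_trans (le_of_eq ?_) this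
        congr 2
        ring)
    rw [el] at g1 g2 g3
    refine ⟨t0 - y, t0 - x, by linarith, by linarith, by linarith, ?_⟩
    rw [Set.disjoint_left] at g4 ⊢
    intro z hz hzS
    apply g4 (a := t0 - z) ⟨by linarith [hz.2], by linarith [hz.1]⟩
    show t0 - (t0 - z) ∈ S
    rwa [sub_sub_cancel]

end Vale.Agent.P108.H850
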