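import Vale.Agent.P108.H850.ZoneOrb

/-!
# P108 [ZONE]: the numerical conditions
-/

namespace Vale.Agent.P108.H850

open Real Set
open Vale.Agent.P108 Vale.Agent.P108.H320

/-- the numerical conditions hold with `k = a^200` for large `a`. -/
theorem zn_of_a {a : ℝ} (ha : 10 ^ 10 ≤ a) :
    ZN (a ^ 200) (1 / a ^ 180) (a ^ 4) (2 / a) (10 ^ 5 / a ^ 340) (1 / a) := by
  have ha1 : 1 ≤ a := by linarith
  have ha0 : 0 < a := by linarith
  have hp : ∀ n : ℕ, 1 ≤ n → 10 ^ 10 ≤ a ^ n := by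
    intro n hn
    calc (10 : ℝ) ^ 10 ≤ a := ha
      _ = a ^ 1 := (pow_one a).symm
      _ ≤ a ^ n := pow_le_pow_right₀ ha1 hn
  have hm : ∀ m n : ℕ, m ≤ n → a ^ m ≤ a ^ n := fun m n h => pow_le_pow_right₀ ha1 h
  have hs : Real.sqrt (8 * a ^ 200) ≤ 3 * a ^ 100 := by
    apply Real.sqrt_le_iff.mpr
    refine ⟨by positivity, ?_⟩
    have : (3 * a ^ 100) ^ 2 = 9 * a ^ 200 := by ring
    rw [this]
    have : 0 < a ^ 200 := by positivity
    linarith
  have hs0 : 0 ≤ Real.sqrt (8 * a ^ 200) := Real.sqrt_nonneg _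
  have hπ3 := Real.pi_gt_three
  have hπ4 : π ≤ 3.15 := Real.pi_lt_d2.le
  have hππ : 9 ≤ π * π := by nlinarith
  have hππ4 : π * π ≤ 10 := by nlinarith
  have p156 := hp 156 (by norm_num)
  have p200 := hp 200 (by norm_num)
  refine ⟨?_, ?_, ?_, ?_, ?_, ?_, ?_, ?_, ?_, ?_, ?_, ?_, ?_, ?_, ?_, ?_, ?_, ?_, ?_, ?_, ?_⟩
  · linarith
  · positivity
  · positivity
  · linarith [hp 4 (by norm_num)]
  · -- n2
    have e : (a ^ 4) ^ 4 = a ^ 16 := by ring
    rw [e]
    have := hm 16 200 (by norm_num)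
    nlinarith
  · -- n3
    have e : (a ^ 4) ^ 3 = a ^ 12 := by ring
    rw [e]
    calc 2 * Real.sqrt (8 * a ^ 200) * a ^ 12 ≤ 2 * (3 * a ^ 100) * a ^ 12 := by gcongr
      _ = 6 * a ^ 112 := by ring
      _ ≤ 6 * a ^ 200 := by have := hm 112 200 (by norm_num); linarith
      _ ≤ 2 * π * a ^ 200 := by nlinarith
  · -- n4
    have e : 10 ^ 8 * (a ^ 4 * (40 * a ^ 200 * (1 / a ^ 180) ^ 2)) = 4 * 10 ^ 9 / a ^ 156 := by
      field_simp; norm_num
    rw [e, div_le_one (by positivity)]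
    linarith
  · -- n5
    have e : 10 ^ 8 * (a ^ 4 * (960 * a ^ 200 * (1 / a ^ 180) ^ 2)) = 96 * 10 ^ 9 / a ^ 156 := by
      field_simp; norm_num
    rw [e, div_le_one (by positivity)]
    have h1 : a ^ 156 = a ^ 155 * a := by ring
    have h2 := hp 155 (by norm_num)
    have h3 : (10:ℝ) ^ 10 * 10 ^ 10 ≤ a ^ 155 * a := mul_le_mul h2 ha (by norm_num) (by positivity)
    rw [h1]; linarith
  · -- n6
    have h1 : 960 * a ^ 200 * Real.sqrt (8 * a ^ 200) * (1 / a ^ 180) ^ 2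
        ≤ 960 * a ^ 200 * (3 * a ^ 100) * (1 / a ^ 180) ^ 2 := by gcongr
    have e : 960 * a ^ 200 * (3 * a ^ 100) * (1 / a ^ 180) ^ 2 = 2880 / a ^ 60 := by
      field_simp; norm_num
    rw [e] at h1
    refine h1.trans ?_
    rw [div_le_div_iff₀ (by positivity) (by norm_num)]
    linarith [hp 60 (by norm_num)]
  · -- n7
    have e : 2000 * (2 * π * (2 * π * a ^ 200) * (40 * a ^ 200 * (1 / a ^ 180) ^ 2) ^ 2)
        = 12800000 * (π * π) / a ^ 120 := by
      field_simp; norm_num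
    rw [e, div_le_one (by positivity)]
    linarith [hp 120 (by norm_num)]
  · -- n8
    have e : 10 ^ 8 * (2 / a) = 2 * 10 ^ 8 / a := by ring
    rw [e, div_le_one ha0]; linarith
  · -- n9
    have e : 10 ^ 10 * (2 * π * (2 * π * a ^ 200) * (10 ^ 5 / a ^ 340))
        = 4 * 10 ^ 15 * (π * π) / a ^ 140 := by
      field_simp; norm_num
    rw [e, div_le_one (by positivity)]
    have h1 : a ^ 140 = a ^ 139 * a := by ring
    have h2 := hp 139 (by norm_num)
    have h3 : (10:ℝ) ^ 10 * 10 ^ 10 ≤ a ^ 139 * a := mul_le_mul h2 ha (by norm_num) (by positivity)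
    rw [h1]; linarith
  · -- n10
    have e : 1440 * a ^ 200 * (1 / a ^ 180) ^ 3 * 32 = 46080 / a ^ 340 := by
      field_simp; norm_num
    rw [e]; gcongr; norm_num
  · -- n11
    have h0 : 2 * Real.sqrt (8 * a ^ 200) * (3 * (a ^ 4 / (2 * π * (2 * π * a ^ 200))))
        ≤ 1 / (2 * a ^ 96) := by
      calc 2 * Real.sqrt (8 * a ^ 200) * (3 * (a ^ 4 / (2 * π * (2 * π * a ^ 200))))
          ≤ 2 * (3 * a ^ 100) * (3 * (a ^ 4 / (2 * π * (2 * π * a ^ 200)))) := by gcongr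
        _ = (9 / (π * π)) * (1 / (2 * a ^ 96)) := by field_simp; norm_num
        _ ≤ 1 * (1 / (2 * a ^ 96)) := by
          gcongr; rw [div_le_one (by positivity)]; exact hππ
        _ = 1 / (2 * a ^ 96) := one_mul _
    have h1 : 40 * a ^ 200 * (4 * (1 / a ^ 180)) ^ 2
        * (2 * Real.sqrt (8 * a ^ 200) * (3 * (a ^ 4 / (2 * π * (2 * π * a ^ 200))))) ^ 2
        ≤ 40 * a ^ 200 * (4 * (1 / a ^ 180)) ^ 2 * (1 / (2 * a ^ 96)) ^ 2 := by gcongr
    have e1 : 40 * a ^ 200 * (4 * (1 / a ^ 180)) ^ 2 * (1 / (2 * a ^ 96)) ^ 2 = 160 / a ^ 352 := by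
      field_simp; norm_num
    have e2 : 1440 * a ^ 200 * (4 * (1 / a ^ 180)) ^ 3 = 92160 / a ^ 340 := by
      field_simp; norm_num
    rw [e1] at h1
    rw [e2]
    have h2 : 160 / a ^ 352 ≤ 160 / a ^ 340 := by
      have := hm 340 352 (by norm_num)
      gcongr
    have h3 : 92160 / a ^ 340 + 160 / a ^ 340 = 92320 / a ^ 340 := by ring
    have h4 : 92320 / a ^ 340 ≤ 10 ^ 5 / a ^ 340 := by gcongr; norm_num
    linarith
  · -- n12
    calc 2 * Real.sqrt (8 * a ^ 200) * (3 * (a ^ 4 / (2 * π * (2 * π * a ^ 200))))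
        ≤ 2 * (3 * a ^ 100) * (3 * (a ^ 4 / (2 * π * (2 * π * a ^ 200)))) := by gcongr
      _ = (9 / (π * π)) * (1 / (2 * a ^ 96)) := by field_simp; norm_num
      _ ≤ 1 * 1 := by
        apply mul_le_mul
        · rw [div_le_one (by positivity)]; exact hππ
        · rw [div_le_one (by positivity)]; linarith [hp 96 (by norm_num)]
        · positivity
        · norm_num
      _ = 1 := by norm_num
  · -- n13
    have h1 : 640 * a ^ 200 * (3 * Real.sqrt (8 * a ^ 200)) * (1 / a ^ 180) ^ 2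
        ≤ 640 * a ^ 200 * (3 * (3 * a ^ 100)) * (1 / a ^ 180) ^ 2 := by gcongr
    have e : 640 * a ^ 200 * (3 * (3 * a ^ 100)) * (1 / a ^ 180) ^ 2 = 5760 / a ^ 60 := by
      field_simp; norm_num
    rw [e] at h1
    refine h1.trans ?_
    rw [div_le_one (by positivity)]
    linarith [hp 60 (by norm_num)]
  · -- n13'
    have e : 640 * a ^ 200 * (4 * (1 / a ^ 180)) ^ 2 = 10240 / a ^ 160 := by
      field_simp; norm_num
    rw [e, div_le_one (by positivity)]
    linarith [hp 160 (by norm_num)]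
  · -- n14
    have h1 : 10 ^ 7 * (a ^ 200) ^ 3 * (1 / a ^ 180) ^ 5 * (27 * (1 + Real.sqrt (8 * a ^ 200)))
        ≤ 10 ^ 7 * (a ^ 200) ^ 3 * (1 / a ^ 180) ^ 5 * (27 * (a ^ 100 + 3 * a ^ 100)) := by
      gcongr
      linarith [hp 100 (by norm_num)]
    have e : 10 ^ 7 * (a ^ 200) ^ 3 * (1 / a ^ 180) ^ 5 * (27 * (a ^ 100 + 3 * a ^ 100))
        = 108 * 10 ^ 7 / a ^ 200 := by
      field_simp; norm_num
    rw [e] at h1
    refine h1.trans ?_
    have e2 : 2 / a / (a ^ 4) ^ 2 = 2 / a ^ 9 := by field_simp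
    rw [e2, div_le_div_iff₀ (by positivity) (by positivity)]
    have h2 : a ^ 200 = a ^ 191 * a ^ 9 := by ring
    have h3 := hp 191 (by norm_num)
    rw [h2]
    have h4 : 0 < a ^ 9 := by positivity
    nlinarith
  · -- n15
    have e : 3 * (960 * a ^ 200 * (1 / a ^ 180) ^ 2) = 2880 / a ^ 160 := by
      field_simp; norm_num
    have e2 : 2 / a / a ^ 4 = 2 / a ^ 5 := by field_simp
    rw [e, e2, div_le_div_iff₀ (by positivity) (by positivity)]
    have h2 : a ^ 160 = a ^ 155 * a ^ 5 := by ring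
    have h3 := hp 155 (by norm_num)
    rw [h2]
    have h4 : 0 < a ^ 5 := by positivity
    nlinarith
  · -- n16
    have e : 2 / a = 1 / a + 1 / a := by ring
    rw [e]
    have h1 : 4 * (1 / a ^ 180) ≤ 1 / a := by
      rw [show 4 * (1 / a ^ 180) = 4 / a ^ 180 by ring, div_le_div_iff₀ (by positivity) ha0]
      have h2 : a ^ 180 = a ^ 179 * a := by ring
      have h3 := hp 179 (by norm_num)
      rw [h2]
      nlinarith
    linarith
  · -- n18
    refine ⟨?_, ?_⟩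
    · have e : 640 * a ^ 200 * (1 / a ^ 180) ^ 2 = 640 / a ^ 160 := by
        field_simp
      rw [e, div_le_one (by positivity)]
      linarith [hp 160 (by norm_num)]
    · have e : 8 * (8 * a ^ 200) ^ 4 * (1 / a ^ 180) ^ 5 = 32768 / a ^ 100 := by
        field_simp; norm_num
      rw [e, div_le_one (by positivity)]
      linarith [hp 100 (by norm_num)]

end Vale.Agent.P108.H850
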