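import Vale.Agent.P108.H850.ZoneAbs
import Vale.Agent.P108.H320.Recenter
import Vale.Agent.P108.H442.Match
import Vale.Agent.P108.H442.Reflect

/-!
# P108 [ZONE]: the hole around a matched pair of levels
-/

namespace Vale.Agent.P108.H850

open Real Set
open Vale.Agent.P108 Vale.Agent.P108.Dyn Vale.Agent.P108.H504 Vale.Agent.P108.H786
  Vale.Agent.P108.Area Vale.Agent.P108.H320

/-- the orbit with `x_0 = c`, `x_1 = s` -/
noncomputable def fam (k c s : ℝ) : ℤ → ℝ := fun j => orb k (pt k 1 (c, s)) j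

theorem fam_zero (k c s : ℝ) : fam k c s 0 = c := by
  have := orb_pt_pred k 1 (c, s); simpa [fam] using this

theorem fam_one (k c s : ℝ) : fam k c s 1 = s := orb_pt_self k 1 (c, s)

theorem av_fam (k c s : ℝ) : av k (fam k c s) = ao k (pt k 1 (c, s)) := rfl

/-- rate -/
noncomputable def rate (k c s : ℝ) (q : ℤ) : ℝ := D (ao k (pt k 1 (c, s))) 1 q

theorem near_fam {k ω h c s s' : ℝ} {q : ℤ} (h1 : 1 ≤ h) (hh : 640 * k * h * ω ^ 2 ≤ 1)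
    (hd : |rate k c s q * (s' - s)| ≤ h) :
    Near k ω h 1 q (fam k c s) (fam k c s') where
  h1 := h1
  hh := hh
  orb := fun j _ _ => orb_succ k _ j
  left := by rw [sub_self, fam_zero, fam_zero]
  disp := by
    rw [fam_one, fam_one]
    exact hd

/-- one-sided data at a level, in the parameter `u = rate * (s - s0)` -/
theorem aF_eq (k x : ℝ) : aF (2 * π * k) x = FT.a k x := rfl

/-- the weight `(P/P(u))²` -/
theorem ratio_sq {P P' δ : ℝ} (hP : P ≠ 0) (hδ : δ ≤ 1 / 10) (h : |P' - P| ≤ δ * |P|) :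
    |(P / P') ^ 2 - 1| ≤ 3 * δ ∧ P' ≠ 0 := by
  have hPp : 0 < |P| := abs_pos.mpr hP
  have hδ0 : 0 ≤ δ := by
    by_contra hc
    push Not at hc
    have := abs_nonneg (P' - P)
    nlinarith
  obtain ⟨x, hx⟩ : ∃ x, x = P' / P - 1 := ⟨_, rfl⟩
  have hP' : P' = P * (1 + x) := by rw [hx]; field_simp; ring
  have hx1 : |x| ≤ δ := by
    have e : x = (P' - P) / P := by rw [hx]; field_simp
    rw [e, abs_div, div_le_iff₀ hPp]; exact h
  have hx2 := abs_le.mp hx1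
  have h1 : 0 < 1 + x := by linarith [hx2.1]
  have hne : P' ≠ 0 := by rw [hP']; exact mul_ne_zero hP h1.ne'
  refine ⟨?_, hne⟩
  have e2 : (P / P') ^ 2 - 1 = -(x * (2 + x)) / (1 + x) ^ 2 := by
    rw [hP']; field_simp; ring
  rw [e2, abs_div, abs_neg, abs_mul, abs_of_pos (by positivity : 0 < (1 + x) ^ 2),
    div_le_iff₀ (by positivity)]
  have h3 : |2 + x| ≤ 2.1 := by rw [abs_le]; constructor <;> linarith [hx2.1, hx2.2]
  have h4 : 0.81 ≤ (1 + x) ^ 2 := by nlinarith [hx2.1]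
  calc |x| * |2 + x| ≤ δ * 2.1 := by gcongr
    _ ≤ 3 * δ * 0.81 := by nlinarith
    _ ≤ 3 * δ * (1 + x) ^ 2 := by gcongr

section Side

variable {k ω c s0 : ℝ} {q : ℤ}

/-- digit expansion at the reference point -/
theorem side_digit (B : Base k ω 1 q (fam k c s0)) (hw : 640 * k * ω ^ 2 ≤ 1) :
    ∃ α : ℝ, |α| ≤ 40 * k * ω ^ 2 ∧ ∀ (H s : ℝ), 1 ≤ H → 640 * k * H * ω ^ 2 ≤ 1 →
      |rate k c s0 q * (s - s0)| ≤ H →
      |fam k c s (q + 1) - (fam k c s0 (q + 1) + rate k c s0 q * (s - s0)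
        + α * (rate k c s0 q * (s - s0)) ^ 2)| ≤ 1440 * k * ω ^ 3 * H ^ 3 := by
  obtain ⟨α, h1, h2⟩ := digit B hw
  refine ⟨α, h1, fun H s hH hH2 hd => ?_⟩
  have h3 := h2 H (fam k c s) (near_fam hH hH2 hd)
  rw [fam_one, fam_one] at h3
  exact h3

/-- smooth part -/
theorem side_smooth (B : Base k ω 1 q (fam k c s0)) (hS : Sm k ω) :
    ∃ C0 C1 C2 : ℝ, ∀ (H s : ℝ), 1 ≤ H → 640 * k * H * ω ^ 2 ≤ 1 →
      |rate k c s0 q * (s - s0)| ≤ H →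
      |rate k c s0 q ^ 2 * (D (ao k (pt k 1 (c, s))) 2 q / rate k c s q) -
        (C0 + C1 * (rate k c s0 q * (s - s0)) + C2 * (rate k c s0 q * (s - s0)) ^ 2)|
        ≤ 10 ^ 7 * k ^ 3 * ω ^ 5 * H ^ 3 := by
  obtain ⟨C0, C1, C2, h2⟩ := smooth B hS
  refine ⟨C0, C1, C2, fun H s hH hH2 hd => ?_⟩
  have h3 := h2 H (fam k c s) (near_fam hH hH2 hd)
  rw [fam_one, fam_one] at h3
  exact h3

/-- rates in the tube -/
theorem side_rate (B : Base k ω 1 q (fam k c s0)) {H s : ℝ} (hH : 1 ≤ H)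
    (hH2 : 640 * k * H * ω ^ 2 ≤ 1) (hd : |rate k c s0 q * (s - s0)| ≤ H) :
    |rate k c s q - rate k c s0 q| ≤ 320 * k * H * ω ^ 2 * |rate k c s0 q| ∧
    Base k (4 * ω) 1 q (fam k c s) :=
  ⟨tube_D_top B (near_fam hH hH2 hd), Near.base B (near_fam hH hH2 hd)⟩

/-- inner ratio -/
theorem side_rho {s : ℝ} (B : Base k (4 * ω) 1 q (fam k c s)) :
    |D (ao k (pt k 1 (c, s))) 1 (q - 1) / D (ao k (pt k 1 (c, s))) 1 q| ≤ 4 * ω := by
  have h1 := B.gr q B.hpq (by omega)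
  have e : q + 1 - q = 1 := by ring
  rw [e, zpow_one] at h1
  have h2 : 0 < |D (ao k (pt k 1 (c, s))) 1 q| := abs_pos.mpr B.ne
  rw [abs_div, div_le_iff₀ h2]
  exact h1

/-- digit expansion, recentred, first order -/
theorem side_recentre {s1 s2 δ : ℝ} (B1 : Base k (4 * ω) 1 q (fam k c s1))
    (hw : 640 * k * (4 * ω) ^ 2 ≤ 1) (hδ1 : δ ≤ 1)
    (hd : |rate k c s1 q * (s2 - s1)| ≤ δ) :
    |fam k c s2 (q + 1) - (fam k c s1 (q + 1) + rate k c s1 q * (s2 - s1))|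
      ≤ 1440 * k * (4 * ω) ^ 3 + 40 * k * (4 * ω) ^ 2 * δ ^ 2 := by
  obtain ⟨α, h1, h2⟩ := side_digit B1 hw
  have h3 := h2 1 s2 le_rfl (by linarith) (hd.trans hδ1)
  obtain ⟨x, hx⟩ : ∃ x, x = rate k c s1 q * (s2 - s1) := ⟨_, rfl⟩
  rw [← hx] at h3 hd ⊢
  have hδ0 : 0 ≤ δ := le_trans (abs_nonneg _) hd
  have h4 : |α * x ^ 2| ≤ 40 * k * (4 * ω) ^ 2 * δ ^ 2 := by
    rw [abs_mul, abs_pow]
    have h5 : |x| ^ 2 ≤ δ ^ 2 := pow_le_pow_left₀ (abs_nonneg _) hd 2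
    have h6 : 0 ≤ 40 * k * (4 * ω) ^ 2 := le_trans (abs_nonneg _) h1
    exact mul_le_mul h1 h5 (by positivity) h6
  have e : fam k c s2 (q + 1) - (fam k c s1 (q + 1) + x)
      = (fam k c s2 (q + 1) - (fam k c s1 (q + 1) + x + α * x ^ 2)) + α * x ^ 2 := by ring
  rw [e]
  refine (abs_add_le _ _).trans ?_
  rw [one_pow, mul_one] at h3
  linarith

/-- continued fraction at the level -/
theorem side_cf {s : ℝ} {E : ℤ} (hq : 1 ≤ q) (hE : q + 1 ≤ E)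
    (h0 : rate k c s q ≠ 0) (h1 : D (ao k (pt k 1 (c, s))) 1 E ≠ 0)
    (h2 : D (ao k (pt k 1 (c, s))) (q + 2) E ≠ 0) :
    D (ao k (pt k 1 (c, s))) 2 E / D (ao k (pt k 1 (c, s))) 1 E
      = D (ao k (pt k 1 (c, s))) 2 q / rate k c s q
        + 1 / (rate k c s q ^ 2 * (FT.a k (fam k c s (q + 1))
          - (D (ao k (pt k 1 (c, s))) 1 (q - 1) / D (ao k (pt k 1 (c, s))) 1 q
          + D (ao k (pt k 1 (c, s))) (q + 3) E / D (ao k (pt k 1 (c, s))) (q + 2) E))) := by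
  have := cf_exact (ao k (pt k 1 (c, s))) hq hE h0 h1 h2
  rw [show (1:ℤ) + 1 = 2 by norm_num] at this
  rw [this]
  unfold rate
  congr 3
  rw [show ao k (pt k 1 (c, s)) (q + 1) = FT.a k (fam k c s (q + 1)) from rfl]
  ring

end Side

/-- the numerical conditions (`ω = k^(-9/10)`, `L = k^(1/50)`, `μ = 2 k^(-1/200)`). -/
structure ZN (k ω L μ ε τ : ℝ) : Prop where
  hk : 3 ≤ k
  hω : 0 < ω
  hμ0 : 0 < μ
  n1 : 1000 ≤ L
  n2 : L ^ 4 ≤ 2 * π * k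
  n3 : 2 * Real.sqrt (8 * k) * L ^ 3 ≤ 2 * π * k
  n4 : 10 ^ 8 * (L * (40 * k * ω ^ 2)) ≤ 1
  n5 : 10 ^ 8 * (L * (960 * k * ω ^ 2)) ≤ 1
  n6 : 960 * k * Real.sqrt (8 * k) * ω ^ 2 ≤ 1 / 2000
  n7 : 2000 * (2 * π * (2 * π * k) * (40 * k * ω ^ 2) ^ 2) ≤ 1
  n8 : 10 ^ 8 * μ ≤ 1
  n9 : 10 ^ 10 * (2 * π * (2 * π * k) * ε) ≤ 1
  n10 : 1440 * k * ω ^ 3 * 32 ≤ ε
  n11 : 1440 * k * (4 * ω) ^ 3
    + 40 * k * (4 * ω) ^ 2 * (2 * Real.sqrt (8 * k) * (3 * (L / (2 * π * (2 * π * k))))) ^ 2 ≤ ε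
  n12 : 2 * Real.sqrt (8 * k) * (3 * (L / (2 * π * (2 * π * k)))) ≤ 1
  n13 : 640 * k * (3 * Real.sqrt (8 * k)) * ω ^ 2 ≤ 1
  n13' : 640 * k * (4 * ω) ^ 2 ≤ 1
  n14 : 10 ^ 7 * k ^ 3 * ω ^ 5 * (27 * (1 + Real.sqrt (8 * k))) ≤ μ / L ^ 2
  n15 : 3 * (960 * k * ω ^ 2) ≤ μ / L
  n16 : 4 * ω + τ ≤ μ
  n18 : Sm k ω

theorem back {P a b ℓ : ℝ} {S : Set ℝ} (hP : P ≠ 0) (h0 : 0 ≤ a) (h3 : b ≤ 3)
    (hab : ℓ ≤ b - a) (hd : Disjoint (Icc a b) {u | u / P ∈ S}) :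
    ∃ a' b', -(3 / |P|) ≤ a' ∧ b' ≤ 3 / |P| ∧ ℓ / |P| ≤ b' - a' ∧ Disjoint (Ioo a' b') S := by
  rw [Set.disjoint_left] at hd
  rcases lt_or_gt_of_ne hP with h | h
  · rw [abs_of_neg h]
    have hp : 0 < -P := by linarith
    refine ⟨-(b / (-P)), -(a / (-P)), ?_, ?_, ?_, ?_⟩
    · have : b / (-P) ≤ 3 / (-P) := by gcongr
      linarith
    · have h1 : 0 ≤ a / (-P) := by positivity
      have h2 : 0 ≤ 3 / (-P) := by positivity
      linarith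
    · have e : -(a / (-P)) - -(b / (-P)) = (b - a) / (-P) := by ring
      rw [e]; gcongr
    · rw [Set.disjoint_left]
      intro x hx hxS
      have h1 : x * P ∈ Icc a b := by
        constructor
        · have h2 : a / (-P) ≤ -x := by linarith [hx.2]
          rw [div_le_iff₀ hp] at h2; linarith
        · have h2 : -x ≤ b / (-P) := by linarith [hx.1]
          rw [le_div_iff₀ hp] at h2; linarith
      apply hd h1
      show x * P / P ∈ S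
      rwa [mul_div_cancel_right₀ _ hP]
  · rw [abs_of_pos h]
    refine ⟨a / P, b / P, ?_, ?_, ?_, ?_⟩
    · have h1 : 0 ≤ a / P := by positivity
      have h2 : 0 ≤ 3 / P := by positivity
      linarith
    · gcongr
    · rw [← sub_div]; gcongr
    · rw [Set.disjoint_left]
      intro x hx hxS
      have h1 : x * P ∈ Icc a b := by
        constructor
        · have h2 := hx.1.le
          rwa [div_le_iff₀ h] at h2
        · have h2 := hx.2.le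
          rwa [le_div_iff₀ h] at h2
      apply hd h1
      show x * P / P ∈ S
      rwa [mul_div_cancel_right₀ _ hP]

/-- consequences of the numerical conditions for a ratio `1 ≤ |q| ≤ √(8k)` -/
theorem ZN.q_facts {k ω L μ ε τ q : ℝ} (N : ZN k ω L μ ε τ) (hq1 : 1 ≤ |q|)
    (hq2 : |q| ≤ Real.sqrt (8 * k)) :
    2 * |q| * L ^ 3 ≤ 2 * π * k ∧ 10 ^ 8 * (L * (960 * k * |q| * ω ^ 2)) ≤ q ^ 2 ∧
    960 * k * |q| * ω ^ 2 ≤ 1 / 2000 ∧ 640 * k * (3 * |q|) * ω ^ 2 ≤ 1 ∧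
    10 ^ 7 * k ^ 3 * ω ^ 5 * (27 * (1 + |q|)) ≤ μ / L ^ 2 ∧
    3 * (960 * k * |q| * ω ^ 2) ≤ q ^ 2 * (μ / L) := by
  have hk := N.hk
  have hω := N.hω
  have hL : 0 < L := by linarith [N.n1]
  have hμ := N.hμ0
  have hsq : |q| ≤ q ^ 2 := by rw [← sq_abs]; nlinarith
  refine ⟨?_, ?_, ?_, ?_, ?_, ?_⟩
  · refine le_trans ?_ N.n3
    gcongr
  · have e1 : 10 ^ 8 * (L * (960 * k * |q| * ω ^ 2)) = |q| * (10 ^ 8 * (L * (960 * k * ω ^ 2))) := by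
      ring
    rw [e1]
    calc |q| * (10 ^ 8 * (L * (960 * k * ω ^ 2))) ≤ |q| * 1 := mul_le_mul_of_nonneg_left N.n5 (abs_nonneg _)
      _ ≤ q ^ 2 := by linarith
  · refine le_trans ?_ N.n6
    gcongr
  · refine le_trans ?_ N.n13
    gcongr
  · refine le_trans ?_ N.n14
    gcongr
  · calc 3 * (960 * k * |q| * ω ^ 2) = |q| * (3 * (960 * k * ω ^ 2)) := by ring
      _ ≤ |q| * (μ / L) := mul_le_mul_of_nonneg_left N.n15 (abs_nonneg _)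
      _ ≤ q ^ 2 * (μ / L) := by gcongr

/-- the algebra of the final expansion -/
theorem final_alg {Pm Pp q a0 X Y R R' A A' T T' W B : ℝ} (hqs : 1 / q ^ 2 * Pp ^ 2 = Pm ^ 2)
    (hT : T = X + 1 / (R ^ 2 * A)) (hT' : T' = Y + 1 / (R' ^ 2 * A'))
    (hW : |a0 - T - T'| * |Pm| ^ 2 ≤ B)
    (hWe : W = (-(Pm ^ 2 * a0) + Pm ^ 2 * X + Pm ^ 2 * Y)
      + ((Pm / R) ^ 2 / A + 1 / q ^ 2 * ((Pp / R') ^ 2 / A'))) : |W| ≤ B := by
  have e1 : W = -((a0 - T - T') * Pm ^ 2) := by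
    have e2 : (Pm / R) ^ 2 / A = Pm ^ 2 * (1 / (R ^ 2 * A)) := by
      rw [div_pow, div_div, mul_one_div]
    have e3 : 1 / q ^ 2 * ((Pp / R') ^ 2 / A') = Pm ^ 2 * (1 / (R' ^ 2 * A')) := by
      rw [← hqs, div_pow, div_div]; ring
    rw [hWe, e2, e3, hT, hT']; ring
  rw [e1, abs_neg, abs_mul, abs_pow]
  exact hW

/-- **ZONE, core.**  `sm` : parameter of the side with the slower digit (level `qm`, digit at the
site `qm + 1`), `sp` : parameter of the other side.  `S` is a set of displacements. -/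
theorem zone_core {k ω L μ ε τ c sm sp : ℝ} {qm qp Em Ep : ℤ} (N : ZN k ω L μ ε τ)
    (Bm : Base k ω 1 qm (fam k c sm)) (Bp : Base k ω 1 qp (fam k c sp))
    (hEm : qm + 1 ≤ Em) (hEp : qp + 1 ≤ Ep)
    (hle : |rate k c sm qm| ≤ |rate k c sp qp|)
    (hle2 : |rate k c sp qp| ≤ Real.sqrt (8 * k) * |rate k c sm qm|) {S : Set ℝ}
    (hD : ∀ x ∈ S, D (ao k (pt k 1 (c, sm + x))) 1 Em ≠ 0)
    (hD' : ∀ x ∈ S, D (ao k (pt k 1 (c, sp - x))) 1 Ep ≠ 0)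
    (hD2 : ∀ x ∈ S, D (ao k (pt k 1 (c, sm + x))) (qm + 2) Em ≠ 0)
    (hD2' : ∀ x ∈ S, D (ao k (pt k 1 (c, sp - x))) (qp + 2) Ep ≠ 0)
    (hτ : ∀ x ∈ S, |D (ao k (pt k 1 (c, sm + x))) (qm + 3) Em
      / D (ao k (pt k 1 (c, sm + x))) (qm + 2) Em| ≤ τ)
    (hτ' : ∀ x ∈ S, |D (ao k (pt k 1 (c, sp - x))) (qp + 3) Ep
      / D (ao k (pt k 1 (c, sp - x))) (qp + 2) Ep| ≤ τ)
    (hSg : ∀ x ∈ S, |FT.a k c - D (ao k (pt k 1 (c, sm + x))) 2 Em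
        / D (ao k (pt k 1 (c, sm + x))) 1 Em
      - D (ao k (pt k 1 (c, sp - x))) 2 Ep / D (ao k (pt k 1 (c, sp - x))) 1 Ep|
      * |rate k c sm qm| ^ 2 ≤ μ / L ^ 2) :
    ∃ a b, -(3 / |rate k c sm qm|) ≤ a ∧ b ≤ 3 / |rate k c sm qm| ∧
      (L / (2 * π * (2 * π * k))) / 90 * (3 / |rate k c sm qm|) ≤ b - a ∧
      Disjoint (Ioo a b) S := by
  have hk := N.hk
  have hω := N.hω
  have hL0 : 0 < L := by linarith [N.n1]
  have hw : 640 * k * ω ^ 2 ≤ 1 := N.n18.c1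
  obtain ⟨Pm, hPm⟩ : ∃ Pm, Pm = rate k c sm qm := ⟨_, rfl⟩
  obtain ⟨Pp, hPp⟩ : ∃ Pp, Pp = rate k c sp qp := ⟨_, rfl⟩
  have hPm0 : Pm ≠ 0 := by rw [hPm]; exact Bm.ne
  have hPp0 : Pp ≠ 0 := by rw [hPp]; exact Bp.ne
  rw [← hPm, ← hPp] at hle hle2
  rw [← hPm] at hSg ⊢
  have hPma : 0 < |Pm| := abs_pos.mpr hPm0
  obtain ⟨q, hq⟩ : ∃ q, q = -(Pp / Pm) := ⟨_, rfl⟩
  have hqa : |q| = |Pp| / |Pm| := by rw [hq, abs_neg, abs_div]
  have hq1 : 1 ≤ |q| := by rw [hqa, le_div_iff₀ hPma]; linarith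
  have hq2 : |q| ≤ Real.sqrt (8 * k) := by rw [hqa, div_le_iff₀ hPma]; exact hle2
  have hq0 : q ≠ 0 := by rintro rfl; norm_num at hq1
  have hqq : Pp = -(q * Pm) := by rw [hq]; field_simp
  have hqs : 1 / q ^ 2 * Pp ^ 2 = Pm ^ 2 := by rw [hqq]; field_simp
  obtain ⟨f1, f2, f3, f4, f5, f6⟩ := N.q_facts hq1 hq2
  have hH3 : 640 * k * 3 * ω ^ 2 ≤ 1 := by
    refine le_trans ?_ f4
    have : 640 * k * (3 * 1) * ω ^ 2 ≤ 640 * k * (3 * |q|) * ω ^ 2 := by gcongr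
    linarith
  have hHq : 1 ≤ 3 * |q| := by linarith
  -- data of the two sides
  obtain ⟨α, hα, hdm⟩ := side_digit Bm hw
  obtain ⟨α', hα', hdp⟩ := side_digit Bp hw
  obtain ⟨m0, m1, m2, hsm⟩ := side_smooth Bm N.n18
  obtain ⟨p0, p1, p2, hsp⟩ := side_smooth Bp N.n18
  rw [← hPm] at hdm hsm
  rw [← hPp] at hdp hsp
  -- displacements
  have hum : ∀ u, Pm * (sm + u / Pm - sm) = u := by intro u; field_simp; ring
  have hup : ∀ u, Pp * (sp - u / Pm - sp) = q * u := by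
    intro u; rw [hqq]; field_simp; ring
  have hdispm : ∀ u, 0 ≤ u → u ≤ 3 → |Pm * (sm + u / Pm - sm)| ≤ 3 := by
    intro u h0 h3
    rw [hum, abs_of_nonneg h0]; exact h3
  have hdispp : ∀ u, 0 ≤ u → u ≤ 3 → |Pp * (sp - u / Pm - sp)| ≤ 3 * |q| := by
    intro u h0 h3
    rw [hup, abs_mul, abs_of_nonneg h0]
    nlinarith [abs_nonneg q]
  have hBm : ∀ u, 0 ≤ u → u ≤ 3 → |rate k c (sm + u / Pm) qm - Pm| ≤ 320 * k * 3 * ω ^ 2 * |Pm| ∧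
      Base k (4 * ω) 1 qm (fam k c (sm + u / Pm)) := by
    intro u h0 h3
    rw [hPm]
    exact side_rate Bm (by norm_num) hH3 (by rw [← hPm]; exact hdispm u h0 h3)
  have hBp : ∀ u, 0 ≤ u → u ≤ 3 →
      |rate k c (sp - u / Pm) qp - Pp| ≤ 320 * k * (3 * |q|) * ω ^ 2 * |Pp| ∧
      Base k (4 * ω) 1 qp (fam k c (sp - u / Pm)) := by
    intro u h0 h3
    rw [hPp]
    exact side_rate Bp hHq f4 (by rw [← hPp]; exact hdispp u h0 h3)
  -- hypotheses of `zone_abs`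
  have hXm : ∀ u, 0 ≤ u → u ≤ 3 → |fam k c (sm + u / Pm) (qm + 1)
      - (fam k c sm (qm + 1) + u + α * u ^ 2)| ≤ ε := by
    intro u h0 h3
    have h := hdm 3 (sm + u / Pm) (by norm_num) hH3 (hdispm u h0 h3)
    rw [hum] at h
    refine h.trans (le_trans ?_ N.n10)
    have : 0 ≤ k * ω ^ 3 := by positivity
    linarith
  have hQeq : ∀ u v, rate k c (sp - v / Pm) qp * (sp - u / Pm - (sp - v / Pm))
      = -(rate k c (sp - v / Pm) qp) / Pm * (u - v) := by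
    intro u v; field_simp; ring
  have hrate2 : ∀ v, 0 ≤ v → v ≤ 3 → |rate k c (sp - v / Pm) qp| ≤ 2 * |Pp| := by
    intro v h0 h3
    have h1 := (hBp v h0 h3).1
    have h2 : 320 * k * (3 * |q|) * ω ^ 2 * |Pp| ≤ 1 * |Pp| := by
      gcongr; linarith
    have h4 := abs_sub_abs_le_abs_sub (rate k c (sp - v / Pm) qp) Pp
    linarith
  have hXp : ∀ v u, 0 ≤ v → v ≤ 3 → 0 ≤ u → u ≤ 3 →
      |u - v| ≤ 3 * (L / (2 * π * (2 * π * k))) →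
      |fam k c (sp - u / Pm) (qp + 1) - (fam k c (sp - v / Pm) (qp + 1)
        + -(rate k c (sp - v / Pm) qp) / Pm * (u - v))| ≤ ε := by
    intro v u v0 v3 u0 u3 huv
    have h1 := (hBp v v0 v3).2
    have h2 : |rate k c (sp - v / Pm) qp * (sp - u / Pm - (sp - v / Pm))|
        ≤ 2 * Real.sqrt (8 * k) * (3 * (L / (2 * π * (2 * π * k)))) := by
      rw [hQeq, abs_mul, abs_div, abs_neg]
      have h3 : |rate k c (sp - v / Pm) qp| / |Pm| ≤ 2 * Real.sqrt (8 * k) := by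
        rw [div_le_iff₀ hPma]
        have := hrate2 v v0 v3
        linarith
      exact mul_le_mul h3 huv (abs_nonneg _) (by positivity)
    have h3 := side_recentre h1 N.n13' N.n12 h2
    rw [hQeq] at h3
    exact h3.trans N.n11
  have hQp : ∀ v, 0 ≤ v → v ≤ 3 →
      |-(rate k c (sp - v / Pm) qp) / Pm - q| ≤ 960 * k * |q| * ω ^ 2 * |q| := by
    intro v h0 h3
    have h1 := (hBp v h0 h3).1
    have e1 : -(rate k c (sp - v / Pm) qp) / Pm - q = -((rate k c (sp - v / Pm) qp - Pp) / Pm) := by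
      rw [hq]; ring
    rw [e1, abs_neg, abs_div, div_le_iff₀ hPma]
    have h2 : |q| * |Pm| = |Pp| := by rw [hqa]; field_simp
    calc |rate k c (sp - v / Pm) qp - Pp| ≤ 320 * k * (3 * |q|) * ω ^ 2 * |Pp| := h1
      _ = 960 * k * |q| * ω ^ 2 * |q| * |Pm| := by rw [← h2]; ring
  have hXq : |q| < 1.05 → |α' * q ^ 2| ≤ q ^ 2 * (40 * k * ω ^ 2) ∧ ∀ v, 0 ≤ v → v ≤ 3 →
      |fam k c (sp - v / Pm) (qp + 1) - (fam k c sp (qp + 1) + q * v + α' * q ^ 2 * v ^ 2)|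
        ≤ ε := by
    intro hq5
    constructor
    · rw [abs_mul, abs_of_nonneg (sq_nonneg q)]
      calc |α'| * q ^ 2 ≤ 40 * k * ω ^ 2 * q ^ 2 := by gcongr
        _ = q ^ 2 * (40 * k * ω ^ 2) := by ring
    · intro v h0 h3
      have h := hdp (3 * |q|) (sp - v / Pm) hHq f4 (hdispp v h0 h3)
      rw [hup] at h
      have e1 : fam k c sp (qp + 1) + q * v + α' * (q * v) ^ 2
          = fam k c sp (qp + 1) + q * v + α' * q ^ 2 * v ^ 2 := by ring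
      rw [e1] at h
      refine h.trans (le_trans ?_ N.n10)
      have h5 : (3 * |q|) ^ 3 ≤ (3 * 1.05) ^ 3 := by gcongr
      have h6 : (3 * 1.05 : ℝ) ^ 3 ≤ 32 := by norm_num
      have h7 : (3 * |q|) ^ 3 ≤ 32 := h5.trans h6
      gcongr
  have hgm : ∀ u ∈ {u | u / Pm ∈ S}, 0 ≤ u → u ≤ 3 →
      |(Pm / rate k c (sm + u / Pm) qm) ^ 2 - 1| ≤ μ / L := by
    intro u _ h0 h3
    have h1 := (hBm u h0 h3).1
    have h2 : 320 * k * 3 * ω ^ 2 ≤ 1 / 10 := by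
      have : 960 * k * 1 * ω ^ 2 ≤ 960 * k * |q| * ω ^ 2 := by gcongr
      linarith
    refine (ratio_sq hPm0 h2 h1).1.trans (le_trans ?_ N.n15)
    linarith
  have hgp : ∀ u ∈ {u | u / Pm ∈ S}, 0 ≤ u → u ≤ 3 →
      |(Pp / rate k c (sp - u / Pm) qp) ^ 2 - 1| ≤ q ^ 2 * (μ / L) := by
    intro u _ h0 h3
    have h1 := (hBp u h0 h3).1
    have h2 : 320 * k * (3 * |q|) * ω ^ 2 ≤ 1 / 10 := by linarith
    refine (ratio_sq hPp0 h2 h1).1.trans (le_trans ?_ f6)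
    linarith
  have hem : ∀ u ∈ {u | u / Pm ∈ S}, 0 ≤ u → u ≤ 3 →
      |D (ao k (pt k 1 (c, sm + u / Pm))) 1 (qm - 1) / D (ao k (pt k 1 (c, sm + u / Pm))) 1 qm
        + D (ao k (pt k 1 (c, sm + u / Pm))) (qm + 3) Em
          / D (ao k (pt k 1 (c, sm + u / Pm))) (qm + 2) Em| ≤ μ := by
    intro u hu h0 h3
    refine (abs_add_le _ _).trans (le_trans (add_le_add ?_ (hτ _ hu)) N.n16)
    exact side_rho (hBm u h0 h3).2
  have hep : ∀ u ∈ {u | u / Pm ∈ S}, 0 ≤ u → u ≤ 3 →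
      |D (ao k (pt k 1 (c, sp - u / Pm))) 1 (qp - 1) / D (ao k (pt k 1 (c, sp - u / Pm))) 1 qp
        + D (ao k (pt k 1 (c, sp - u / Pm))) (qp + 3) Ep
          / D (ao k (pt k 1 (c, sp - u / Pm))) (qp + 2) Ep| ≤ μ := by
    intro u hu h0 h3
    refine (abs_add_le _ _).trans (le_trans (add_le_add ?_ (hτ' _ hu)) N.n16)
    exact side_rho (hBp u h0 h3).2
  have hU : ∀ u ∈ {u | u / Pm ∈ S}, 0 ≤ u → u ≤ 3 →
      |(-(Pm ^ 2 * FT.a k c) + Pm ^ 2 * (D (ao k (pt k 1 (c, sm + u / Pm))) 2 qm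
          / rate k c (sm + u / Pm) qm) + Pm ^ 2 * (D (ao k (pt k 1 (c, sp - u / Pm))) 2 qp
          / rate k c (sp - u / Pm) qp))
        - ((-(Pm ^ 2 * FT.a k c) + m0 + 1 / q ^ 2 * p0) + (m1 + 1 / q ^ 2 * (p1 * q)) * u
          + (m2 + 1 / q ^ 2 * (p2 * q ^ 2)) * u ^ 2)| ≤ μ / L ^ 2 := by
    intro u _ h0 h3
    have a1 := hsm 3 (sm + u / Pm) (by norm_num) hH3 (hdispm u h0 h3)
    have a2 := hsp (3 * |q|) (sp - u / Pm) hHq f4 (hdispp u h0 h3)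
    rw [hum] at a1
    rw [hup] at a2
    obtain ⟨X, hX⟩ : ∃ X, X = D (ao k (pt k 1 (c, sm + u / Pm))) 2 qm
          / rate k c (sm + u / Pm) qm := ⟨_, rfl⟩
    obtain ⟨Y, hY⟩ : ∃ Y, Y = D (ao k (pt k 1 (c, sp - u / Pm))) 2 qp
          / rate k c (sp - u / Pm) qp := ⟨_, rfl⟩
    rw [← hX] at a1 ⊢
    rw [← hY] at a2 ⊢
    rw [← hqs]
    have e1 : (-(1 / q ^ 2 * Pp ^ 2 * FT.a k c) + 1 / q ^ 2 * Pp ^ 2 * X + 1 / q ^ 2 * Pp ^ 2 * Y)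
        - ((-(1 / q ^ 2 * Pp ^ 2 * FT.a k c) + m0 + 1 / q ^ 2 * p0)
          + (m1 + 1 / q ^ 2 * (p1 * q)) * u
          + (m2 + 1 / q ^ 2 * (p2 * q ^ 2)) * u ^ 2)
        = (1 / q ^ 2 * Pp ^ 2 * X - (m0 + m1 * u + m2 * u ^ 2))
          + 1 / q ^ 2 * (Pp ^ 2 * Y - (p0 + p1 * (q * u) + p2 * (q * u) ^ 2)) := by ring
    rw [e1, hqs]
    refine (abs_add_le _ _).trans ?_
    rw [abs_mul, abs_of_pos (by positivity : 0 < 1 / q ^ 2)]
    have a3 : 1 / q ^ 2 * |Pp ^ 2 * Y - (p0 + p1 * (q * u) + p2 * (q * u) ^ 2)|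
        ≤ 1 / q ^ 2 * (10 ^ 7 * k ^ 3 * ω ^ 5 * (3 * |q|) ^ 3) := by gcongr
    have a4 : 1 / q ^ 2 * (10 ^ 7 * k ^ 3 * ω ^ 5 * (3 * |q|) ^ 3)
        = 10 ^ 7 * k ^ 3 * ω ^ 5 * (27 * |q|) := by
      rw [← sq_abs q]
      have : |q| ≠ 0 := abs_ne_zero.mpr hq0
      field_simp
      ring
    have a5 : 10 ^ 7 * k ^ 3 * ω ^ 5 * 3 ^ 3 + 10 ^ 7 * k ^ 3 * ω ^ 5 * (27 * |q|)
        = 10 ^ 7 * k ^ 3 * ω ^ 5 * (27 * (1 + |q|)) := by ring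
    linarith
  have hF : ∀ u ∈ {u | u / Pm ∈ S}, 0 ≤ u → u ≤ 3 →
      |(-(Pm ^ 2 * FT.a k c) + Pm ^ 2 * (D (ao k (pt k 1 (c, sm + u / Pm))) 2 qm
          / rate k c (sm + u / Pm) qm) + Pm ^ 2 * (D (ao k (pt k 1 (c, sp - u / Pm))) 2 qp
          / rate k c (sp - u / Pm) qp))
        + ((Pm / rate k c (sm + u / Pm) qm) ^ 2 / (FT.a k (fam k c (sm + u / Pm) (qm + 1))
          - (D (ao k (pt k 1 (c, sm + u / Pm))) 1 (qm - 1)
              / D (ao k (pt k 1 (c, sm + u / Pm))) 1 qm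
            + D (ao k (pt k 1 (c, sm + u / Pm))) (qm + 3) Em
              / D (ao k (pt k 1 (c, sm + u / Pm))) (qm + 2) Em))
        + 1 / q ^ 2 * ((Pp / rate k c (sp - u / Pm) qp) ^ 2
          / (FT.a k (fam k c (sp - u / Pm) (qp + 1))
          - (D (ao k (pt k 1 (c, sp - u / Pm))) 1 (qp - 1)
              / D (ao k (pt k 1 (c, sp - u / Pm))) 1 qp
            + D (ao k (pt k 1 (c, sp - u / Pm))) (qp + 3) Ep
              / D (ao k (pt k 1 (c, sp - u / Pm))) (qp + 2) Ep))))| ≤ μ / L ^ 2 := by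
    intro u hu h0 h3
    have b1 := side_cf (E := Em) Bm.hpq hEm (hBm u h0 h3).2.ne (hD _ hu) (hD2 _ hu)
    have b2 := side_cf (E := Ep) Bp.hpq hEp (hBp u h0 h3).2.ne (hD' _ hu) (hD2' _ hu)
    exact final_alg hqs b1 b2 (hSg _ hu) rfl
  have hq' : 0 ≤ 960 * k * |q| * ω ^ 2 := by positivity
  obtain ⟨a, b, h1, h2, h3, h4⟩ := zone_abs (κ := 2 * π * k) (xm := fam k c sm (qm + 1))
    (xp := fam k c sp (qp + 1)) (S := {u | u / Pm ∈ S}) N.n1 N.n2 hq1 f1 hα N.n4 hq' f2 f3 N.n7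
    N.n8 N.n9 hXm hXp hQp hXq hgm hgp hem hep hU hF
  obtain ⟨a', b', g1, g2, g3, g4⟩ := back hPm0 h1 h2 h3 h4
  refine ⟨a', b', g1, g2, ?_, g4⟩
  refine le_trans (le_of_eq ?_) g3
  field_simp
  norm_num

end Vale.Agent.P108.H850
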